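import Vale.Agent.P283R.Fk.All

/-!
# P283R, block TK: the theorem for few boundary primes as a black box
-/

open Set

noncomputable section

namespace Vale.Agent.P283R.Tk

open Vale.Agent.P287D Vale.Agent.P283M Vale.Agent.P297Z Cx Cy Cq
open Wc (Sec)

/-- the primes of `X` are dropped, few primes over the boundary are left -/
theorem sub59 (B d q : ℕ) (ε : ℝ) (hq : 0 < q) (hε : 0 < ε) : ∃ m : ℕ, 2 ≤ m ∧
    ForA fun L K _ _ _ _ _ _ _ b y T => ∀ (l : ℕ) (s : Fin l → L) n g κ (Q : Pl K) ξ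
      (E : Finset (Pl K)) (X : Set (Pl K)), l ≤ B → Fk.Kk b s → Pk n d q ε b y T g κ →
      Rep L y T Q ξ → E.card ≤ B → X ⊆ Kt y T b.S → (∀ P ∈ X, ξ P = 0) →
      (∀ P ∈ T \ X, ∀ p ∈ b.S, At P p → P ∈ E) → Sec q m (cz b y) (T \ X) g κ Q := by
  classical
  obtain ⟨m, m2, H⟩ := Fk.pqs38 Fk.rs38 Ck.res31 Fk.crk38 (Fk.hlk38 Fk.rs38 Ck.res31) B d q ε hq hε
  refine ⟨m, m2, fun L K _ _ _ _ _ _ c ρ b y T l s n g κ Q ξ E X lB kk pk rep cE XK X0 hE => ?_⟩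
  have pk1 := drp47 L K c ρ b y T n d q ε g κ X pk
    ((car13 L K c ρ b y T b.S pk.fm).1.subset XK) fun P h => (XK h).2.1
  have r1 : Rep L y (T \ X) Q ξ :=
    ⟨rep.nn, fun P z => ⟨⟨(rep.sup P z).1, fun h => z (X0 P h)⟩, (rep.sup P z).2⟩, rep.eq⟩
  refine H L K c ρ b y _ l s n g κ Q lB kk pk1
    (fun a a0 h => (reg21 L K c ρ b y _ Q ξ a pk1.fm r1 a0 h).1)
    ⟨b.S.filter (Fk.Nq (T \ X) Q), Finset.filter_subset _ _, le_trans ?_ cE,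
      fun p h => (Finset.mem_filter.1 h).2, fun μ h p a r => h p (Finset.mem_filter.2 ⟨a, r⟩)⟩
  refine Finset.card_le_card_of_forall_subsingleton (fun p P => At P p) (fun p a => ?_)
    fun P _ p a p' a' => a.2.uniq a'.2
  obtain ⟨a, P, u, v, -⟩ := Finset.mem_filter.1 a
  exact ⟨P, hE P u p a v, v⟩

/-- the primes over the boundary outside of `E` are dropped -/
theorem sub59' (B d q : ℕ) (ε : ℝ) (hq : 0 < q) (hε : 0 < ε) : ∃ m : ℕ, 2 ≤ m ∧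
    ForA fun L K _ _ _ _ _ _ _ b y T => ∀ (l : ℕ) (s : Fin l → L) n g κ (Q : Pl K) ξ
      (E : Finset (Pl K)), l ≤ B → Fk.Kk b s → Pk n d q ε b y T g κ → Rep L y T Q ξ →
      E.card ≤ B → (∀ P ∈ Kt y T b.S, ξ P ≠ 0 → P ∈ E) →
      Sec q m (cz b y) (T \ (Kt y T b.S \ ↑E)) g κ Q ∧
        Sec q m (cz b y) (T \ {P | (P ∈ T ∧ ∃ p ∈ b.S, At P p) ∧ P ∉ E}) g κ Q := by
  obtain ⟨m, m2, H⟩ := sub59 B d q ε hq hε
  refine ⟨m, m2, fun L K _ _ _ _ _ _ c ρ b y T l s n g κ Q ξ E lB kk pk rep cE hE => ?_⟩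
  have kt : ∀ P ∈ T, ∀ p ∈ b.S, At P p → P ∈ Kt y T b.S := fun P u p a v =>
    ⟨u, not_hz96 y v, fun p' n e => n (v.uniq e ▸ a)⟩
  exact ⟨H L K c ρ b y T l s n g κ Q ξ E _ lB kk pk rep cE sdiff_subset
      (fun P h => by_contra fun z => h.2 (hE P h.1 z))
      fun P u p a v => by_contra fun z => u.2 ⟨kt P u.1 p a v, z⟩,
    H L K c ρ b y T l s n g κ Q ξ E _ lB kk pk rep cE (fun P ⟨⟨u, p, a, v⟩, _⟩ => kt P u p a v)
      (fun P ⟨⟨u, p, a, v⟩, h⟩ => by_contra fun z => h (hE P (kt P u p a v) z))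
      fun P u p a v => by_contra fun z => u.2 ⟨⟨u.1, p, a, v⟩, z⟩⟩

end Vale.Agent.P283R.Tk
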