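import Vale.Agent.P283R.Cq.Pgr67
import Vale.Agent.P283R.Cq.Cnr68
import Vale.Agent.P283R.Cq.Czr60

/-!
# P283R, block TK: the count of the multiple pages at a place of the Cox space
-/

open Set

noncomputable section

namespace Vale.Agent.P283R.Tk.C52

open Vale.Agent.P287D Vale.Agent.P283M Cx Cy Vale.Agent.P297Z Cq
open Vale.Agent.P283R.To (mon)
open P67

variable {L K : Type} [Field L] [Algebra ℂ L] [Field K] [Algebra ℂ K] [Algebra L K]
  [IsScalarTower ℂ L K] {c ρ : ℕ} {b : Ba L c} {y : Fin ρ → K} {T : Set (Pl K)}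

omit [IsScalarTower ℂ L K] in
theorem nz (P : Pl K) (p : Pl L) (a : At P p) : ¬ Hz L y P := fun k => by
  have := k p.t 0 p.t_ne
  simp only [hm, mon, Pi.zero_apply, zpow_zero, Finset.prod_const_one, mul_one] at this
  exact a.e_pos.ne' this

omit [IsScalarTower ℂ L K] in
theorem pT (X : Fm b y T) (P : Pl K) (a : P ∈ T) (p : Pl L) (k : At P p) : p ∈ b.T := by
  obtain n | ⟨p', n, e⟩ := X.pg P a
  exacts [absurd n k.not_trv, e.uniq k ▸ n]

omit [IsScalarTower ℂ L K] in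
theorem fA (X : Fm b y T) (p : Pl L) : {P | P ∈ T ∧ At P p}.Finite :=
  (X.fin (algebraMap L K p.t)).subset fun _ a => ⟨a.1, a.2.e_pos.ne'⟩

/-- **the count** -/
theorem core {l d q : ℕ} {ε : ℝ} {ψ : (Fin ρ → ℤ) →₀ L} {κ : Pl K → ℤ} {Q : Pl K} {ξ : Pl K → ℝ}
    (ε0 : 0 < ε) (hq : 0 < q) (pk : Pk l d q ε b y T (lv y ψ) κ) (rp : Rep L y T Q ξ)
    (m : Pl L → ℕ) (β : Pl L → Pl K) (hβ : ∀ p, m p ≠ 0 → β p ∈ T ∧ At (β p) p) (A : ℝ)
    (m4 : ((∀ φ : L, φ ≠ 0 → ∑ᶠ p, (m p : ℤ) * p.ord φ = 0) ∧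
        0 ≤ A + (∑ p ∈ b.S, m p * (b.e ⬝ᵥ b.D p) : ℤ)) ∨
      ∃ (R : Pl L) (a : ℕ), 0 < a ∧ (∀ φ : L, φ ≠ 0 → ∑ᶠ p, (m p : ℤ) * p.ord φ = a * R.ord φ) ∧
        a * (1 + kap b.s R - R.ord b.h) ≤ A + (∑ p ∈ b.S, m p * (b.e ⬝ᵥ b.D p) : ℤ))
    (Z : Finset (Pl L)) : ∑ p ∈ Z, (m p : ℝ) * (1 - 1 / mu (β p) p) ≤ A := by
  classical
  have X := pk.fm
  have o := pk.ok
  obtain ⟨c1, c2, -⟩ := cz60 L K c ρ b.s y X.ext o.fr
  have m2 : ∀ p ∉ b.T, m p = 0 := fun p n => by_contra fun z =>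
    n (pT X _ (hβ p z).1 p (hβ p z).2)
  obtain ⟨μ, δ, h1, h2⟩ : ∃ (μ : Pl K → ℤ) (δ : Pl K → Fin b.k → ℤ),
      (∀ P p, At P p → μ P = mu P p ∧ δ P = b.D p) ∧
        ∀ P, Trv (algebraMap L K) P → δ P = 0 :=
    ⟨fun P => if h : ∃ p : Pl L, At P p then mu P h.choose else 0,
      fun P => if h : ∃ p : Pl L, At P p then b.D h.choose else 0, fun P p a => by
        have e : ∃ p : Pl L, At P p := ⟨p, a⟩
        simp only [dif_pos e, e.choose_spec.uniq a, and_self], fun P a => dif_neg a.not_lies⟩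
  have fD : ∀ a : Fin b.k → ℤ, {P | P ∈ T ∧ μ P * (a ⬝ᵥ δ P) ≠ 0}.Finite := fun a =>
    (b.S.finite_toSet.biUnion fun p _ => fA X p).subset fun P ⟨k, z⟩ => by
      obtain n | ⟨p, n, e⟩ := X.pg P k
      · simp [h2 P n] at z
      · exact mem_biUnion (show p ∈ b.S from by_contra fun j => by
          simp [(h1 P p e).2, o.sup p n j] at z) ⟨k, e⟩
  have fs : ∀ {η : Pl K → ℝ}, (∀ P, η P ≠ 0 → P ∈ T) → ∀ {F : Pl K → ℤ},
      {P | P ∈ T ∧ F P ≠ 0}.Finite → (Function.support fun P => η P * (F P : ℝ)).Finite :=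
    fun h _ hF => hF.subset fun P z => ⟨h P (left_ne_zero_of_mul z),
      Int.cast_ne_zero.1 (right_ne_zero_of_mul z)⟩
  have cz1 : ∀ P p, P ∈ T → At P p → mu P p * (1 + b.e ⬝ᵥ b.D p) - 1 ≤ cz b y P := fun P p a k => by
    have a1 := c2 P p k
    rw [o.can.2 p (pT X P a p k), ← c1 P] at a1
    have a2 : mu P p * (1 + (p.ord b.h + b.e ⬝ᵥ b.D p)) ≤ ⌊lt b.s y P⌋ := by exact_mod_cast a1
    rw [cz, k.ord, ← mu]
    linarith
  have bi : ∀ p p', m p ≠ 0 → m p' ≠ 0 → β p = β p' → p = p' := fun p p' i j e =>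
    (hβ p i).2.uniq (e ▸ (hβ p' j).2)
  have μ0 : ∀ p, m p ≠ 0 → 0 < mu (β p) p := fun p z => (hβ p z).2.e_pos
  obtain ⟨θ, θ0, θ1, θ2⟩ : ∃ θ : Pl K → ℚ, (∀ E, 0 ≤ θ E) ∧
      (∀ E, θ E ≠ 0 → ∃ p, m p ≠ 0 ∧ β p = E) ∧
      ∀ p, m p ≠ 0 → θ (β p) = m p / mu (β p) p := by
    refine ⟨fun E => if h : ∃ p, m p ≠ 0 ∧ β p = E then m h.choose / mu E h.choose else 0,
      fun E => ?_, fun E z => by_contra fun n => z (dif_neg n), fun p z => ?_⟩
    · by_cases h : ∃ p, m p ≠ 0 ∧ β p = E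
      · have := (μ0 _ h.choose_spec.1).le
        rw [h.choose_spec.2] at this
        simp only [dif_pos h]
        exact div_nonneg (Nat.cast_nonneg _) (Int.cast_nonneg this)
      · simp only [dif_neg h, le_rfl]
    · have h : ∃ p', m p' ≠ 0 ∧ β p' = β p := ⟨p, z, rfl⟩
      have : h.choose = p := bi _ _ h.choose_spec.1 z h.choose_spec.2
      simp only [dif_pos h, this]
  obtain ⟨t, v, t0, hv⟩ := C67.den fun j => ∑ᶠ E, θ E * E.ord (y j)
  obtain ⟨η, hη⟩ : ∃ η : Pl K → ℝ, ∀ E, η E = t * θ E := ⟨_, fun _ => rfl⟩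
  have η0 : 0 ≤ η := fun E => by
    have : (0 : ℝ) ≤ θ E := Rat.cast_nonneg.2 (θ0 E)
    rw [hη]
    positivity
  have η1' : ∀ E, η E ≠ 0 → ∃ p, m p ≠ 0 ∧ β p = E := fun E z => θ1 E fun n => z (by simp [hη, n])
  have η1 : ∀ E, η E ≠ 0 → ∃ p : Pl L, E ∈ T ∧ At E p := fun E z => by
    obtain ⟨p, k, rfl⟩ := η1' E z
    exact ⟨p, hβ p k⟩
  have η2 : ∀ p : Pl L, ∑ᶠ E, η E * (if E ∈ T ∧ At E p then μ E else 0 : ℤ) = t * m p := fun p => by
    have o : ∀ E, (m p ≠ 0 → E ≠ β p) → η E * (if E ∈ T ∧ At E p then μ E else 0 : ℤ) = 0 :=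
      fun E n => by
        by_cases z : η E = 0
        · simp [z]
        · obtain ⟨p', k, rfl⟩ := η1' E z
          rw [if_neg fun a => by
            obtain rfl : p = p' := a.2.uniq (hβ p' k).2
            exact n k rfl]
          simp
    by_cases z : m p = 0
    · rw [finsum_eq_zero_of_forall_eq_zero fun E => o E fun n => absurd z n, z]
      simp
    · have m0 : (mu (β p) p : ℝ) ≠ 0 := Int.cast_ne_zero.2 (μ0 p z).ne'
      rw [finsum_eq_single _ (β p) fun E n => o E fun _ => n, hη, θ2 p z, if_pos (hβ p z),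
        (h1 _ p (hβ p z).2).1]
      push_cast
      rw [mul_assoc, div_mul_cancel₀ _ m0]
  have η3 : ∀ j, ∑ᶠ P, η P * P.ord (y j) = v j := fun j => by
    have a := congrArg (Rat.castHom ℝ) (hv j)
    have b := (Rat.castHom ℝ).toAddMonoidHom.map_finsum_of_injective Rat.cast_injective
      fun E => θ E * E.ord (y j)
    simp only [hη, mul_assoc, ← mul_finsum]
    simp only [RingHom.toAddMonoidHom_eq_coe, AddMonoidHom.coe_coe, map_mul, map_natCast,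
      map_intCast] at a b
    rw [← a, b]
    rfl
  have ηT : ∀ P, η P ≠ 0 → P ∈ T := fun P z => (η1 P z).elim fun _ a => a.1
  have pu := push (A := fun P (p : Pl L) => P ∈ T ∧ At P p) (fun _ _ _ a k => a.2.uniq k.2) (fA X)
    (fun P p a => pT X P a.1 p a.2) m2 η1 (μ := μ) (t := t) fun p => by
      rw [← η2 p]
      exact finsum_congr fun E => by rw [Subsingleton.elim (Classical.propDecidable _)]
  have p1 : ∀ φ : L, ∑ᶠ P, η P * P.ord (algebraMap L K φ) =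
      t * (∑ᶠ p, m p * p.ord φ : ℤ) := fun φ =>
    pu (fun p => p.ord φ) (by simpa using o.cox.fin φ 0) _ fun P p a => by
      rw [a.2.ord, (h1 P p a.2).1, mu]
  have p2 := pu (fun p => b.e ⬝ᵥ b.D p) (b.S.finite_toSet.subset fun p ⟨a, z⟩ =>
    by_contra fun n => z (by simp [o.sup p a n])) (fun P => μ P * (b.e ⬝ᵥ δ P))
    fun P p a => by rw [(h1 P p a.2).2]
  rw [finsum_eq_sum_of_support_subset (fun p => (m p : ℤ) * (b.e ⬝ᵥ b.D p)) (s := b.S)
    fun p z => by_contra fun n => by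
      by_cases a : p ∈ b.T
      · simp [o.sup p a n] at z
      · simp [m2 p a] at z] at p2
  obtain ⟨u, hu, k⟩ := cnr68 cz60 L K c ρ b y T l d q ε ψ κ Q ξ η v
    (t * (A + (∑ p ∈ b.S, m p * (b.e ⬝ᵥ b.D p) : ℤ))) ε0 pk rp η0
    (fun P z => (η1 P z).elim fun p a => ⟨a.1, nz P p a.2⟩) η3
    (m4.imp (fun a => ⟨fun φ φ0 => by simp [p1, a.1 φ φ0], mul_nonneg (Nat.cast_nonneg t) a.2⟩)
      fun ⟨R, a, a0, a1, a2⟩ => ⟨R, t * a, mul_pos t0 a0, fun φ φ0 => by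
        rw [p1, a1 φ φ0]
        push_cast
        ring, by
        rw [Nat.cast_mul, mul_assoc]
        exact mul_le_mul_of_nonneg_left a2 (Nat.cast_nonneg t)⟩)
  have lo : ∀ p, m p ≠ 0 → (q : ℤ) * (mu (β p) p - 1) ≤ (β p).ord (hm y (ψ u) u) + κ (β p) -
      q * (μ (β p) * (b.e ⬝ᵥ δ (β p))) := fun p z => by
    obtain ⟨a, k⟩ := hβ p z
    have := mul_le_mul_of_nonneg_left (cz1 _ p a k) (Int.natCast_nonneg q)
    rw [(h1 _ p k).1, (h1 _ p k).2]
    linarith [X.inv _ a (nz _ p k) ψ u (Finsupp.mem_support_iff.2 hu), pk.eff _ a]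
  have s1 := fs ηT (X.fin (hm y (ψ u) u))
  have s2 := fs ηT pk.fin
  have s3 : (Function.support fun P => (q : ℝ) * (η P * (μ P * (b.e ⬝ᵥ δ P) : ℤ))).Finite :=
    (fs ηT (fD b.e)).subset fun P z => right_ne_zero_of_mul z
  have e1 : ∀ P, η P * (P.ord (hm y (ψ u) u) + κ P - q * (μ P * (b.e ⬝ᵥ δ P)) : ℤ) =
      η P * P.ord (hm y (ψ u) u) + η P * κ P - q * (η P * (μ P * (b.e ⬝ᵥ δ P) : ℤ)) :=
    fun P => by
      push_cast
      ring
  have s4 := C67.le_fs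
    (f := fun P => η P * (P.ord (hm y (ψ u) u) + κ P - q * (μ P * (b.e ⬝ᵥ δ P)) : ℤ))
    (by
      simp only [e1]
      exact (((s1.union s2).subset (Function.support_add _ _)).union s3).subset
        (Function.support_sub _ _))
    (fun E => by
      by_cases z : η E = 0
      · simp [z]
      · obtain ⟨p, z', rfl⟩ := η1' E z
        exact mul_nonneg (η0 _) (Int.cast_nonneg ((mul_nonneg (Int.natCast_nonneg q) (by
          have := μ0 p z'
          omega)).trans (lo p z')))) ((Z.filter (m · ≠ 0)).image β)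
  rw [Finset.sum_image fun p i p' j e =>
    bi p p' (Finset.mem_filter.1 i).2 (Finset.mem_filter.1 j).2 e] at s4
  have s5 : ∑ᶠ P, η P * (P.ord (hm y (ψ u) u) + κ P - q * (μ P * (b.e ⬝ᵥ δ P)) : ℤ) ≤
      t * q * A := by
    simp only [e1]
    rw [finsum_sub_distrib ((s1.union s2).subset (Function.support_add _ _)) s3,
      finsum_add_distrib s1 s2, ← mul_finsum, p2]
    linarith
  have t1 : (0 : ℝ) < t * q := mul_pos (Nat.cast_pos.2 t0) (Nat.cast_pos.2 hq)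
  refine le_of_mul_le_mul_left (le_trans ?_ (s4.trans s5)) t1
  rw [Finset.mul_sum, Finset.sum_filter]
  refine Finset.sum_le_sum fun p _ => ?_
  by_cases z : m p = 0
  · simp [z]
  have m0 : (0 : ℝ) < mu (β p) p := Int.cast_pos.2 (μ0 p z)
  have n1 : (q : ℝ) * (mu (β p) p - 1) ≤ ((β p).ord (hm y (ψ u) u) + κ (β p) -
      q * (μ (β p) * (b.e ⬝ᵥ δ (β p))) : ℤ) := by exact_mod_cast lo p z
  rw [if_pos z]
  refine le_trans (le_of_eq ?_) (mul_le_mul_of_nonneg_left n1 (η0 _))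
  rw [hη, θ2 p z]
  push_cast
  field_simp

end Vale.Agent.P283R.Tk.C52
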