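import Vale.Agent.P283R.Tk.St
import Vale.Agent.P283R.He.Dbl62

/-!
# P283R, block TK: Helly over the primes over the boundary
-/

open Set

noncomputable section

namespace Vale.Agent.P283R.Tk

open Vale.Agent.P287D Vale.Agent.P283M Cx Cy Cq Ck
open Vale.Agent.P283R.To (mon)

/-- **FIR** -/
theorem fir62 : FIR := fun zm dec orm box C l d q ε q0 ε0 => by
  classical
  obtain ⟨m, m2, hb⟩ := box (2 ^ (d + l + 1 + C)) l d q ε q0 ε0
  refine ⟨2 * m, by omega, fun L K _ _ _ _ _ _ c ρ b y T s ψ κ Q ξ ξ' I D J a st vx cJ se => ?_⟩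
  obtain ⟨n₀, pk⟩ := st.pk
  have fm := pk.fm
  have dim := pk.dim
  have g0 := pk.g0
  obtain ⟨fin, ⟨f, hf⟩, -⟩ := car13 L K c ρ b y T b.S fm
  have fp : ∀ p, {P | P ∈ T ∧ At P p}.Finite := fun p =>
    (fm.fin (algebraMap L K p.t)).subset fun P h => ⟨h.1, h.2.e_pos.ne'⟩
  let N := I.filter fun p => p ∉ b.S ∧ ∃ P ∈ T, At P p
  have hN : Np b T I N := fun p => Finset.mem_filter
  have nT : ∀ p ∈ N, p ∈ b.T ∧ p ∉ b.S := fun p hp => by
    obtain ⟨-, h, P, hP, x⟩ := (hN p).1 hp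
    refine ⟨?_, h⟩
    rcases fm.pg P hP with z | ⟨p', z, x'⟩
    · exact absurd z x.not_trv
    · exact x'.uniq x ▸ z
  have hv : ∀ p, Hv b T p → p ∈ N := fun p ⟨_, n, P, h1, h2, h3⟩ => (hN p).2 ⟨by
    by_contra x
    have := (st.od.od.od P h1 p x h2).1
    omega, n, P, h1, h2⟩
  let F : Pl L → Finset (Pl K × Pl L) := fun p => (fp p).toFinset ×ˢ {p}
  have hF : ∀ p j, j ∈ F p ↔ (j.1 ∈ T ∧ At j.1 p) ∧ j.2 = p := fun p j => by
    simp only [F, Finset.mem_product, Finite.mem_toFinset, Finset.mem_singleton]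
    rfl
  let Z : Pl K → Fin ρ ⊕ Fin l ⊕ Unit → ℤ := fun P => Sum.elim (fun j => P.ord (y j))
    (Sum.elim (fun i => P.ord (algebraMap L K (s i))) fun _ => P.ord (algebraMap L K f))
  let M : (Fin ρ ⊕ Fin l ⊕ Unit → ℤ) → (Pl L → ℤ) → K := fun x n =>
    mo b s y f a N (fun j => x (.inl j)) (fun j => x (.inr (.inl j))) (x (.inr (.inr ()))) n
  have om := fun (x : Fin ρ ⊕ Fin l ⊕ Unit → ℤ) n => orm L K c ρ b y T l s d q ε ψ κ Q ξ I a N f
    (fun j => x (.inl j)) (fun j => x (.inr (.inl j))) (x (.inr (.inr ()))) n st hN hf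
  have o1 : ∀ x n P, P.ord (M x n) = Z P ⬝ᵥ x - ∑ p ∈ N, wd b s p (a p) P * n p := fun x n P => by
    rw [(om x n).2.1 P]
    simp only [Z, dotProduct, Fintype.sum_sum_type, Sum.elim_inl, Sum.elim_inr, mul_comm,
      Finset.univ_unique, Finset.sum_singleton, add_assoc, PUnit.default_eq_unit]
  have o2 : ∀ (x : Fin ρ ⊕ Fin l ⊕ Unit → ℤ) (P : Pl K),
      (Sum.elim (fun j => P.ord (y j)) 0 : Fin ρ ⊕ Fin l ⊕ Unit → ℤ) ⬝ᵥ x =
        ∑ j, x (.inl j) * P.ord (y j) := fun x P => by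
    simp only [dotProduct, Fintype.sum_sum_type, Sum.elim_inl, Sum.elim_inr,
      Pi.zero_apply, zero_mul, Finset.sum_const_zero, add_zero, mul_comm]
  have o3 : ∀ (x : Fin ρ ⊕ Fin l ⊕ Unit → ℤ) (n : Pl L → ℤ) (j : Fin l),
      (Pi.single (.inr (.inl j)) 1 : Fin ρ ⊕ Fin l ⊕ Unit → ℤ) ⬝ᵥ x - ∑ p ∈ N, (a p j : ℤ) * n p =
        x (.inr (.inl j)) - ∑ p ∈ N, n p * (a p j : ℤ) := fun x n j => by
    simp only [single_dotProduct, one_mul, mul_comm]
  let R := fin.toFinset.disjSum (Finset.univ.filter (Zr b s T))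
  have r1 : ∀ P, Sum.inl P ∈ R ↔ P ∈ Kt y T b.S := fun P => by
    simp only [R, Finset.inl_mem_disjSum, Finite.mem_toFinset]
  have r2 : ∀ j, Sum.inr j ∈ R ↔ Zr b s T j := fun j => by
    simp only [R, Finset.inr_mem_disjSum, Finset.mem_filter, Finset.mem_univ, true_and]
  obtain ⟨x, n, h1, h2, h3⟩ := He.C62.dbl R N J (N.filter fun p => Hv b T p ∧ p ∉ J) F
    (fun j => mu j.1 j.2) (fun j => m * κ j.1)
    (fun j => (Sum.elim (fun i => j.1.ord (y i)) 0 : Fin ρ ⊕ Fin l ⊕ Unit → ℤ))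
    (Sum.elim Z fun j => Pi.single (.inr (.inl j)) 1)
    (Sum.elim (fun P p => wd b s p (a p) P) fun j p => a p j) (Sum.elim (fun P => m * κ P) 0)
    (Z Q) (fun p => -wd b s p (a p) Q)
    (q * m * (cz b y Q + 1) - Q.ord (lv y ψ ^ m)) (fun p hp => hv p (se.hJ p hp))
    (fun p hp => ⟨(Finset.mem_filter.1 hp).1, (Finset.mem_filter.1 hp).2.2⟩)
    (fun p hp => let ⟨P, h⟩ := ((hN p).1 hp).2.2; ⟨(P, p), (hF p _).2 ⟨h, rfl⟩⟩)
    (fun p _ j hj => by
      obtain ⟨h, e⟩ := (hF p j).1 hj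
      exact e ▸ h.2.e_pos)
    (by
      rintro (P | j) hP p hp -
      · exact (zm L K c ρ b y T l s Q ξ p (nT p hp).1 (nT p hp).2 st.k0 fm st.rep).2.2.1 _
          (se.su p (nT p hp).1 (nT p hp).2) P ((r1 P).1 hP)
      · exact Int.natCast_nonneg _)
    (fun p hp hJ => neg_nonneg.2 (se.c0 p (nT p hp).1 (nT p hp).2 hJ))
    (fun p hp hJ hH j hj => by
      obtain ⟨h, e⟩ := (hF p j).1 hj
      by_contra z
      exact hH (Finset.mem_filter.2 ⟨hp, ⟨(nT p hp).1, (nT p hp).2, j.1, h.1, h.2, by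
        rw [e] at z
        omega⟩, hJ⟩))
    (fun p hp => neg_eq_zero.2 (se.hc p (Finset.mem_filter.1 hp).2.1 (Finset.mem_filter.1 hp).2.2))
    (by
      rintro (P | j) hP
      · exact se.hw P ((r1 P).1 hP) _ fun p hp => (Finset.mem_filter.1 hp).2
      · refine (Finset.sum_eq_zero fun p hp => ?_).trans_le zero_le_one
        exact Int.natCast_eq_zero.2 (se.hz p (Finset.mem_filter.1 hp).2.1
          (Finset.mem_filter.1 hp).2.2 j ((r2 j).1 hP)))
    fun t ht hc => by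
      obtain ⟨v, u, i, n, k0, k3, k1, k2⟩ := dec L K c ρ b y T l s d q ε ψ κ Q ξ I a N f m _ st hN hf
        sdiff_subset (hb L K c ρ b y T s ψ κ Q ξ ξ' I D t.toLeft st vx
          (Finset.card_toLeft_le.trans (hc.trans (Nat.pow_le_pow_right (by norm_num) (by
            simp only [Fintype.card_sum, Fintype.card_fin, Fintype.card_unique]
            omega)))))
      let x : Fin ρ ⊕ Fin l ⊕ Unit → ℤ := Sum.elim v (Sum.elim u fun _ => i)
      refine ⟨x, n, fun p hp j hj => ?_, ?_, ?_⟩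
      · obtain ⟨h, e⟩ := (hF p j).1 hj
        rw [e, o2]
        exact k0 p hp j.1 h.1 h.2
      · rintro (P | j) hP
        · exact (k1 P ⟨(r1 P).1 (ht hP), fun z =>
            z.2 (Or.inr (Finset.mem_toLeft.2 hP))⟩).trans_eq (o1 x n P)
        · exact (sub_nonneg.2 (k3 j)).trans_eq (o3 x n j).symm
      · have := o1 x n Q
        rw [Q.ord_mul (pow_ne_zero _ g0) (show mo b s y f a N v u i n ≠ 0 from (om x n).1)] at k2
        simp only [neg_mul, Finset.sum_neg_distrib]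
        change Q.ord (mo b s y f a N v u i n) = _ at this
        linarith
  refine ⟨M x n, (om x n).1, fun P hP => ?_, ?_⟩
  · by_cases k : P ∈ Kt y T b.S
    · push_cast
      rw [mul_assoc]
      exact (h2 (.inl P) ((r1 P).2 k)).trans_eq (o1 x n P).symm
    · refine (om x n).2.2 (2 * m) (fun p hp P hP h => ?_) (fun j hj => ?_) P hP k
      · have := h1 p hp (P, p) ((hF p _).2 ⟨⟨hP, h⟩, rfl⟩)
        rw [o2] at this
        push_cast
        rw [mul_assoc]
        exact this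
      · have := (h2 (.inr j) ((r2 j).2 hj)).trans_eq (o3 x n j)
        simp only [Sum.elim_inr, Pi.zero_apply, mul_zero] at this
        exact sub_nonneg.1 this
  · rw [mul_comm 2 m, pow_mul, sq, Q.ord_mul (mul_ne_zero (pow_ne_zero _ g0) (pow_ne_zero _ g0))
      (om x n).1, Q.ord_mul (pow_ne_zero _ g0) (pow_ne_zero _ g0)]
    have := o1 x n Q
    simp only [neg_mul, Finset.sum_neg_distrib] at h3
    push_cast
    linarith

end Vale.Agent.P283R.Tk
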