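import Vale.Agent.P283R.Tk.St
import Vale.Agent.P283R.Ck.Rs45

/-!
# P283R, block TK: few heavy pages have a positive mass
-/

open Set

noncomputable section

namespace Vale.Agent.P283R.Tk

open Vale.Agent.P287D Vale.Agent.P283M Cx Cy Cq Ck Vale.Agent.P297Z

/-- **HVR** -/
theorem hvr28 : HVR := fun rs wx cor l d => ⟨2 * (d + (l + d + l)),
  fun L K _ _ _ _ _ _ c ρ b y T s q ε ψ κ Q ξ ξ' I D st vx => by
  classical
  obtain ⟨n, pk⟩ := st.pk
  obtain ⟨b', h⟩ := rs L c l b s _ st.k0 (S45.pg_sub (b := b) D)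
  have e : (∅ : Finset (Pl L)) ∪ b.S = b.S := Finset.empty_union _
  have p' := S45.pk (J := ∅) h (car13 L K c ρ b y T _ pk.fm).1 pk
  rw [e] at p'
  have rp := S45.rep vx.rep vx.ray
  generalize hT : T \ (Kt y T b.S \ ↑D) = T' at p' rp
  have kp : ∀ P ∈ T, ∀ p ∉ b.S, At P p → P ∈ T' := fun P a p u k => hT ▸ S45.keep a u k
  have o := p'.ok
  have pT : ∀ P ∈ T', ∀ p, At P p → p ∈ b'.T := fun P a p k => by
    obtain n | ⟨p', n, e⟩ := p'.fm.pg P a
    exacts [absurd n k.not_trv, e.uniq k ▸ n]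
  obtain ⟨x, hx⟩ := wx L K c ρ b' y T' _ Q ξ' o p'.fm rp
  have hl := fun p (u : p ∈ b'.T) => hx (b'.lam p) (b'.dg p) (o.l0 p) fun p' v => by
    rw [o.lam p u p' v]
    positivity
  obtain ⟨m, e, e0, m1, m2, m3, m4⟩ := gp36 L K c ρ b' y T' _ Q x
    {p | p ∈ b'.T ∧ ¬ ∃ P ∈ T', At P p} o
    (fun j => (hx _ _ (o.cox.ne j) ((o.cox.sec _ _ (o.cox.ne j)).1 (An.gen_sp j))).1) p'.fm.mis
    fun p hp => ⟨hp.1, (hl p hp.1).2.2 fun P p' z k => by
      rw [o.lam p hp.1 p' (pT P (rp.sup P z).1 p' k),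
        if_neg fun (u : p' = p) => hp.2 ⟨P, (rp.sup P z).1, u ▸ k⟩]⟩
  have ch : ∀ p : Pl L, ∃ P : Pl K, (m p ≠ 0 → P ∈ T' ∧ At P p) ∧
      (Hv b T p → 3 ≤ mu P p) := fun p => by
    by_cases u : Hv b T p
    · obtain ⟨-, u1, P, a, k, w⟩ := u
      exact ⟨P, fun _ => ⟨kp P a p u1 k, k⟩, fun _ => w⟩
    by_cases z : m p = 0
    · exact ⟨Q, fun w => (w z).elim, fun w => (u w).elim⟩
    obtain ⟨P, a, k⟩ : ∃ P ∈ T', At P p := by_contra fun w =>
      z (m1 p ⟨by_contra fun v => z (m2 p v), w⟩)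
    exact ⟨P, fun _ => ⟨a, k⟩, fun w => (u w).elim⟩
  choose r r1 r2 using ch
  let H := I.filter fun p => Hv b T p ∧ ∃ P, At P p ∧ ξ' P ≠ 0
  have k := cor L K c ρ b' y T' _ d q ε ψ κ Q ξ' m ((c + ((S45.pg b D).card + l : ℕ)) * e) r H st.e0
    st.q0 p' rp (fun p z => ⟨by_contra fun v => z (m2 p v), r1 p z⟩) m4
  have lo : ∀ p ∈ H, (e : ℝ) * (2 / 3) ≤ m p * (1 - 1 / mu (r p) p) := fun p u => by
    obtain ⟨-, v, P, a, z⟩ := Finset.mem_filter.1 u
    have t := pT P (rp.sup P z).1 p a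
    have w : e ≤ m p := m3 p t ((hl p t).1.lt_of_ne' fun w => by
      have := (hl p t).2.1 w P p z a
      rw [o.lam p t p t, if_pos rfl] at this
      exact one_ne_zero this)
    have w3 : (3 : ℝ) ≤ mu (r p) p := by exact_mod_cast r2 p v
    have := one_div_le_one_div_of_le (by norm_num) w3
    exact mul_le_mul (Nat.cast_le.2 w) (by linarith) (by norm_num) (Nat.cast_nonneg _)
  have s1 := (Finset.card_nsmul_le_sum H _ _ lo).trans k
  have s2 := S45.pg_card (b := b) D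
  have s3 := vx.card
  have s4 := pk.dim
  refine ⟨H, ?_, fun p v u P a => by_contra fun z => u (Finset.mem_filter.2 ⟨by_contra fun i => ?_,
    v, P, a, z⟩)⟩
  · rw [nsmul_eq_mul] at s1
    push_cast at s1
    have e1 : (0 : ℝ) < e := Nat.cast_pos.2 e0
    have : (2 * H.card : ℝ) ≤ 3 * (c + ((S45.pg b D).card + l)) :=
      le_of_mul_le_mul_right (by linarith) e1
    have : 2 * H.card ≤ 3 * (c + ((S45.pg b D).card + l)) := by exact_mod_cast this
    omega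
  · obtain ⟨-, -, P', a', k', w⟩ := v
    have := (st.od.od.od P' a' p i k').1
    omega⟩

end Vale.Agent.P283R.Tk
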