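import Vale.Agent.P283R.Tk.St

/-!
# P283R, block TK: the row LPR
-/

set_option linter.all false

open Set

noncomputable section

namespace Vale.Agent.P283R.Tk

open Vale.Agent.P287D Vale.Agent.P283M Vale.Agent.P297Z Cx Cy Cq Ck

namespace L12

variable {L : Type} [Field L] [Algebra ℂ L] {c l : ℕ} {b : Ba L c} {m : Pl L → ℕ}

theorem term (P : Pl L) {S : Set L} {φ : L} (h : φ ∈ Submodule.span ℂ S) (φ0 : φ ≠ 0) :
    ∃ x ∈ S, x ≠ 0 ∧ P.ord x ≤ P.ord φ := by
  by_contra! c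
  have : Submodule.span ℂ S ≤ P.sub (-(P.ord φ + 1)) := Submodule.span_le.2 fun x hx => by
    rcases eq_or_ne x 0 with rfl | x0
    · exact zero_mem _
    · have h2 : (P.ord φ : ℝ) + 1 ≤ P.ord x := by exact_mod_cast c x hx x0
      exact .inr (by linarith)
  linarith [(this h).resolve_left φ0]

theorem low {B : ℤ} (h : Ms b m B) (P : Pl L) {S : Set L} {φ : L} (hφ : φ ∈ Submodule.span ℂ S)
    (φ0 : φ ≠ 0) : ∃ x ∈ S, ∑ᶠ p, (m p : ℤ) * p.ord x ≤ ∑ᶠ p, (m p : ℤ) * p.ord φ := by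
  obtain ⟨h, -⟩ | ⟨R, a, -, h, -⟩ := h
  · obtain ⟨x, u, v, -⟩ := term P hφ φ0
    exact ⟨x, u, by rw [h x v, h φ φ0]⟩
  · obtain ⟨x, u, v, w⟩ := term R hφ φ0
    exact ⟨x, u, by rw [h x v, h φ φ0]; exact mul_le_mul_of_nonneg_left w (Int.natCast_nonneg _)⟩

theorem gen {N k : ℕ} (s : Fin N → L) (a : Fin N → Fin k → ℤ) (j : Fin N) : s j ∈ Sp s a (a j) :=
  Submodule.subset_span ⟨Pi.single j 1, funext fun i => by
    simp [dg, Pi.single_apply], by simp [Pi.single_apply, pow_ite]⟩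

/-- the sum over the boundary and the rest -/
theorem spl (S : Finset (Pl L)) {f : Pl L → ℤ} (h : (Function.support f).Finite) :
    open Classical in ∑ᶠ p, f p = ∑ p ∈ S, f p + ∑ᶠ p, if p ∈ S then 0 else f p := by
  classical
  have e : ∑ p ∈ S, f p = ∑ᶠ p, if p ∈ S then f p else 0 := by
    rw [finsum_eq_sum_of_support_subset (s := S) (fun p => if p ∈ S then f p else 0)
      fun p z => by_contra fun n => z (if_neg fun t => n (Finset.mem_coe.2 t))]
    exact Finset.sum_congr rfl fun p z => (if_pos z).symm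
  rw [e, ← finsum_add_distrib (h.subset fun p z w => z (by simp [w]))
    (h.subset fun p z w => z (by simp [w]))]
  exact finsum_congr fun p => by split_ifs <;> simp

end L12

open L12 in
/-- **LPR** -/
theorem lpr12 : LPR := by
  intro wgp wx cor L K _ _ _ _ _ _ c ρ b y T l s d q ε ψ κ Q ξ I H A S ω ν st hH hS hν
  classical
  obtain ⟨n, pk⟩ := st.pk
  have ok := pk.ok
  have fm := pk.fm
  have k0 := st.k0
  have am : ∀ {P p}, P ∈ T → At P p → p ∈ b.T := fun a z => W45.at_mem fm a z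
  obtain ⟨x, hx⟩ := wx L K c ρ b y T n Q ξ ok fm st.rep
  have lm : ∀ p ∈ b.T, ∀ p' ∈ b.T, 0 ≤ p'.ord (b.lam p) + b.dg p ⬝ᵥ b.D p' := fun p a p' a' => by
    rw [ok.lam p a p' a']
    split_ifs <;> simp
  obtain ⟨C, hC⟩ := wgp L K c ρ b y T n Q x {p | p ∈ b.T ∧ ¬ ∃ P ∈ T, At P p} ok
    (fun j => (hx _ _ (ok.cox.ne j) ((ok.cox.sec _ _ (ok.cox.ne j)).1 (gen _ _ j))).1) fm.mis
    fun p ⟨a, z⟩ => ⟨a, (hx _ _ (ok.l0 p) (lm p a)).2.2 fun P p' u v => by
      rw [ok.lam p a p' (am (st.rep.sup P u).1 v), if_neg fun e : p' = p =>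
        z ⟨P, (st.rep.sup P u).1, e ▸ v⟩]⟩
  let δ : Fin l → Fin b.k → ℤ := fun j => -∑ F ∈ b.S, F.ord (s j) • b.dg F
  have hδ : ∀ j, ∀ p ∈ b.T, p.ord (s j) + δ j ⬝ᵥ b.D p = if p ∈ b.S then 0 else p.ord (s j) :=
    fun j p a => by
      have : ∀ F ∈ b.S, (F.ord (s j) • b.dg F) ⬝ᵥ b.D p = if p = F then F.ord (s j) else 0 :=
        fun F z => by
          have := ok.lam F (k0.mb.sub z) p a
          rw [k0.one F z, Pl.ord_one, zero_add] at this
          rw [smul_dotProduct, this]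
          simp
      rw [neg_dotProduct, sum_dotProduct, Finset.sum_congr rfl this, Finset.sum_ite_eq]
      split_ifs <;> simp
  have s1 : ∀ j, ∀ p ∈ b.T, 0 ≤ if p ∈ b.S then 0 else p.ord (s j) := fun j p a => by
    split_ifs with z
    · rfl
    · exact (k0.mb.s0 j).2 p a z
  have nh : ∀ {P : Pl K} {p}, At P p → ¬ Hz L y P := fun {P p} a z =>
    a.e_pos.ne' (W45.hz_alg z p.t_ne)
  let S' := b.S.filter fun F => ∃ P ∈ S, At P F
  let N' := Finset.univ.filter fun j => ν j ≠ 0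
  let w : Pl L → ℕ := fun F => ∑ P ∈ S with At P F, ω P * (mu P F).toNat
  let k := 3 * C + 1
  obtain ⟨m, e, e0, m1, m2, m3, ms⟩ := hC (S' ⊕ N') (Sum.elim (fun F => b.lam F) fun j => s j)
    (Sum.elim (fun F => b.dg F) fun j => δ j) (Sum.elim (fun F => k * w F) fun j => k * ν j) (by
      rintro (⟨F, h⟩ | ⟨j, h⟩)
      · obtain ⟨a, P, u, v⟩ := Finset.mem_filter.1 h
        have a' := k0.mb.sub a
        have := hx _ _ (ok.l0 F) (lm F a')
        refine ⟨ok.l0 F, lm F a', this.1.lt_of_ne' fun z => ?_⟩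
        have := this.2.1 z P F (st.pos P ⟨(hS P u).1, (hS P u).2.1, fun p r t =>
          (hS P u).2.2 p (fun i => r (st.od.od.co i)) t⟩).ne' v
        rw [ok.lam F a' F a', if_pos rfl] at this
        exact one_ne_zero this
      · obtain ⟨P, u, p, a, v, z⟩ := hν j (Finset.mem_filter.1 h).2
        have g : ∀ p ∈ b.T, 0 ≤ p.ord (s j) + δ j ⬝ᵥ b.D p := fun p a => hδ j p a ▸ s1 j p a
        have := hx _ _ (k0.mb.s0 j).1 g
        refine ⟨(k0.mb.s0 j).1, g, this.1.lt_of_ne' fun t => ?_⟩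
        obtain ⟨i, hi⟩ := k0.sg j
        have := this.2.1 t P p (st.pos P ⟨u, nh v, fun p' r t => z (by
          rw [← hi, v.uniq t]; exact st.od.s0 i p' (am u t) r)⟩).ne' v
        rw [hδ j p (am u v), if_neg a] at this
        exact z this)
  have mT : ∀ p, m p ≠ 0 → p ∈ b.T ∧ ∃ P ∈ T, At P p := fun p z =>
    ⟨by_contra fun a => z (m2 p a), by_contra fun a => z (m1 p ⟨by_contra fun a => z (m2 p a), a⟩)⟩
  have fs : ∀ φ : L, (Function.support fun p => (m p : ℤ) * p.ord φ).Finite := fun φ =>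
    (k0.mb.fin φ).subset fun p z =>
      ⟨(mT p (by simpa using left_ne_zero_of_mul z)).1, right_ne_zero_of_mul z⟩
  have cg : ∀ {f g : Pl L → ℤ}, (∀ p ∈ b.T, f p = g p) →
      ∑ᶠ p, (m p : ℤ) * f p = ∑ᶠ p, (m p : ℤ) * g p := fun h => finsum_congr fun p => by
    by_cases z : m p = 0
    · simp [z]
    · rw [h p (mT p z).1]
  have sg : ∀ p, ∑ᶠ p', (m p' : ℤ) * (if p' = p then 1 else 0) = m p := fun p => by
    rw [finsum_eq_single _ p fun p' z => by simp [z]]
    simp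
  have a1 : ∀ F ∈ b.S, (e * (k * w F) : ℤ) ≤ m F := fun F z => by
    by_cases t : F ∈ S'
    · have := m3 (.inl ⟨F, t⟩)
      simp only [Sum.elim_inl] at this
      rw [cg (ok.lam F (k0.mb.sub z)), sg] at this
      exact_mod_cast this
    · have : w F = 0 := Finset.sum_eq_zero fun P u =>
        (t (Finset.mem_filter.2 ⟨z, P, Finset.mem_filter.1 u⟩)).elim
      simp [this]
  let M : Fin l → ℤ := fun j => ∑ᶠ p, if p ∈ b.S then 0 else (m p : ℤ) * p.ord (s j)
  have eM : ∀ j, ∑ᶠ p, (m p : ℤ) * (if p ∈ b.S then 0 else p.ord (s j)) = M j := fun j =>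
    finsum_congr fun p => by split_ifs <;> simp
  have a2 : ∀ j, (e * (k * ν j) : ℤ) ≤ M j := fun j => by
    by_cases t : ν j = 0
    · rw [t, ← eM]
      simp only [Nat.cast_zero, mul_zero]
      refine finsum_nonneg fun p => ?_
      by_cases z : m p = 0
      · simp [z]
      · exact mul_nonneg (Int.natCast_nonneg _) (s1 j p (mT p z).1)
    · have := m3 (.inr ⟨j, Finset.mem_filter.2 ⟨Finset.mem_univ _, t⟩⟩)
      simp only [Sum.elim_inr] at this
      rw [cg (hδ j), eM] at this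
      exact_mod_cast this
  have key : ∀ p ∈ H, ∃ a ∈ A p,
      e * (k * (∑ P ∈ S, ω P * wd b s p a P + ∑ j, (ν j * a j : ℤ))) ≤ m p := fun p hp => by
    obtain ⟨⟨u, v, -⟩, x1, x2⟩ := hH p hp
    obtain ⟨_, ⟨a, ha, rfl⟩, le⟩ := low ms p x2 (ok.l0 p)
    refine ⟨a, ha, ?_⟩
    have su := x1 a ha
    have s0 := fun j => (k0.mb.s0 j).1
    have o1 : ∑ᶠ p, (m p : ℤ) * p.ord (∏ j, s j ^ a j) =
        ∑ j, a j * (∑ F ∈ b.S, m F * F.ord (s j) + M j) := by
      rw [finsum_congr fun p : Pl L => show (m p : ℤ) * p.ord (∏ j, s j ^ a j) =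
        ∑ j, a j * (m p * p.ord (s j)) by
          rw [p.ord_prod _ fun j _ => pow_ne_zero _ (s0 j), Finset.mul_sum]
          exact Finset.sum_congr rfl fun j _ => by rw [Pl.ord_pow]; ring,
        finsum_sum_comm _ _ fun j _ => (fs (s j)).subset fun p z => right_ne_zero_of_mul z]
      exact Finset.sum_congr rfl fun j _ => by rw [← mul_finsum' _ _ (fs _), spl b.S (fs _)]
    have o2 : ∑ᶠ p', (m p' : ℤ) * p'.ord (b.lam p) = ∑ F ∈ b.S, m F * F.ord (b.lam p) + m p := by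
      rw [spl b.S (fs _), ← sg p, ← cg (f := fun p' => if p' ∈ b.S then 0 else p'.ord (b.lam p))
        fun p' a => ?_]
      · exact congrArg _ (finsum_congr fun p => by split_ifs <;> simp)
      · by_cases z : p' ∈ b.S
        · rw [if_pos z, if_neg fun t : p' = p => v (t ▸ z)]
        · rw [if_neg z, ← ok.lam p u p' a, ok.sup p' a z, dotProduct_zero, add_zero]
    have o3 : ∑ P ∈ S, ω P * wd b s p a P =
        ∑ F ∈ b.S, w F * (∑ j, a j * F.ord (s j) - F.ord (b.lam p)) := by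
      simp only [w, Nat.cast_sum, Finset.sum_mul, Finset.sum_filter]
      rw [Finset.sum_comm]
      refine Finset.sum_congr rfl fun P z => ?_
      obtain t | ⟨F, -, t⟩ := fm.pg P (hS P z).1
      · rw [Finset.sum_eq_zero fun F _ => by rw [if_neg fun a : At P F => a.not_trv t]; simp]
        simp [wd, t.ord]
      · rw [Finset.sum_eq_single F (fun F' _ g => by
          rw [if_neg fun a : At P F' => g (a.uniq t)]; simp) fun g => ((hS P z).2.2 F g t).elim,
          if_pos t, wd, t.ord (b.lam p), Finset.sum_congr rfl fun j _ => by rw [t.ord (s j)]]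
        push_cast
        rw [Int.toNat_of_nonneg (show 0 ≤ mu P F from t.e_pos.le), mu]
        simp only [mul_sub, Finset.mul_sum]
        congr 1
        · exact Finset.sum_congr rfl fun j _ => by ring
        · ring
    have b1 : e * (k * ∑ F ∈ b.S, w F * (∑ j, a j * F.ord (s j) - F.ord (b.lam p))) ≤
        ∑ F ∈ b.S, m F * (∑ j, a j * F.ord (s j) - F.ord (b.lam p)) := by
      rw [Finset.mul_sum, Finset.mul_sum]
      exact Finset.sum_le_sum fun F z => by
        rw [← mul_assoc, ← mul_assoc, mul_assoc (e : ℤ)]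
        exact mul_le_mul_of_nonneg_right (a1 F z) (sub_nonneg.2 (su F z))
    have b2 : e * (k * ∑ j, (ν j * a j : ℤ)) ≤ ∑ j, a j * M j := by
      rw [Finset.mul_sum, Finset.mul_sum]
      exact Finset.sum_le_sum fun j _ => by
        rw [← mul_assoc, ← mul_assoc, mul_assoc (e : ℤ), mul_comm (a j : ℤ)]
        exact mul_le_mul_of_nonneg_right (a2 j) (Int.natCast_nonneg _)
    have b3 : ∑ j, a j * ∑ F ∈ b.S, m F * F.ord (s j) =
        ∑ F ∈ b.S, m F * ∑ j, a j * F.ord (s j) := by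
      simp only [Finset.mul_sum]
      rw [Finset.sum_comm]
      exact Finset.sum_congr rfl fun F _ => Finset.sum_congr rfl fun j _ => by ring
    rw [o1, o2] at le
    simp only [mul_add, Finset.sum_add_distrib, b3] at le
    simp only [mul_sub, Finset.sum_sub_distrib] at b1
    rw [o3, mul_add, mul_add]
    simp only [mul_sub, Finset.sum_sub_distrib]
    linarith
  choose! a ha hb using key
  refine ⟨a, ha, ?_⟩
  have hr : ∀ p, ∃ P : Pl K, (m p ≠ 0 → p ∈ b.T ∧ P ∈ T ∧ At P p) ∧ (p ∈ H → 3 ≤ mu P p) ∧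
      (p ∈ S' → At P p ∧ ∀ P' ∈ S, At P' p → mu P' p ≤ mu P p) := fun p => by
    by_cases h1 : p ∈ H
    · obtain ⟨⟨u, v, P, x1, x2, x3⟩, -⟩ := hH p h1
      exact ⟨P, fun _ => ⟨u, x1, x2⟩, fun _ => x3, fun z => (v (Finset.mem_filter.1 z).1).elim⟩
    by_cases h2 : p ∈ S'
    · obtain ⟨u, P₀, v⟩ := Finset.mem_filter.1 h2
      obtain ⟨P, x1, x2⟩ := (S.filter fun P => At P p).exists_max_image (fun P => mu P p)
        ⟨P₀, Finset.mem_filter.2 v⟩
      rw [Finset.mem_filter] at x1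
      exact ⟨P, fun _ => ⟨k0.mb.sub u, (hS P x1.1).1, x1.2⟩, fun z => (h1 z).elim,
        fun _ => ⟨x1.2, fun P' i j => x2 P' (Finset.mem_filter.2 ⟨i, j⟩)⟩⟩
    by_cases z : m p = 0
    · exact ⟨Q, fun t => (t z).elim, fun t => (h1 t).elim, fun t => (h2 t).elim⟩
    · obtain ⟨u, P, v⟩ := mT p z
      exact ⟨P, fun _ => ⟨u, v⟩, fun t => (h1 t).elim, fun t => (h2 t).elim⟩
  choose r r1 r2 r3 using hr
  have cn := cor L K c ρ b y T n d q ε ψ κ Q ξ m _ r (H ∪ S') st.e0 st.q0 pk st.rep r1 ms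
  rw [Finset.sum_union (Finset.disjoint_left.2 fun p u v =>
    (hH p u).1.2.1 (Finset.mem_filter.1 v).1), Fintype.sum_sum_type] at cn
  simp only [Sum.elim_inl, Sum.elim_inr] at cn
  rw [Finset.sum_coe_sort S' fun F => k * w F, Finset.sum_coe_sort N' fun j => k * ν j] at cn
  have c1 : ∑ p ∈ H, (m p : ℝ) * (2 / 3) ≤ ∑ p ∈ H, (m p : ℝ) * (1 - 1 / mu (r p) p) :=
    Finset.sum_le_sum fun p z => mul_le_mul_of_nonneg_left (by
      have : (3 : ℝ) ≤ mu (r p) p := by exact_mod_cast r2 p z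
      have := one_div_le_one_div_of_le (by norm_num) this
      linarith) (Nat.cast_nonneg _)
  have c2 : ∑ F ∈ S', (e * (k * w F) - e * (k * ∑ P ∈ S with At P F, ω P) : ℝ) ≤
      ∑ F ∈ S', (m F : ℝ) * (1 - 1 / mu (r F) F) := Finset.sum_le_sum fun F z => by
    obtain ⟨u, v⟩ := r3 F z
    have μ1 : (1 : ℝ) ≤ mu (r F) F := by exact_mod_cast (u.e_pos : (1 : ℤ) ≤ mu (r F) F)
    have t1 : (e * (k * w F) : ℝ) ≤ m F := by exact_mod_cast a1 F (Finset.mem_filter.1 z).1
    have t2 : (w F : ℝ) * (1 / mu (r F) F) ≤ ∑ P ∈ S with At P F, (ω P : ℝ) := by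
      rw [mul_one_div, div_le_iff₀ (by linarith), Finset.sum_mul]
      simp only [w, Nat.cast_sum, Nat.cast_mul]
      refine Finset.sum_le_sum fun P i => mul_le_mul_of_nonneg_left ?_ (Nat.cast_nonneg _)
      obtain ⟨i, j⟩ := Finset.mem_filter.1 i
      have := Int.toNat_of_nonneg (show 0 ≤ mu P F from j.e_pos.le) ▸ v P i j
      exact_mod_cast this
    have t3 := mul_le_mul_of_nonneg_right t1 (sub_nonneg.2 (div_le_one_of_le₀ μ1 (by linarith)))
    have t4 := mul_le_mul_of_nonneg_left t2 (show (0 : ℝ) ≤ e * k by positivity)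
    push_cast
    nlinarith
  have c3 : ∑ F ∈ S', ∑ P ∈ S with At P F, (ω P : ℝ) ≤ ∑ P ∈ S, (ω P : ℝ) := by
    simp only [Finset.sum_filter]
    rw [Finset.sum_comm]
    refine Finset.sum_le_sum fun P _ => ?_
    rw [← Finset.sum_filter, Finset.sum_const, nsmul_eq_mul]
    refine mul_le_of_le_one_left (Nat.cast_nonneg _) ?_
    have : (S'.filter fun F => At P F).card ≤ 1 := Finset.card_le_one.2 fun F u F' v =>
      Lies.uniq (Finset.mem_filter.1 u).2 (Finset.mem_filter.1 v).2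
    exact_mod_cast this
  have c4 : ∑ j ∈ N', (ν j : ℝ) ≤ ∑ j, (ν j : ℝ) :=
    Finset.sum_le_univ_sum_of_nonneg fun j => Nat.cast_nonneg _
  have c5 : (e * (k * ∑ p ∈ H, (∑ P ∈ S, ω P * wd b s p (a p) P + ∑ j, (ν j * a p j : ℤ))) : ℤ) ≤
      ∑ p ∈ H, m p := by
    rw [Finset.mul_sum, Finset.mul_sum, Nat.cast_sum]
    exact Finset.sum_le_sum hb
  generalize ∑ p ∈ H, (∑ P ∈ S, ω P * wd b s p (a p) P + ∑ j, (ν j * a p j : ℤ)) = X at c5 ⊢
  have c6 : (e * (k * X) : ℝ) ≤ ∑ p ∈ H, (m p : ℝ) := by exact_mod_cast c5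
  rw [← Finset.sum_mul] at c1
  push_cast at cn c2
  simp only [Finset.sum_sub_distrib, ← Finset.mul_sum] at cn c2
  have e1 : (0 : ℝ) < e := by exact_mod_cast e0
  have k1 : (k : ℝ) = 3 * C + 1 := by simp [k]
  have kp : (0 : ℝ) ≤ e * k := by positivity
  have d3 := mul_le_mul_of_nonneg_left c3 kp
  have d4 := mul_le_mul_of_nonneg_left c4 kp
  have f : (e : ℝ) * (k * (2 * X)) < e * (k * (3 * (∑ P ∈ S, (ω P : ℝ) + ∑ j, (ν j : ℝ)) + 1)) := by
    nlinarith
  have f2 := lt_of_mul_lt_mul_left (lt_of_mul_lt_mul_left f e1.le) (Nat.cast_nonneg k)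
  exact Int.lt_add_one_iff.1 (by exact_mod_cast f2)

end Vale.Agent.P283R.Tk
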