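import Vale.Agent.P283R.Ck.St
import Vale.Agent.P283R.Tz.St
import Vale.Agent.P283R.Sl.Tk

/-!
# P283R, block TK: orbit spaces with few Cox generators besides the boundary, the statements
-/

open Set

noncomputable section

namespace Vale.Agent.P283R.Tk

open Vale.Agent.P287D Vale.Agent.P283M Cx Cy Cq Ck
open Vale.Agent.P283R.To (mon)
open Wc (Sec)

section defs

variable {L K : Type} [Field L] [Algebra ℂ L] [Field K] [Algebra ℂ K] [Algebra L K] {c l ρ : ℕ}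

/-- the base -/
structure K0 (b : Ba L c) (s : Fin l → L) : Prop where
  ok : b.Ok (b.S.card + l)
  mb : Mb c b.T b.S s
  one : ∀ p ∈ b.S, b.lam p = 1
  sg : ∀ j, s j ∈ range b.σ

/-- `s j` vanishes on a page outside of the boundary which carries a prime -/
def Zr (b : Ba L c) (s : Fin l → L) (T : Set (Pl K)) (j : Fin l) : Prop :=
  ∃ P ∈ T, ∃ p ∉ b.S, At P p ∧ p.ord (s j) ≠ 0

/-- the heavy pages -/
def Hv (b : Ba L c) (T : Set (Pl K)) (p : Pl L) : Prop :=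
  p ∈ b.T ∧ p ∉ b.S ∧ ∃ P ∈ T, At P p ∧ 3 ≤ mu P p

/-- the monomial `a` is admissible for the page `p` -/
def Su (b : Ba L c) (s : Fin l → L) (p : Pl L) (a : Fin l → ℕ) : Prop :=
  ∀ F ∈ b.S, F.ord (b.lam p) ≤ ∑ j, a j * F.ord (s j)

/-- an expansion of the equation of the page -/
def Ex (b : Ba L c) (s : Fin l → L) (p : Pl L) (A : Finset (Fin l → ℕ)) : Prop :=
  (∀ a ∈ A, Su b s p a) ∧ b.lam p ∈ Submodule.span ℂ ((fun a : Fin l → ℕ => ∏ j, s j ^ a j) '' ↑A)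

/-- the defect of the monomial `a` of the page `p` at the place `P` -/
def wd (b : Ba L c) (s : Fin l → L) (p : Pl L) (a : Fin l → ℕ) (P : Pl K) : ℤ :=
  ∑ j, a j * P.ord (algebraMap L K (s j)) - P.ord (algebraMap L K (b.lam p))

/-- the monomial sections -/
def mo (b : Ba L c) (s : Fin l → L) (y : Fin ρ → K) (f : L) (a : Pl L → Fin l → ℕ)
    (N : Finset (Pl L)) (v : Fin ρ → ℤ) (u : Fin l → ℤ) (i : ℤ) (n : Pl L → ℤ) : K :=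
  hm y (mon s u * f ^ i * ∏ p ∈ N, (b.lam p / ∏ j, s j ^ a p j) ^ n p) v

/-- the state after Goldman and Tucker -/
structure St (d q : ℕ) (ε : ℝ) (b : Ba L c) (s : Fin l → L) (y : Fin ρ → K) (T : Set (Pl K))
    (ψ : (Fin ρ → ℤ) →₀ L) (κ : Pl K → ℤ) (Q : Pl K) (ξ : Pl K → ℝ) (I : Finset (Pl L)) :
    Prop where
  e0 : 0 < ε
  q0 : 0 < q
  k0 : K0 b s
  pk : ∃ n, Pk n d q ε b y T (lv y ψ) κ
  od : Cq.Or b y T ψ κ I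
  rep : Rep L y T Q ξ
  pos : ∀ P ∈ Kt y T I, 0 < ξ P

/-- a representation on few primes over the boundary -/
structure Vx (l : ℕ) (b : Ba L c) (y : Fin ρ → K) (T : Set (Pl K)) (Q : Pl K) (ξ : Pl K → ℝ)
    (D : Finset (Pl K)) : Prop where
  rep : Rep L y T Q ξ
  card : D.card ≤ l + ρ
  ray : ∀ P ∈ Kt y T b.S, ξ P ≠ 0 → P ∈ D

/-- the selection of the monomials -/
structure Se (b : Ba L c) (s : Fin l → L) (y : Fin ρ → K) (T : Set (Pl K)) (Q : Pl K)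
    (J : Finset (Pl L)) (a : Pl L → Fin l → ℕ) : Prop where
  hJ : ∀ p ∈ J, Hv b T p
  su : ∀ p ∈ b.T, p ∉ b.S → Su b s p (a p)
  c0 : ∀ p ∈ b.T, p ∉ b.S → p ∉ J → wd b s p (a p) Q ≤ 0
  hc : ∀ p, Hv b T p → p ∉ J → wd b s p (a p) Q = 0
  hz : ∀ p, Hv b T p → p ∉ J → ∀ j, Zr b s T j → a p j = 0
  hw : ∀ P ∈ Kt y T b.S, ∀ H : Finset (Pl L), (∀ p ∈ H, Hv b T p ∧ p ∉ J) →
    ∑ p ∈ H, wd b s p (a p) P ≤ 1

/-- the special pages which carry a prime -/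
def Np (b : Ba L c) (T : Set (Pl K)) (I N : Finset (Pl L)) : Prop :=
  ∀ p, p ∈ N ↔ p ∈ I ∧ p ∉ b.S ∧ ∃ P ∈ T, At P p

/-- the masses `m` are the ones of a place with the log discrepancy at most `B` -/
def Ms (b : Ba L c) (m : Pl L → ℕ) (B : ℤ) : Prop :=
  ((∀ φ : L, φ ≠ 0 → ∑ᶠ p, (m p : ℤ) * p.ord φ = 0) ∧
      0 ≤ B + ∑ p ∈ b.S, m p * (b.e ⬝ᵥ b.D p)) ∨
    ∃ (R : Pl L) (a : ℕ), 0 < a ∧ (∀ φ : L, φ ≠ 0 → ∑ᶠ p, (m p : ℤ) * p.ord φ = a * R.ord φ) ∧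
      a * (1 + kap b.s R - R.ord b.h) ≤ (B + ∑ p ∈ b.S, m p * (b.e ⬝ᵥ b.D p) : ℤ)

end defs

/-- **RS1**: the smaller base exists -/
def RS1 : Prop := ∀ (L : Type) [Field L] [Algebra ℂ L] (c l : ℕ) (b : Ba L c) (s : Fin l → L)
  (Δ : Finset (Pl L)), K0 b s → Δ ⊆ b.S → ∃ b', Rs b b' s Δ

/-- **WRE**: a weighted Rees place of a closed point -/
def WRE : Prop := ∀ (F : Type) [Field F] [Algebra ℂ F] (n : ℕ) (S : Subalgebra ℂ F) (p : Ideal S),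
  Aff (n + 1) S → p.IsMaximal → ∃ C : ℕ, ∀ (ι : Type) [Fintype ι] (z : ι → S) (ω : ι → ℕ),
    (∀ i, z i ∈ p) → ∃ (R : Pl F) (M e : ℕ) (x : Fin (n + 1) → F), 0 < M ∧ 0 < e ∧ Cen S p R ∧
      (∀ i, (z i : F) ≠ 0 → (e * ω i : ℤ) ≤ M * R.ord (z i : F)) ∧ (∀ i, x i ∈ S) ∧
      AlgebraicIndependent ℂ x ∧ M * (1 + kap x R) ≤ (C + ∑ i, ω i : ℕ) * e

/-- **WGP**: a weighted place over a point of the Cox space of the base -/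
def WGP : Prop := ForA fun L K _ _ _ _ _ _ _ b _ _ => ∀ (n : ℕ) (Q : Pl K) (x : Fin b.k → ℝ)
  (Em : Set (Pl L)), b.Ok n → (∀ j, 0 ≤ (Q.ord (algebraMap L K (b.σ j)) : ℝ) + pa (b.a j) x) →
    Em.Finite → (∀ p ∈ Em, p ∈ b.T ∧ (Q.ord (algebraMap L K (b.lam p)) : ℝ) + pa (b.dg p) x = 0) →
    ∃ C : ℕ, ∀ (ι : Type) [Fintype ι] (φ : ι → L) (δ : ι → Fin b.k → ℤ) (ω : ι → ℕ),
      (∀ i, φ i ≠ 0 ∧ (∀ p ∈ b.T, 0 ≤ p.ord (φ i) + δ i ⬝ᵥ b.D p) ∧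
        0 < (Q.ord (algebraMap L K (φ i)) : ℝ) + pa (δ i) x) →
      ∃ (m : Pl L → ℕ) (e : ℕ), 0 < e ∧ (∀ p ∈ Em, m p = 0) ∧ (∀ p, p ∉ b.T → m p = 0) ∧
        (∀ i, (e * ω i : ℤ) ≤ ∑ᶠ p, (m p : ℤ) * (p.ord (φ i) + δ i ⬝ᵥ b.D p)) ∧
        Ms b m ((C + ∑ i, ω i : ℕ) * e)

/-- **WX**: the weight of a section is its mass -/
def WX : Prop := ForA fun L K _ _ _ _ _ _ _ b y T => ∀ n Q ξ, b.Ok n → Fm b y T → Rep L y T Q ξ →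
  ∃ x : Fin b.k → ℝ, ∀ (φ : L) δ, φ ≠ 0 → (∀ p ∈ b.T, 0 ≤ p.ord φ + δ ⬝ᵥ b.D p) →
    0 ≤ (Q.ord (algebraMap L K φ) : ℝ) + pa δ x ∧ ((Q.ord (algebraMap L K φ) : ℝ) + pa δ x = 0 ↔
      ∀ P p, ξ P ≠ 0 → At P p → p.ord φ + δ ⬝ᵥ b.D p = 0)

/-- **COR**: the count -/
def COR : Prop := ForA fun L K _ _ _ _ _ _ ρ b y T => ∀ n d q (ε : ℝ) (ψ : (Fin ρ → ℤ) →₀ L) κ Q ξ
  (m : Pl L → ℕ) (B : ℤ) (r : Pl L → Pl K) (H : Finset (Pl L)), 0 < ε → 0 < q → Pk n d q ε b y T (lv y ψ) κ →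
    Rep L y T Q ξ → (∀ p, m p ≠ 0 → p ∈ b.T ∧ r p ∈ T ∧ At (r p) p) → Ms b m B →
    ∑ p ∈ H, (m p : ℝ) * (1 - 1 / mu (r p) p) ≤ B

/-- **ZM**: pages of mass zero -/
def ZM : Prop := ForA fun L _ _ _ _ _ _ _ _ b y T => ∀ (l : ℕ) (s : Fin l → L) Q ξ, ∀ p ∈ b.T,
  p ∉ b.S → K0 b s → Fm b y T → Rep L y T Q ξ → (∃ A, Ex b s p A) ∧
    (∃ a, Su b s p a ∧ wd b s p a Q ≤ 0) ∧ (∀ a, Su b s p a → ∀ P ∈ Kt y T b.S, 0 ≤ wd b s p a P) ∧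
    ((∀ P, At P p → ξ P = 0) → ∀ a, (∀ j, Zr b s T j → a j = 0) →
      (∀ P ∈ Kt y T b.S, ξ P ≠ 0 → wd b s p a P = 0) → wd b s p a Q = 0)

/-- **VTX**: Caratheodory on the primes over the boundary -/
def VTX : Prop := ForA fun L _ _ _ _ _ _ _ _ b y T => ∀ (l : ℕ) (s : Fin l → L) Q ξ, K0 b s →
  Fm b y T → Rep L y T Q ξ → ∃ ξ' D, Vx l b y T Q ξ' D

/-- **HVY**: few heavy pages have a positive mass -/
def HVY : Prop := ∀ l d : ℕ, ∃ C : ℕ, ForA fun L _ _ _ _ _ _ _ _ b y T => ∀ (s : Fin l → L) q ε ψ κ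
  Q ξ ξ' I D, St d q ε b s y T ψ κ Q ξ I → Vx l b y T Q ξ' D → ∃ J : Finset (Pl L), J.card ≤ C ∧
    ∀ p, Hv b T p → p ∉ J → ∀ P, At P p → ξ' P = 0

/-- **LPI**: the inequality at the weighted places -/
def LPI : Prop := ForA fun L K _ _ _ _ _ _ _ b y T => ∀ (l : ℕ) (s : Fin l → L) d q ε ψ κ Q ξ I
  (H : Finset (Pl L)) (A : Pl L → Finset (Fin l → ℕ)) (S : Finset (Pl K)) (ω : Pl K → ℕ)
  (ν : Fin l → ℕ), St d q ε b s y T ψ κ Q ξ I → (∀ p ∈ H, Hv b T p ∧ Ex b s p (A p)) →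
    (∀ P ∈ S, P ∈ Kt y T b.S) → (∀ j, ν j ≠ 0 → Zr b s T j) →
    ∃ a : Pl L → Fin l → ℕ, (∀ p ∈ H, a p ∈ A p) ∧
      2 * ∑ p ∈ H, (∑ P ∈ S, ω P * wd b s p (a p) P + ∑ j, (ν j * a p j : ℤ)) ≤
        3 * (∑ P ∈ S, (ω P : ℤ) + ∑ j, (ν j : ℤ))

/-- **SEL**: the selection exists -/
def SEL : Prop := ∀ l d : ℕ, ∃ C : ℕ, ForA fun L _ _ _ _ _ _ _ _ b y T => ∀ (s : Fin l → L) q ε ψ κ
  Q ξ I, St d q ε b s y T ψ κ Q ξ I → ∃ ξ' D, ∃ J : Finset (Pl L), ∃ a,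
    Vx l b y T Q ξ' D ∧ J.card ≤ C ∧ Se b s y T Q J a

/-- **DEC**: a section gives a monomial section -/
def DEC : Prop := ForA fun L K _ _ _ _ _ _ ρ b y T => ∀ (l : ℕ) (s : Fin l → L) d q ε ψ κ Q ξ I a N
  f (m : ℕ) (X : Set (Pl K)), St d q ε b s y T ψ κ Q ξ I → Np b T I N → Ef b T b.S f →
    X ⊆ Kt y T b.S → Sec q m (cz b y) (T \ X) (lv y ψ) κ Q →
    ∃ (v : Fin ρ → ℤ) (u : Fin l → ℤ) (i : ℤ) (n : Pl L → ℤ),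
      (∀ p ∈ N, ∀ P ∈ T, At P p → m * κ P ≤ mu P p * n p + ∑ j, v j * P.ord (y j)) ∧
      (∀ j, ∑ p ∈ N, n p * (a p j : ℤ) ≤ u j) ∧
      (∀ P ∈ Kt y T b.S \ X, m * κ P ≤ P.ord (mo b s y f a N v u i n)) ∧
      Q.ord (lv y ψ ^ m * mo b s y f a N v u i n) < q * m * (cz b y Q + 1)

/-- **ORM**: the orders of the monomial sections, and the way back -/
def ORM : Prop := ForA fun L K _ _ _ _ _ _ ρ b y T => ∀ (l : ℕ) (s : Fin l → L) d q ε ψ κ Q ξ I a N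
  f (v : Fin ρ → ℤ) (u : Fin l → ℤ) (i : ℤ) (n : Pl L → ℤ), St d q ε b s y T ψ κ Q ξ I → Np b T I N → Ef b T b.S f →
    mo b s y f a N v u i n ≠ 0 ∧
    (∀ P : Pl K, P.ord (mo b s y f a N v u i n) = ∑ j, v j * P.ord (y j) +
      ∑ j, u j * P.ord (algebraMap L K (s j)) + i * P.ord (algebraMap L K f) -
        ∑ p ∈ N, n p * wd b s p (a p) P) ∧
    ∀ m : ℕ, (∀ p ∈ N, ∀ P ∈ T, At P p → m * κ P ≤ mu P p * n p + ∑ j, v j * P.ord (y j)) →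
      (∀ j, Zr b s T j → ∑ p ∈ N, n p * (a p j : ℤ) ≤ u j) →
      ∀ P ∈ T, P ∉ Kt y T b.S → m * κ P ≤ P.ord (mo b s y f a N v u i n)

/-- **BOX**: the theorem for few primes over the boundary -/
def BOX : Prop := ∀ (B l d q : ℕ) (ε : ℝ), 0 < q → 0 < ε → ∃ m : ℕ, 2 ≤ m ∧
  ForA fun L K _ _ _ _ _ _ _ b y T => ∀ (s : Fin l → L) ψ κ Q ξ ξ' I D (E : Finset (Pl K)),
    St d q ε b s y T ψ κ Q ξ I → Vx l b y T Q ξ' D → E.card ≤ B →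
    Sec q m (cz b y) (T \ (Kt y T b.S \ (↑D ∪ ↑E))) (lv y ψ) κ Q

/-- **FIN**: Helly over the primes over the boundary -/
def FIN : Prop := ∀ (C l d q : ℕ) (ε : ℝ), 0 < q → 0 < ε → ∃ m : ℕ, 2 ≤ m ∧
  ForA fun L _ _ _ _ _ _ _ _ b y T => ∀ (s : Fin l → L) ψ κ Q ξ ξ' I D (J : Finset (Pl L)) a,
    St d q ε b s y T ψ κ Q ξ I → Vx l b y T Q ξ' D → J.card ≤ C → Se b s y T Q J a →
    Sec q m (cz b y) T (lv y ψ) κ Q

/-- **PQT**: the theorem at one place -/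
def PQT : Prop := ∀ (l d q : ℕ) (ε : ℝ), 0 < q → 0 < ε → ∃ m : ℕ, 2 ≤ m ∧
  ForA fun L K _ _ _ _ _ _ _ b y T => ∀ (s : Fin l → L) n g κ (Q : Pl K), K0 b s →
    Pk n d q ε b y T g κ → (∀ a : K, a ≠ 0 → (∀ P ∈ T, 0 ≤ P.ord a) → 0 ≤ Q.ord a) →
    Sec q m (cz b y) T g κ Q

open Sl Sl.Var in
/-- **ONT** -/
def ONT : Prop := ∀ M : ℕ → ℕ, On fun d _ Z f ω B z => FanoType f ω ∧ NefOver f (-logCan ω B) ∧
  ∃ W : Z.X.Opens, z.In W ∧ FewQuot (M d) (pre f W)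

/-- **WGR** -/
def WGR : Prop := WRE → WGP

/-- **HVR** -/
def HVR : Prop := RS1 → WX → COR → HVY

/-- **LPR** -/
def LPR : Prop := WGP → WX → COR → LPI

/-- **SER** -/
def SER : Prop := Tz.SF → ZM → VTX → HVY → LPI → SEL

/-- **BXR** -/
def BXR : Prop := RS1 → BOX

/-- **FIR** -/
def FIR : Prop := ZM → DEC → ORM → BOX → FIN

/-- **PQR** -/
def PQR : Prop := SEL → FIN → PQT

/-- **ONR** -/
def ONR : Prop := PQT → ONT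

theorem ont (sf : Tz.SF) (rs : RS1) (wre : WRE) (wgr : WGR) (wx : WX) (cor : COR) (zm : ZM)
    (vtx : VTX) (hvr : HVR) (lpr : LPR) (ser : SER) (dec : DEC) (orm : ORM) (bxr : BXR) (fir : FIR)
    (pqr : PQR) (onr : ONR) : ONT :=
  onr (pqr (ser sf zm vtx (hvr rs wx cor) (lpr (wgr wre) wx cor)) (fir zm dec orm (bxr rs)))

end Vale.Agent.P283R.Tk
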