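import Vale.Agent.P283R.Fk.D38
import Vale.Agent.P283R.Ck.Ons90
import Vale.Agent.P283R.Tk.St
import Vale.Agent.P283R.Sl.Un3

/-!
# P283R, block TK: the scheme side
-/

open Set CategoryTheory AlgebraicGeometry

noncomputable section

namespace Vale.Agent.P283R.Tk

open Vale.Agent.P287D Vale.Agent.P283M Vale.Agent.P297Z Cx Cy Cq
open Vale.Agent.P283R.To (mon)
open Wc (Sec)

namespace T38

/-- the theorem on the tier -/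
def WT : Prop := ∀ (l n q : ℕ) (ε : ℝ), 0 < q → 0 < ε → ∃ M : ℕ, 1 ≤ M ∧
  ∀ (L K : Type) [Field L] [Algebra ℂ L] [Field K] [Algebra ℂ K] [Algebra L K]
    [IsScalarTower ℂ L K] (c ρ : ℕ) (u : Finset K) (Λ Γ Γ' : BD K) (b : Ba L c) (y : Fin ρ → K)
    (s : Fin l → L), K0 b s → c + ρ = n + 1 → Dat n u Λ Γ Γ' → Fm b y (Tt n u Λ) →
    (∀ R ∈ Tt n u Λ, dsc (n + 1) Γ R ≤ 0 ∧ ∃ m : ℤ, q * dsc (n + 1) Γ R = m) →
    (∀ R, Ov u R → ε ≤ 1 + dsc (n + 1) Γ R) → NefO n K u (-Γ) → Cpl n M u Λ Γ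

theorem wt (pq : PQT) : WT := by
  intro l n q ε q0 e0
  obtain ⟨m, m2, H⟩ := pq l (n + 1) q ε q0 e0
  refine ⟨q * m, Nat.mul_pos q0 (by omega), ?_⟩
  intro L K _ _ _ _ _ _ c ρ u Λ Γ Γ' b y s kk hn a fm hi lc nf
  obtain ⟨g, κ, lk, pk⟩ := cdr42 cz60 (Wc.avr95 Wc.cox36 Wc.loc24) n K u Λ Γ Γ' a L _ q c ρ ε b y
    q0 e0 kk.ok hn fm hi lc nf
  exact Wc.bkr64 Wc.cox36 n K u Λ Γ Γ' a q m _ g κ q0 m2 lk fun Q o =>
    H L K c ρ b y _ s _ g κ Q kk pk fun x x0 hx => Wc.ovq22 n K u Λ Γ Γ' a Q x o x0 hx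

open Vale.Agent.P283M.Br Vale.Agent.P283R.Gl Sl Sl.Var in
theorem on (h : WT) (m : ℕ → ℕ) : On fun d _ Z f ω B z => FanoType f ω ∧
    NefOver f (-logCan ω B) ∧ ∃ W : Z.X.Opens, z.In W ∧ FewQuot (m d) (pre f W) := by
  intro d hd ε hε R hR
  obtain ⟨n, rfl⟩ : ∃ n, d = n + 1 := ⟨d - 1, by omega⟩
  obtain ⟨M, M1, H⟩ := h (m (n + 1)) n (∏ r ∈ R, r.den) ε
    (Finset.prod_pos fun r _ => r.den_pos) hε
  refine ⟨M, M1, fun X Z f ω B z a b c e s u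
    ⟨u1, u2, W, zW, Y, φ, r, y, ch, pg, S, σ, p1, p2, p3⟩ => (has_iff f ω B M z).2 ?_⟩
  obtain ⟨x, hx⟩ := s.2.2.1.surj z
  obtain ⟨_, -, -, -, ⟨ψ, rfl, ind⟩, -⟩ := ch x (show f x ∈ W from hx ▸ zW)
  obtain ⟨c', bs, kk, bT, -⟩ := Fk.bsk38 Y _ S σ p1 p2 p3
  let i3 : Algebra Y.o.K X.o.K := ψ.toRingHom.toAlgebra
  have i4 : IsScalarTower ℂ Y.o.K X.o.K := .of_algebraMap_eq fun c => (ψ.commutes c).symm
  obtain ⟨V, v0, hV, zV, co⟩ := @sum_co X.o Y.o Z.o f z W r i3 i4 y s zW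
    ⟨algebraicIndependent_iff.2 ind, fun x hx =>
      let ⟨U, a, b, c, e⟩ := ch x hx; ⟨U, a, b, c, e.2⟩⟩
  have fm := Ck.O90.fam (W := pre f V) (x := x) (show f x ∈ V from hx ▸ zV) ψ co
    (fun E e => pg E (v0 e)) kk.ok bT
  exact H42.sch (X := X.o) (Z := Z.o) M1 (fun v Λ Γ Γ' hK da T co lc nf =>
    @H Y.K X.K _ _ _ _ i3 i4 c' r v Λ Γ Γ' bs y σ ⟨kk.ok, kk.mb, kk.one, kk.sg⟩
      (Nat.cast_injective (fm.ext.ff'.trdeg.symm.trans hK.trdeg)) da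
      ((Set.ext T : Cx.Tt n v Λ = {P | ∃ E : X.o.PrimeDiv, E.1 ∈ pre f V ∧ Gl.pq E = P}) ▸ fm)
      co lc nf) a b ((pair_iff _ _ ω B).1 c) (C3.den e) s
    ((fanoType_iff f ω).1 u1) ((nefOver_iff f _).1 u2) u hV zV

end T38

/-- **ONR** -/
theorem onr38 : ONR := fun pq => T38.on (T38.wt pq)

end Vale.Agent.P283R.Tk

namespace Vale.Agent.P283R

open Sl.Var in
/-- bounded klt complements over a base with few Cox generators, from the theorem at one place -/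
theorem Sl.onN_tk_of (pq : Tk.PQT) (M : ℕ → ℕ) :
    Sl.OnN fun d _ _ f _ _ z => ∃ V, z.In V ∧ Sl.FewQuot (M d) (pre f V) :=
  Tk.T38.on (Tk.T38.wt pq) M

/-- a planar base has few generators -/
theorem Sl.PlanarQuot.few38 {l : ℕ} {X : Sl.Var} {V : X.X.Opens} (h : Sl.PlanarQuot l V) :
    Sl.FewQuot l V :=
  let ⟨Y, φ, r, y, a, b, S, s, _, p1, p2, p3, _⟩ := h
  ⟨Y, φ, r, y, a, b, S, s, p1, p2, p3⟩

end Vale.Agent.P283R
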