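import Vale.Agent.P283R.Ck.St
import Vale.Agent.P283R.Cq.Gta68

/-!
# P283R, block TK: a section gives a monomial section
-/

open Set

noncomputable section

namespace Vale.Agent.P283R.Tk.S45

open Vale.Agent.P287D Vale.Agent.P283M Vale.Agent.P297Z Cx Cq
open Ck (Mb)

variable {L K : Type} [Field L] [Algebra ℂ L] [Field K] [Algebra ℂ K] [Algebra L K]
  {c ρ l n : ℕ} {b : Ba L c} {s : Fin l → L} {y : Fin ρ → K} {T : Set (Pl K)}

open Classical in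
theorem ord_lam (ok : b.Ok n) {p p' : Pl L} (h : p ∈ b.T) (h' : p' ∈ b.T) (z : p' ∉ b.S) :
    p'.ord (b.lam p) = if p' = p then 1 else 0 := by
  have := ok.lam p h p' h'
  rwa [ok.sup p' h' z, dotProduct_zero, add_zero] at this

open Classical in
/-- the order of a product of equations -/
theorem ord_prod (ok : b.Ok n) {N : Finset (Pl L)} (hN : ∀ p ∈ N, p ∈ b.T) (e : Pl L → ℤ)
    {p' : Pl L} (h' : p' ∈ b.T) (z : p' ∉ b.S) :
    p'.ord (∏ p ∈ N, b.lam p ^ e p) = if p' ∈ N then e p' else 0 := by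
  rw [Pl.ord_prod _ _ fun p _ => zpow_ne_zero _ (ok.l0 p), ← Finset.sum_ite_eq]
  refine Finset.sum_congr rfl fun p hp => ?_
  rw [Pl.ord_zpow, ord_lam ok (hN p hp) h' z]
  split_ifs <;> simp

theorem f_ne (ok : b.Ok n) {J : Finset (Pl L)} {f : L} (hf : Ef b T J f) : f ≠ 0 := by
  obtain ⟨E, -, rfl⟩ := hf
  exact Finset.prod_ne_zero_iff.2 fun p _ => ok.l0 p

open Classical in
/-- the order of the equation of the empty pages -/
theorem ord_f (ok : b.Ok n) {f : L} (hf : Ef b T b.S f) {p : Pl L} (h : p ∈ b.T) (z : p ∉ b.S) :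
    p.ord f = if ∃ P ∈ T, At P p then 0 else 1 := by
  obtain ⟨E, e1, rfl⟩ := hf
  have := ord_prod ok (fun p hp => ((e1 p).1 hp).1) (fun _ => 1) h z
  simp only [zpow_one] at this
  rw [this]
  by_cases k : ∃ P ∈ T, At P p
  · rw [if_pos k, if_neg fun m => ((e1 p).1 m).2.2 k]
  · rw [if_neg k, if_pos ((e1 p).2 ⟨h, z, k⟩)]

variable [IsScalarTower ℂ L K]

theorem ex_span (Q : Pl K) {A : Set L} {g : L} (h : g ∈ Submodule.span ℂ A) (g0 : g ≠ 0) :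
    ∃ x ∈ A, x ≠ 0 ∧ Q.ord (algebraMap L K x) ≤ Q.ord (algebraMap L K g) := by
  obtain ⟨_, ⟨x, hx, rfl⟩, x0, z⟩ := Cq.G68.ex_span Q
    (Submodule.apply_mem_span_image_of_mem_span (IsScalarTower.toAlgHom ℂ L K).toLinearMap h)
    ((map_ne_zero (algebraMap L K)).2 g0)
  exact ⟨x, hx, (map_ne_zero (algebraMap L K)).1 x0, z⟩

/-- **the splitting** -/
theorem spl (ok : b.Ok n) (mb : Mb c b.T b.S s) (fm : Fm b y T) {T' : Set (Pl K)} (le : T' ⊆ T)
    (kp : ∀ P ∈ T, ∀ p ∉ b.S, At P p → P ∈ T') (kh : ∀ P ∈ T, Hz L y P → P ∈ T')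
    {N : Finset (Pl L)} (hN : ∀ p ∈ N, p ∈ b.T ∧ p ∉ b.S ∧ ∃ P ∈ T, At P p) {f : L}
    (hf : Ef b T b.S f) {k : Pl K → ℤ} (k0 : ∀ P ∈ T, Hz L y P → k P = 0)
    (k1 : ∀ P ∈ T, ∀ p ∉ N, p ∉ b.S → At P p → k P = 0 ∧ ∀ j, P.ord (y j) = 0) {φ : K}
    (φ0 : φ ≠ 0) (hφ : ∀ P ∈ T', k P ≤ P.ord φ) (Q : Pl K) :
    ∃ (v : Fin ρ → ℤ) (w : Fin l → ℕ) (a : ℕ) (e : Pl L → ℤ),
      (∀ P ∈ T', k P ≤ P.ord (hm y ((∏ p ∈ N, b.lam p ^ e p) * (∏ j, s j ^ w j) / f ^ a) v)) ∧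
      Q.ord (hm y ((∏ p ∈ N, b.lam p ^ e p) * (∏ j, s j ^ w j) / f ^ a) v) ≤ Q.ord φ ∧
      ∀ P ∈ T, ∀ p ∈ N, At P p → k P ≤ mu P p * e p + ∑ j, v j * P.ord (y j) := by
  classical
  have y0 := fm.ext.ind.ne_zero
  obtain ⟨ψ, rfl⟩ := fm.lau φ φ0 fun P h t => k0 P h t ▸ hφ P (kh P h t)
  obtain ⟨v, v0, -, lQ⟩ := Wd.ord_sum_ge ψ.support (fun m => hm y (ψ m) m) φ0 Q
  replace lQ : Q.ord (hm y (ψ v) v) ≤ Q.ord (lv y ψ) := lQ
  have c0 : ψ v ≠ 0 := Finsupp.mem_support_iff.1 v0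
  have lP : ∀ P ∈ T', ¬ Hz L y P → k P ≤ P.ord (algebraMap L K (ψ v)) + ∑ j, v j * P.ord (y j) :=
    fun P h t => ord_hm y0 P c0 v ▸ (hφ P h).trans (fm.inv P (le h) t ψ v v0)
  generalize ψ v = θ at c0 lP lQ
  have f0 := f_ne ok hf
  obtain ⟨a, ha⟩ := ((mb.fin θ).image fun p => (-p.ord θ).toNat).bddAbove
  have ha' : ∀ p ∈ b.T, -p.ord θ ≤ a := fun p h => by
    by_cases z : p.ord θ = 0
    · omega
    · have : (-p.ord θ).toNat ≤ a := ha ⟨p, ⟨h, z⟩, rfl⟩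
      omega
  let u := ∏ p ∈ N, b.lam p ^ p.ord θ
  have u0 : u ≠ 0 := Finset.prod_ne_zero_iff.2 fun p _ => zpow_ne_zero _ (ok.l0 p)
  have ou : ∀ p ∈ b.T, p ∉ b.S → p.ord u = if p ∈ N then p.ord θ else 0 := fun p h z =>
    ord_prod ok (fun p hp => (hN p hp).1) _ h z
  have fa := pow_ne_zero a f0
  have g0 : θ * f ^ a / u ≠ 0 := div_ne_zero (mul_ne_zero c0 fa) u0
  have og : ∀ p : Pl L, p.ord (θ * f ^ a / u) = p.ord θ + a * p.ord f - p.ord u := fun p => by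
    rw [Pl.ord_div _ (mul_ne_zero c0 fa) u0, Pl.ord_mul _ c0 fa, Pl.ord_pow]
  obtain ⟨x, ⟨⟨w, rfl⟩, hx⟩, x0, xQ⟩ := ex_span Q (mb.mono (θ * f ^ a / u) fun p h z => by
    rw [og, ou p h z, ord_f ok hf h z]
    by_cases m : p ∈ N
    · rw [if_pos m, if_pos (hN p m).2.2]
      omega
    · rw [if_neg m]
      split_ifs with e
      · obtain ⟨P, hP, e⟩ := e
        have := lP P (kp P hP p z e) (not_hz96 y e)
        simp only [(k1 P hP p m z e).1, (k1 P hP p m z e).2, mul_zero, Finset.sum_const_zero,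
          add_zero] at this
        rw [e.ord θ] at this
        have := (mul_nonneg_iff_of_pos_left e.e_pos).1 this
        omega
      · have := ha' p h
        omega) g0
  have ox : ∀ p ∈ b.T, p ∉ b.S → 0 ≤ p.ord (∏ j, s j ^ w j) := fun p h z => by
    rw [Pl.ord_prod _ _ fun j _ => pow_ne_zero _ (mb.s0 j).1]
    exact Finset.sum_nonneg fun j _ => by
      rw [Pl.ord_pow]
      exact mul_nonneg (Int.natCast_nonneg _) ((mb.s0 j).2 p h z)
  refine ⟨v, w, a, fun p => p.ord θ, ?_⟩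
  generalize ∏ j, s j ^ w j = x at hx x0 xQ ox ⊢
  have m0 : u * x / f ^ a ≠ 0 := div_ne_zero (mul_ne_zero u0 x0) fa
  have em : u * x / f ^ a = θ * x / (θ * f ^ a / u) := by field_simp
  have i0 : ∀ {z : L}, z ≠ 0 → algebraMap L K z ≠ 0 := fun h => (map_ne_zero _).2 h
  have oi : ∀ P : Pl K, P.ord (algebraMap L K (u * x / f ^ a)) = P.ord (algebraMap L K θ) +
      P.ord (algebraMap L K x) - P.ord (algebraMap L K (θ * f ^ a / u)) := fun P => by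
    rw [em, map_div₀, map_mul, Pl.ord_div _ (mul_ne_zero (i0 c0) (i0 x0)) (i0 g0),
      Pl.ord_mul _ (i0 c0) (i0 x0)]
  refine ⟨fun P h => ?_, ?_, fun P h p hp e => ?_⟩
  · change k P ≤ P.ord (hm y (u * x / f ^ a) v)
    by_cases t : Hz L y P
    · rw [t _ v m0, k0 P (le h) t]
    have l1 := lP P h t
    rw [ord_hm y0 P m0]
    obtain e | ⟨p, hp, e⟩ := fm.pg P (le h)
    · rwa [e.ord, ← e.ord θ]
    by_cases z : p ∈ b.S
    · have := mul_le_mul_of_nonneg_left (hx p z) e.e_pos.le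
      rw [← e.ord, ← e.ord] at this
      rw [oi]
      omega
    by_cases m : p ∈ N
    · have := mul_nonneg e.e_pos.le (ox p hp z)
      rw [← e.ord] at this
      rw [oi, e.ord (θ * f ^ a / u), og, ou p hp z, if_pos m, ord_f ok hf hp z,
        if_pos ⟨P, le h, e⟩]
      simp only [mul_zero, add_zero, sub_self, sub_zero]
      omega
    · simp only [(k1 P (le h) p m z e).1, (k1 P (le h) p m z e).2, mul_zero,
        Finset.sum_const_zero, add_zero]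
      rw [e.ord (u * x / f ^ a), Pl.ord_div _ (mul_ne_zero u0 x0) fa, Pl.ord_mul _ u0 x0,
        Pl.ord_pow, ou p hp z, if_neg m, ord_f ok hf hp z, if_pos ⟨P, le h, e⟩]
      simpa using mul_nonneg e.e_pos.le (ox p hp z)
  · change Q.ord (hm y (u * x / f ^ a) v) ≤ _
    rw [ord_hm y0 Q c0] at lQ
    rw [ord_hm y0 Q m0, oi]
    omega
  · have := lP P (kp P h p (hN p hp).2.1 e) (not_hz96 y e)
    rwa [e.ord θ] at this

end Vale.Agent.P283R.Tk.S45
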