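import Vale.Agent.P283R.Tk.St
import Vale.Agent.P283R.Tk.Spl45

/-!
# P283R, block TK: the orders of the monomial sections
-/

open Set

noncomputable section

namespace Vale.Agent.P283R.Tk

open Vale.Agent.P287D Vale.Agent.P283M Vale.Agent.P297Z Cx Cq
open Vale.Agent.P283R.To (mon)

/-- **ORM** -/
theorem orm45 : ORM := by
  intro L K _ _ _ _ _ _ c ρ b y T l s d q ε ψ κ Q ξ I a N f v u i n st np hf
  classical
  obtain ⟨n₀, pk⟩ := st.pk
  have ok := pk.ok
  have fm := pk.fm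
  have mb := st.k0.mb
  have y0 := fm.ext.ind.ne_zero
  have s0 : ∀ j, s j ≠ 0 := fun j => (mb.s0 j).1
  have f0 := S45.f_ne ok hf
  have x0 : ∀ p, ∏ j, s j ^ a p j ≠ 0 := fun p =>
    Finset.prod_ne_zero_iff.2 fun j _ => pow_ne_zero _ (s0 j)
  have d0 : ∀ p, (b.lam p / ∏ j, s j ^ a p j) ^ n p ≠ 0 := fun p =>
    zpow_ne_zero _ (div_ne_zero (ok.l0 p) (x0 p))
  have p0 := Finset.prod_ne_zero_iff.2 fun p (_ : p ∈ N) => d0 p
  have m0 := mul_ne_zero (To.mon_ne s0 u) (zpow_ne_zero i f0)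
  have z0 := mul_ne_zero m0 p0
  have i0 : ∀ {z : L}, z ≠ 0 → algebraMap L K z ≠ 0 := fun h => (map_ne_zero _).2 h
  have o : ∀ P : Pl K, P.ord (mo b s y f a N v u i n) = ∑ j, v j * P.ord (y j) +
      ∑ j, u j * P.ord (algebraMap L K (s j)) + i * P.ord (algebraMap L K f) -
        ∑ p ∈ N, n p * wd b s p (a p) P := fun P => by
    have e1 : P.ord (algebraMap L K (mon s u)) = ∑ j, u j * P.ord (algebraMap L K (s j)) := by
      rw [← To.ord_mon P fun j => i0 (s0 j)]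
      simp only [mon, map_prod, map_zpow₀]
    have e2 : ∀ p, P.ord (algebraMap L K ((b.lam p / ∏ j, s j ^ a p j) ^ n p)) =
        -(n p * wd b s p (a p) P) := fun p => by
      rw [map_zpow₀, Pl.ord_zpow, map_div₀, Pl.ord_div _ (i0 (ok.l0 p)) (i0 (x0 p)), map_prod,
        Pl.ord_prod _ _ fun j _ => i0 (pow_ne_zero _ (s0 j)), wd]
      simp only [map_pow, Pl.ord_pow]
      ring
    rw [mo, ord_hm y0 P z0, map_mul, Pl.ord_mul _ (i0 m0) (i0 p0), map_mul,
      Pl.ord_mul _ (i0 (To.mon_ne s0 u)) (i0 (zpow_ne_zero i f0)), e1, map_zpow₀, Pl.ord_zpow,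
      map_prod, Pl.ord_prod _ _ fun p _ => i0 (d0 p)]
    simp only [e2, Finset.sum_neg_distrib]
    ring
  refine ⟨mul_ne_zero (i0 z0) (To.mon_ne y0 v), o, fun m h1 h2 P hP k => ?_⟩
  by_cases t : Hz L y P
  · rw [mo, t _ v z0, (pk.reg P hP t).2, mul_zero]
  obtain ⟨p, z, e⟩ : ∃ p ∉ b.S, At P p := by
    by_contra x
    exact k ⟨hP, t, fun p hp a => x ⟨p, hp, a⟩⟩
  have pT : p ∈ b.T := by
    rcases fm.pg P hP with x | ⟨p', x, a'⟩
    · exact absurd x e.not_trv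
    · exact a'.uniq e ▸ x
  have nT : ∀ p' ∈ N, p' ∈ b.T := fun p' h => by
    obtain ⟨-, -, P', k', e'⟩ := (np p').1 h
    rcases fm.pg P' k' with x | ⟨p'', x, a'⟩
    · exact absurd x e'.not_trv
    · exact a'.uniq e' ▸ x
  have e3 : ∑ p' ∈ N, n p' * wd b s p' (a p') P =
      ∑ j, (∑ p' ∈ N, n p' * (a p' j : ℤ)) * P.ord (algebraMap L K (s j)) -
        mu P p * if p ∈ N then n p else 0 := by
    simp only [wd, mul_sub, Finset.sum_sub_distrib, Finset.mul_sum, Finset.sum_mul]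
    rw [Finset.sum_comm, ← Finset.sum_ite_eq, Finset.mul_sum]
    congr 1
    · exact Finset.sum_congr rfl fun _ _ => Finset.sum_congr rfl fun _ _ => by ring
    · refine Finset.sum_congr rfl fun p' h => ?_
      rw [e.ord (b.lam p'), S45.ord_lam ok (nT p' h) pT z, mu]
      split_ifs <;> ring
  have e4 : ∑ j, (∑ p' ∈ N, n p' * (a p' j : ℤ)) * P.ord (algebraMap L K (s j)) ≤
      ∑ j, u j * P.ord (algebraMap L K (s j)) := Finset.sum_le_sum fun j _ => by
    rw [e.ord (s j)]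
    by_cases w : p.ord (s j) = 0
    · simp [w]
    · exact mul_le_mul_of_nonneg_right (h2 j ⟨P, hP, p, z, e, w⟩)
        (mul_nonneg e.e_pos.le ((mb.s0 j).2 p pT z))
  rw [o, e3, e.ord f, S45.ord_f ok hf pT z, if_pos ⟨P, hP, e⟩, mul_zero, mul_zero]
  by_cases w : p ∈ N
  · have := h1 p w P hP e
    rw [if_pos w]
    linarith
  · have nI : p ∉ I := fun x => w ((np p).2 ⟨x, z, P, hP, e⟩)
    rw [if_neg w, (st.od.od.od P hP p nI e).2.2,
      Finset.sum_eq_zero fun j _ => by rw [st.od.y0 P hP p nI e j (y0 j), mul_zero]]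
    linarith

end Vale.Agent.P283R.Tk
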