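import Vale.Agent.P283R.Ck.Crk13

/-!
# P283R, block TK: Caratheodory inside of the support
-/

open Set

noncomputable section

namespace Vale.Agent.P283R.Tk

open Vale.Agent.P287D Vale.Agent.P283M Vale.Agent.P297Z Cx Cq

open Classical in
/-- Caratheodory with rescaled masses -/
theorem K13.abs {ι π β : Type} [Fintype β] (S I : Finset ι) (ξ : ι → ℝ) (h0 : 0 ≤ ξ)
    (o : ι → β → ℝ) (n : ι → π → ℝ) (r : ι → π) (N : π → ℝ)
    (hr : ∀ P ∉ S, ξ P ≠ 0 → 0 < n P (r P) ∧ ∀ p, p ≠ r P → n P p = 0)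
    (fo : ∀ j, (Function.support fun P => ξ P * o P j).Finite)
    (fn : ∀ p, (Function.support fun P => ξ P * n P p).Finite)
    (hN : ∀ p, ∑ᶠ P, ξ P * n P p = N p)
    (di : ∀ ζ : ι → ℝ, 0 ≤ ζ → (∀ P ∈ I, ζ P = ξ P) → (∀ P, ζ P ≠ 0 → ξ P ≠ 0) →
      (∀ j, (∀ P ∉ S, ξ P ≠ 0 → o P j = 0) → ∑ P ∈ S, ζ P * o P j = ∑ P ∈ S, ξ P * o P j) → ∀ p,
      ∑ P ∈ S, ζ P * n P p ≤ N p ∧ (∑ P ∈ S, ξ P * n P p = N p → ∑ P ∈ S, ζ P * n P p = N p)) :
    ∃ (ξ' : ι → ℝ) (t : Finset ι), 0 ≤ ξ' ∧ t ⊆ S ∧ t.card ≤ I.card + Fintype.card β ∧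
      (∀ P ∈ S, ξ' P ≠ 0 → P ∈ t) ∧ (∀ P, ξ' P ≠ 0 → ξ P ≠ 0) ∧
      (∀ j, ∑ᶠ P, ξ' P * o P j = ∑ᶠ P, ξ P * o P j) ∧ ∀ p, ∑ᶠ P, ξ' P * n P p = N p := by
  let M : π → ℝ := fun p => N p - ∑ P ∈ S, ξ P * n P p
  let cR : ι → (ι → ℝ) → ℝ := fun R a =>
    ∑ᶠ P, if P ∈ S then 0 else n R (r P) / M (r P) * (ξ P * a P)
  let A := (S \ I).filter fun P => ξ P ≠ 0
  obtain ⟨z, z0, z1, z2⟩ := Vale.Agent.P283R.Wd.Z66.car
    (fun (R : A) j => o R j - cR R fun P => o P j) _ (fun R => ξ R) le_rfl fun R => h0 R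
  let ζ : ι → ℝ := fun P => if k : P ∈ A then z ⟨P, k⟩ else ξ P
  have e1 : ∀ P : A, ζ P = z P := fun P => dif_pos P.2
  have e2 : ∀ P ∉ A, ζ P = ξ P := fun P k => dif_neg k
  have AS : A ⊆ S := fun P k => (Finset.mem_sdiff.1 (Finset.mem_filter.1 k).1).1
  have ζ0 : 0 ≤ ζ := fun P => by
    by_cases k : P ∈ A
    · exact (e1 ⟨P, k⟩).symm ▸ z0 _
    · exact (e2 P k).symm ▸ h0 P
  have ζ1 : ∀ P, ζ P ≠ 0 → ξ P ≠ 0 := fun P h => by
    by_cases k : P ∈ A
    · exact (Finset.mem_filter.1 k).2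
    · exact e2 P k ▸ h
  have z3 : ∀ j, ∑ R ∈ S, (ζ R - ξ R) * (o R j - cR R fun P => o P j) = 0 := fun j => by
    have := congrFun z1 j
    simp only [Finset.sum_apply, Pi.smul_apply, smul_eq_mul] at this
    rw [← Finset.sum_subset AS fun P _ k => by rw [e2 P k, sub_self, zero_mul],
      ← Finset.sum_coe_sort]
    simp only [e1, sub_mul, Finset.sum_sub_distrib, this, sub_self]
  have dd := di ζ ζ0 (fun P k => e2 P fun m => (Finset.mem_sdiff.1 (Finset.mem_filter.1 m).1).2 k)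
    ζ1 fun j h => by
      have := z3 j
      have c : ∀ R, (cR R fun P => o P j) = 0 := fun R => finsum_eq_zero_of_forall_eq_zero fun P => by
        split_ifs with k
        · rfl
        · by_cases m : ξ P = 0
          · simp [m]
          · simp [h P k m]
      simp only [c, sub_zero, sub_mul, Finset.sum_sub_distrib] at this
      exact sub_eq_zero.1 this
  -- the mass of a page
  have sp : ∀ a : ι → ℝ, (Function.support a).Finite →
      ∑ᶠ P, a P = ∑ P ∈ S, a P + ∑ᶠ P, if P ∈ S then 0 else a P := fun a f => by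
    have e : ∑ P ∈ S, a P = ∑ᶠ P, if P ∈ S then a P else 0 := by
      rw [finsum_eq_sum_of_support_subset (s := S) (fun P => if P ∈ S then a P else 0)
        fun P k => by_contra fun m => k (if_neg fun c => m (Finset.mem_coe.2 c))]
      exact Finset.sum_congr rfl fun P k => (if_pos k).symm
    rw [e, ← finsum_add_distrib (f.subset fun P k m => k (by simp [m]))
      (f.subset fun P k m => k (by simp [m]))]
    exact finsum_congr fun P => by split_ifs <;> simp
  have hM : ∀ p, M p = ∑ᶠ P, if P ∈ S then 0 else ξ P * n P p := fun p => by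
    simp only [M, ← hN p, sp _ (fn p), add_sub_cancel_left]
  have Mp : ∀ P ∉ S, ξ P ≠ 0 → 0 < M (r P) := fun P k m => by
    rw [hM]
    have : ∀ R, 0 ≤ if R ∈ S then 0 else ξ R * n R (r P) := fun R => by
      split_ifs with c
      · exact le_rfl
      · by_cases b : ξ R = 0
        · simp [b]
        · by_cases e : r P = r R
          · exact mul_nonneg (h0 R) (e ▸ (hr R c b).1.le)
          · rw [(hr R c b).2 _ e, mul_zero]
    refine lt_of_lt_of_le ?_ (single_le_finsum P ((fn (r P)).subset fun R c b => c (by simp [b])) this)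
    rw [if_neg k]
    exact mul_pos ((h0 P).lt_of_ne' m) (hr P k m).1
  let ξ' : ι → ℝ := fun P => if P ∈ S then ζ P else
    ξ P * ((N (r P) - ∑ R ∈ S, ζ R * n R (r P)) / M (r P))
  have g1 : ∀ P ∈ S, ξ' P = ζ P := fun P k => if_pos k
  have g2 : ∀ P ∉ S, ξ P ≠ 0 → 0 ≤ ξ' P := fun P k m => by
    simp only [ξ', if_neg k]
    exact mul_nonneg (h0 P) (div_nonneg (sub_nonneg.2 (dd _).1) (Mp P k m).le)
  have g3 : ∀ P, ξ' P ≠ 0 → ξ P ≠ 0 := fun P h => by
    by_cases k : P ∈ S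
    · exact ζ1 P (g1 P k ▸ h)
    · simp only [ξ', if_neg k] at h
      exact left_ne_zero_of_mul h
  have key : ∀ a : ι → ℝ, (Function.support fun P => ξ P * a P).Finite →
      ∑ᶠ P, ξ' P * a P = ∑ᶠ P, ξ P * a P + ∑ R ∈ S, (ζ R - ξ R) * (a R - cR R a) := fun a f => by
    have f' : (Function.support fun P => ξ' P * a P).Finite := f.subset fun P k =>
      mul_ne_zero (g3 P (left_ne_zero_of_mul k)) (right_ne_zero_of_mul k)
    have fR : ∀ R, (Function.support fun P =>
        if P ∈ S then 0 else n R (r P) / M (r P) * (ξ P * a P)).Finite := fun R =>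
      f.subset fun P k m => k (by simp [m])
    have : (∑ᶠ P, if P ∈ S then 0 else ξ' P * a P) = (∑ᶠ P, if P ∈ S then 0 else ξ P * a P) -
        ∑ R ∈ S, (ζ R - ξ R) * cR R a := by
      simp only [cR, mul_finsum]
      rw [← finsum_sum_comm _ _ fun R _ => (fR R).subset fun P k m => k (by
        simp only [m, mul_zero]), ← finsum_sub_distrib (f.subset fun P k m => k (by simp [m]))
        (f.subset fun P k m => k (by simp [m]))]
      refine finsum_congr fun P => ?_
      split_ifs with k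
      · simp
      · by_cases m : ξ P = 0
        · simp [ξ', k, m]
        · have := (Mp P k m).ne'
          have e : ∑ R ∈ S, (ζ R - ξ R) * (n R (r P) / M (r P) * (ξ P * a P)) =
              (∑ R ∈ S, ζ R * n R (r P) - ∑ R ∈ S, ξ R * n R (r P)) * (ξ P * a P / M (r P)) := by
            rw [← Finset.sum_sub_distrib, Finset.sum_mul]
            exact Finset.sum_congr rfl fun _ _ => by ring
          simp only [ξ', if_neg k, e]
          field_simp
          simp only [M]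
          ring
    rw [sp _ f', sp _ f, this, Finset.sum_congr rfl fun P k => by rw [g1 P k]]
    simp only [mul_sub, sub_mul, Finset.sum_sub_distrib]
    ring
  refine ⟨ξ', S.filter (· ∈ I) ∪ (Finset.univ.filter fun P : A => z P ≠ 0).image (↑), fun P => ?_,
    Finset.union_subset (Finset.filter_subset _ _) fun P k => ?_, (Finset.card_union_le _ _).trans
      (Nat.add_le_add (Finset.card_le_card fun P k => (Finset.mem_filter.1 k).2)
        (Finset.card_image_le.trans (z2.trans (by simp)))), fun P k m => ?_, g3,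
    fun j => by rw [key _ (fo j), z3, add_zero], fun p => ?_⟩
  · by_cases k : P ∈ S
    · exact (g1 P k).symm ▸ ζ0 P
    · by_cases m : ξ P = 0
      · simp [ξ', k, m]
      · exact g2 P k m
  · obtain ⟨P, -, rfl⟩ := Finset.mem_image.1 k
    exact AS P.2
  · by_cases i : P ∈ I
    · exact Finset.mem_union_left _ (Finset.mem_filter.2 ⟨k, i⟩)
    · have a : P ∈ A := Finset.mem_filter.2 ⟨Finset.mem_sdiff.2 ⟨k, i⟩, g3 P m⟩
      exact Finset.mem_union_right _ (Finset.mem_image.2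
        ⟨⟨P, a⟩, by simpa [← e1, ← g1 P k] using m, rfl⟩)
  · rw [key _ (fn p), hN, add_eq_left]
    have c : ∀ R, (cR R fun P => n P p) = n R p / M p * M p := fun R => by
      conv_rhs => rw [mul_comm, hM p, finsum_mul, ← hM p]
      refine finsum_congr fun P => ?_
      split_ifs with k
      · simp
      · by_cases m : ξ P = 0
        · simp [m]
        · by_cases e : p = r P
          · rw [e, mul_comm]
          · simp [(hr P k m).2 p e]
    by_cases m : M p = 0
    · have a := (sub_eq_zero.1 m).symm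
      simp only [c, m, mul_zero, sub_zero, sub_mul, Finset.sum_sub_distrib, a, (dd p).2 a,
        sub_self]
    · simp only [c, div_mul_cancel₀ _ m, sub_self, mul_zero, Finset.sum_const_zero]

/-- the mass of a page stays non negative, and zero if it was zero -/
theorem K13.dic {ι : Type} (S : Finset ι) {ξ ζ : ι → ℝ} (h0 : 0 ≤ ξ) (z0 : 0 ≤ ζ)
    (sup : ∀ P, ζ P ≠ 0 → ξ P ≠ 0) (u n : ι → ℝ) (N : ℝ) (hn : ∀ P ∈ S, ξ P ≠ 0 → n P ≤ u P)
    (e : ∑ P ∈ S, ζ P * u P = ∑ P ∈ S, ξ P * u P) (hN : ∑ P ∈ S, ξ P * u P ≤ N) :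
    ∑ P ∈ S, ζ P * n P ≤ N ∧ (∑ P ∈ S, ξ P * n P = N → ∑ P ∈ S, ζ P * n P = N) := by
  have le : ∀ η : ι → ℝ, 0 ≤ η → (∀ P, η P ≠ 0 → ξ P ≠ 0) → ∀ P ∈ S, η P * n P ≤ η P * u P :=
    fun η p s P k => by
      by_cases m : η P = 0
      · simp [m]
      · exact mul_le_mul_of_nonneg_left (hn P k (s P m)) (p P)
  have l1 := Finset.sum_le_sum (le ζ z0 sup)
  have l2 := Finset.sum_le_sum (le ξ h0 fun _ h => h)
  refine ⟨by linarith, fun h => ?_⟩
  have k := (Finset.sum_eq_sum_iff_of_le (le ξ h0 fun _ h => h)).1 (by linarith)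
  have : ∑ P ∈ S, ζ P * n P = ∑ P ∈ S, ζ P * u P := Finset.sum_congr rfl fun P p => by
    by_cases m : ζ P = 0
    · simp [m]
    · rw [mul_left_cancel₀ (sup P m) (k P p)]
  linarith

/-- Caratheodory on the primes over the boundary, inside of the support -/
theorem car13 {L K : Type} [Field L] [Algebra ℂ L] [Field K] [Algebra ℂ K] [Algebra L K]
    [IsScalarTower ℂ L K] {c ρ l n : ℕ} {b : Ba L c} {y : Fin ρ → K} {T : Set (Pl K)}
    {s : Fin l → L} {Q : Pl K} {ξ : Pl K → ℝ} (ok : b.Ok n) (mb : Ck.Mb c b.T b.S s)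
    (fm : Fm b y T) (h : Cq.Rep L y T Q ξ) : ∃ (ξ' : Pl K → ℝ) (t : Finset (Pl K)),
      Cq.Rep L y T Q ξ' ∧ t.card ≤ l + ρ ∧ (∀ P, P ∈ t ↔ P ∈ Kt y T b.S ∧ ξ' P ≠ 0) ∧
        ∀ P, ξ' P ≠ 0 → ξ P ≠ 0 := by
  classical
  have y0 := fm.ext.ind.ne_zero
  have fin := (Cq.car13 L K c ρ b y T b.S fm).1
  let S := fin.toFinset
  have hS : ∀ P, P ∈ S ↔ P ∈ Kt y T b.S := fun P => fin.mem_toFinset
  have am : ∀ {a : L}, a ≠ 0 → algebraMap L K a ≠ 0 := fun a => (map_ne_zero _).2 a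
  have ex : ∀ P ∉ S, ξ P ≠ 0 → ∃ p, (p ∈ b.T ∧ p ∉ b.S) ∧ At P p := fun P k m => by
    by_contra z
    refine k ((hS P).2 ⟨(h.sup P m).1, (h.sup P m).2, fun p a e => ?_⟩)
    obtain v | ⟨p', v, w⟩ := fm.pg P (h.sup P m).1
    · exact e.e_pos.ne' (v.ord _)
    · exact z ⟨p, ⟨w.uniq e ▸ v, a⟩, e⟩
  have pg : ∀ P ∈ S, Trv (algebraMap L K) P ∨ ∃ p ∈ b.S, At P p := fun P k =>
    (fm.pg P ((hS P).1 k).1).imp_right fun ⟨p, _, e⟩ =>
      ⟨p, by_contra fun z => ((hS P).1 k).2.2 p z e, e⟩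
  have lm : ∀ p ∈ b.T, ∀ p' ∈ b.T, p' ∉ b.S → p'.ord (b.lam p) = if p' = p then 1 else 0 :=
    fun p a p' a' n => by
      have := ok.lam p a p' a'
      rwa [ok.sup p' a' n, dotProduct_zero, add_zero] at this
  let U : L → Prop := fun ψ => ψ ≠ 0 ∧ ∀ p ∈ b.T, p ∉ b.S → p.ord ψ = 0
  let F : Pl L ⊕ L → L := Sum.elim (fun p => if p ∈ b.T ∧ p ∉ b.S then b.lam p else 1)
    fun ψ => if U ψ then ψ else 1
  have F0 : ∀ i, F i ≠ 0 ∧ ∀ p ∈ b.T, p ∉ b.S → 0 ≤ p.ord (F i) := by
    rintro (p | ψ) <;> simp only [F, Sum.elim_inl, Sum.elim_inr] <;> split_ifs with k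
    · refine ⟨ok.l0 p, fun p' a n => ?_⟩
      rw [lm p k.1 p' a n]
      split_ifs <;> simp
    · simp
    · exact ⟨k.1, fun p a n => (k.2 p a n).ge⟩
    · simp
  let r : Pl K → Pl L ⊕ L := fun P =>
    if k : ∃ p, (p ∈ b.T ∧ p ∉ b.S) ∧ At P p then .inl k.choose else .inr 1
  have fi : ∀ η : Pl K → ℝ, (∀ P, η P ≠ 0 → ξ P ≠ 0) → ∀ a : K,
      (Function.support fun P => η P * (P.ord a : ℝ)).Finite := fun η e a =>
    (fm.fin a).subset fun P k =>
      ⟨(h.sup P (e P (left_ne_zero_of_mul k))).1, Int.cast_ne_zero.1 (right_ne_zero_of_mul k)⟩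
  have hl : ∀ φ : L, φ ≠ 0 → ∑ᶠ P, ξ P * (P.ord (algebraMap L K φ) : ℝ) =
      Q.ord (algebraMap L K φ) := fun φ φ0 => by
    simpa [hm, To.mon] using h.eq φ 0 φ0
  have om : ∀ (P : Pl K) (w : Fin l → ℕ), P.ord (algebraMap L K (∏ j, s j ^ w j)) =
      ∑ j, w j * P.ord (algebraMap L K (s j)) := fun P w => by
    rw [map_prod, P.ord_prod _ fun j _ => am (pow_ne_zero _ (mb.s0 j).1)]
    simp only [map_pow, Pl.ord_pow]
  obtain ⟨ξ', t, a0, a1, a2, a3, a4, a6, a7⟩ := K13.abs (β := Fin ρ ⊕ Fin l) S ∅ ξ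
    h.nn (fun P => Sum.elim (fun j => P.ord (y j))
      fun j => if P ∈ S then P.ord (algebraMap L K (s j)) else 0)
    (fun P i => P.ord (algebraMap L K (F i))) r (fun i => Q.ord (algebraMap L K (F i)))
    (fun P k m => by
      have e := ex P k m
      obtain ⟨⟨u, v⟩, w⟩ := e.choose_spec
      simp only [r, dif_pos e]
      refine ⟨Int.cast_pos.2 ?_, fun i n => Int.cast_eq_zero.2 ?_⟩
      · simp only [F, Sum.elim_inl, if_pos (And.intro u v)]
        rw [w.ord, lm _ u _ u v, if_pos rfl, mul_one]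
        exact w.e_pos
      · rw [w.ord]
        refine mul_eq_zero_of_right _ ?_
        rcases i with p | ψ <;> simp only [F, Sum.elim_inl, Sum.elim_inr] <;> split_ifs with z
        · rw [lm _ z.1 _ u v, if_neg fun q => n (congrArg _ q.symm)]
        · simp
        · exact z.2 _ u v
        · simp)
    (by
      rintro (j | j)
      · exact fi ξ (fun _ => id) _
      · exact S.finite_toSet.subset fun P k => by_contra fun z => k (by
          simp only [Sum.elim_inr, if_neg (show P ∉ S from z), mul_zero]))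
    (fun i => fi ξ (fun _ => id) _) (fun i => hl _ (F0 i).1)
    fun ζ ζ0 _ ζ2 e i => by
      have sp := mb.mono _ (F0 i).2
      obtain ⟨_, ⟨⟨w, rfl⟩, w1⟩, w2⟩ := Ck.K13.mn Q sp (F0 i).1
      refine K13.dic S h.nn ζ0 ζ2 (fun P => P.ord (algebraMap L K (∏ j, s j ^ w j))) _ _
        (fun P k _ => Int.cast_le.2 ?_) ?_ ?_
      · obtain u | ⟨p, a, u⟩ := pg P k
        · rw [u.ord, u.ord]
        · rw [u.ord, u.ord (∏ j, s j ^ w j)]
          exact mul_le_mul_of_nonneg_left (w1 p a) u.e_pos.le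
      · have e' : ∀ j, ∑ P ∈ S, ζ P * (P.ord (algebraMap L K (s j)) : ℝ) =
            ∑ P ∈ S, ξ P * (P.ord (algebraMap L K (s j)) : ℝ) := fun j => by
          refine .trans (Finset.sum_congr rfl fun P k => ?_)
            ((e (.inr j) fun P k _ => if_neg k).trans (Finset.sum_congr rfl fun P k => ?_)) <;>
          rw [Sum.elim_inr, if_pos k]
        have e2 : ∀ η : Pl K → ℝ, ∑ P ∈ S, η P * (P.ord (algebraMap L K (∏ j, s j ^ w j)) : ℝ) =
            ∑ j, w j * ∑ P ∈ S, η P * (P.ord (algebraMap L K (s j)) : ℝ) := fun η => by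
          simp only [om, Int.cast_sum, Int.cast_mul, Finset.mul_sum, Int.cast_natCast]
          rw [Finset.sum_comm]
          exact Finset.sum_congr rfl fun _ _ => Finset.sum_congr rfl fun _ _ => by ring
        simp only [e2, e']
      · have x0 : ∏ j, s j ^ w j ≠ 0 :=
          Finset.prod_ne_zero_iff.2 fun j _ => pow_ne_zero _ (mb.s0 j).1
        refine .trans ?_ ((hl _ x0).le.trans (Int.cast_le.2 w2))
        have g := fi ξ (fun _ => id) (algebraMap L K (∏ j, s j ^ w j))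
        rw [finsum_eq_sum_of_support_subset (s := S ∪ g.toFinset) _ fun P k =>
          Finset.mem_coe.2 (Finset.mem_union_right _ (g.mem_toFinset.2 k))]
        refine Finset.sum_le_sum_of_subset_of_nonneg Finset.subset_union_left fun P _ k => ?_
        by_cases m : ξ P = 0
        · simp [m]
        obtain ⟨p, ⟨u, v⟩, z⟩ := ex P k m
        refine mul_nonneg (h.nn P) (Int.cast_nonneg (by
          rw [om]
          exact Finset.sum_nonneg fun j _ => mul_nonneg (Int.natCast_nonneg _) (by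
            rw [z.ord]
            exact mul_nonneg z.e_pos.le ((mb.s0 j).2 p u v))))
  refine ⟨ξ', t.filter (ξ' · ≠ 0), ⟨a0, fun P k => h.sup P (a4 P k), fun φ u φ0 => ?_⟩,
    (Finset.card_filter_le _ _).trans (a2.trans ?_), fun P => ?_, a4⟩
  · let H : K → Prop := fun a => a ≠ 0 ∧ ∑ᶠ P, ξ' P * (P.ord a : ℝ) = Q.ord a
    have mul : ∀ a a', H a → H a' → H (a * a') := fun a a' k k' => ⟨mul_ne_zero k.1 k'.1, by
      simp only [Pl.ord_mul _ k.1 k'.1, Int.cast_add, mul_add]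
      rw [finsum_add_distrib (fi ξ' a4 a) (fi ξ' a4 a'), k.2, k'.2]⟩
    have zp : ∀ a (n : ℤ), H a → H (a ^ n) := fun a n k => ⟨zpow_ne_zero _ k.1, by
      simp only [Pl.ord_zpow, Int.cast_mul, mul_left_comm _ (n : ℝ)]
      rw [← mul_finsum, k.2]⟩
    have one : H 1 := ⟨one_ne_zero, by simp⟩
    have hF : ∀ i, H (algebraMap L K (F i)) := fun i => ⟨am (F0 i).1, a7 i⟩
    let E := (mb.fin φ).toFinset.filter (· ∉ b.S)
    have hE : ∀ p, p ∈ E ↔ (p ∈ b.T ∧ p.ord φ ≠ 0) ∧ p ∉ b.S := fun p => by simp [E]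
    let G := ∏ p ∈ E, b.lam p ^ p.ord φ
    have G0 : G ≠ 0 := Finset.prod_ne_zero_iff.2 fun p _ => zpow_ne_zero _ (ok.l0 p)
    have u1 : U (φ / G) := ⟨div_ne_zero φ0 G0, fun p a n => by
      rw [Pl.ord_div _ φ0 G0, p.ord_prod _ fun p _ => zpow_ne_zero _ (ok.l0 p),
        Finset.sum_congr rfl fun p' m => by rw [Pl.ord_zpow, lm p' ((hE p').1 m).1.1 p a n]]
      simp only [mul_ite, mul_one, mul_zero, Finset.sum_ite_eq, hE]
      split_ifs with z
      · exact sub_self _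
      · rw [sub_zero]
        exact by_contra fun q => z ⟨⟨a, q⟩, n⟩⟩
    have : H (hm y φ u) := by
      rw [hm, ← div_mul_cancel₀ φ G0, map_mul]
      refine mul _ _ (mul _ _ ?_ ?_) (Finset.prod_induction _ H mul one fun j _ => zp _ _ ⟨y0 j, ?_⟩)
      · simpa only [F, Sum.elim_inr, if_pos u1] using hF (.inr (φ / G))
      · rw [map_prod]
        refine Finset.prod_induction _ H mul one fun p m => ?_
        rw [map_zpow₀]
        refine zp _ _ ?_
        simpa only [F, Sum.elim_inl, if_pos (And.intro ((hE p).1 m).1.1 ((hE p).1 m).2)]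
          using hF (.inl p)
      · have e := h.eq 1 (Pi.single j 1) one_ne_zero
        rw [hm, map_one, one_mul, show To.mon y (Pi.single j 1) = y j by
          rw [To.mon, Finset.prod_eq_single j (fun i _ k => by simp [k]) (by simp)]; simp] at e
        exact (a6 (.inl j)).trans e
    exact this.2
  · simp only [Fintype.card_sum, Fintype.card_fin, Finset.card_empty]
    omega
  · rw [Finset.mem_filter, ← hS]
    exact ⟨fun k => ⟨a1 k.1, k.2⟩, fun k => ⟨a3 P k.1 k.2, k.2⟩⟩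

end Vale.Agent.P283R.Tk
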