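import Vale.Agent.P283R.Ck.Crk13
import Vale.Agent.P283R.Wd.Gq95

/-!
# P283R, block TK: a section gives a monomial section
-/

open Set

noncomputable section

namespace Vale.Agent.P283R.Tk

open Vale.Agent.P287D Vale.Agent.P283M Vale.Agent.P297Z Cx Cq

/-- a function on the base is replaced by a monomial -/
theorem D13.base {L K : Type} [Field L] [Algebra ℂ L] [Field K] [Algebra ℂ K] [Algebra L K]
    [IsScalarTower ℂ L K] {c l n : ℕ} {b : Ba L c} {s : Fin l → L} (ok : b.Ok n)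
    (mb : Ck.Mb c b.T b.S s) (N E : Finset (Pl L)) (hN : ∀ p ∈ N, p ∈ b.T ∧ p ∉ b.S ∧ p ∉ E)
    (hE : ∀ p ∈ E, p ∈ b.T ∧ p ∉ b.S) {g : L} (g0 : g ≠ 0)
    (hg : ∀ p ∈ b.T, p ∉ b.S → p ∉ N → p ∉ E → 0 ≤ p.ord g) (Q : Pl K) :
    ∃ (w : Fin l → ℕ) (a : ℕ), ∀ z, z = (∏ p ∈ N, b.lam p ^ p.ord g) * (∏ j, s j ^ w j) /
      (∏ p ∈ E, b.lam p) ^ a → z ≠ 0 ∧ (∀ p ∈ b.S, p.ord g ≤ p.ord z) ∧
        (∀ p ∈ N, p.ord g ≤ p.ord z) ∧ (∀ p ∈ b.T, p ∉ b.S → p ∉ N → p ∉ E → 0 ≤ p.ord z) ∧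
        Q.ord (algebraMap L K z) ≤ Q.ord (algebraMap L K g) := by
  classical
  have lm : ∀ p ∈ b.T, ∀ p' ∈ b.T, p' ∉ b.S → p'.ord (b.lam p) = if p' = p then 1 else 0 :=
    fun p a p' a' n => by
      have := ok.lam p a p' a'
      rwa [ok.sup p' a' n, dotProduct_zero, add_zero] at this
  obtain ⟨G, hG⟩ : ∃ G, G = ∏ p ∈ N, b.lam p ^ p.ord g := ⟨_, rfl⟩
  obtain ⟨f, hf⟩ : ∃ f, f = ∏ p ∈ E, b.lam p := ⟨_, rfl⟩
  have G0 : G ≠ 0 := hG ▸ Finset.prod_ne_zero_iff.2 fun p _ => zpow_ne_zero _ (ok.l0 p)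
  have f0 : f ≠ 0 := hf ▸ Finset.prod_ne_zero_iff.2 fun p _ => ok.l0 p
  have oG : ∀ p ∈ b.T, p ∉ b.S → p.ord G = if p ∈ N then p.ord g else 0 := fun p a n => by
    rw [hG, p.ord_prod _ fun p _ => zpow_ne_zero _ (ok.l0 p),
      Finset.sum_congr rfl fun p' m => by rw [Pl.ord_zpow, lm p' (hN p' m).1 p a n]]
    simp only [mul_ite, mul_one, mul_zero, Finset.sum_ite_eq]
  have of : ∀ p ∈ b.T, p ∉ b.S → p.ord f = if p ∈ E then 1 else 0 := fun p a n => by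
    rw [hf, p.ord_prod _ fun p _ => ok.l0 p,
      Finset.sum_congr rfl fun p' m => lm p' (hE p' m).1 p a n]
    simp only [Finset.sum_ite_eq]
  obtain ⟨a, ha⟩ : ∃ a : ℕ, ∀ p ∈ E, -p.ord g ≤ a :=
    ⟨E.sup fun p => (-p.ord g).toNat, fun p m => (Int.self_le_toNat _).trans
      (Int.ofNat_le.2 (Finset.le_sup (f := fun p : Pl L => (-p.ord g).toNat) m))⟩
  have fa : f ^ a ≠ 0 := pow_ne_zero _ f0
  have h0 : g / G * f ^ a ≠ 0 := mul_ne_zero (div_ne_zero g0 G0) fa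
  have oh : ∀ p : Pl L, p.ord (g / G * f ^ a) = p.ord g - p.ord G + a * p.ord f := fun p => by
    rw [Pl.ord_mul _ (div_ne_zero g0 G0) fa, Pl.ord_div _ g0 G0, Pl.ord_pow]
  obtain ⟨_, ⟨⟨w, rfl⟩, w1⟩, w2⟩ := Ck.K13.mn Q (mb.mono (g / G * f ^ a) fun p u v => by
    rw [oh, oG p u v, of p u v]
    split_ifs with i j j
    · exact ((hN p i).2.2 j).elim
    · simp
    · have := ha p j
      omega
    · simpa using hg p u v i j) h0
  have x0 : ∏ j, s j ^ w j ≠ 0 := Finset.prod_ne_zero_iff.2 fun j _ => pow_ne_zero _ (mb.s0 j).1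
  have x1 : ∀ p ∈ b.T, p ∉ b.S → 0 ≤ p.ord (∏ j, s j ^ w j) := fun p u v => by
    rw [p.ord_prod _ fun j _ => pow_ne_zero _ (mb.s0 j).1]
    exact Finset.sum_nonneg fun j _ => by
      rw [Pl.ord_pow]
      exact mul_nonneg (Int.natCast_nonneg _) ((mb.s0 j).2 p u v)
  refine ⟨w, a, fun z hz => ?_⟩
  rw [← hG, ← hf] at hz
  have oz : ∀ p : Pl L, p.ord z = p.ord G + p.ord (∏ j, s j ^ w j) - a * p.ord f := fun p => by
    rw [hz, Pl.ord_div _ (mul_ne_zero G0 x0) fa, Pl.ord_mul _ G0 x0, Pl.ord_pow]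
  refine ⟨hz ▸ div_ne_zero (mul_ne_zero G0 x0) fa, fun p m => ?_, fun p m => ?_,
    fun p u v i j => ?_, ?_⟩
  · have := w1 p m
    rw [oh] at this
    rw [oz]
    omega
  · obtain ⟨u, v, j⟩ := hN p m
    have := x1 p u v
    rw [oz, oG p u v, of p u v, if_pos m, if_neg j]
    omega
  · have := x1 p u v
    rw [oz, oG p u v, of p u v, if_neg i, if_neg j]
    omega
  · have am : ∀ {a : L}, a ≠ 0 → algebraMap L K a ≠ 0 := fun a => (map_ne_zero _).2 a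
    rw [map_mul, map_div₀, Pl.ord_mul _ (div_ne_zero (am g0) (am G0)) (am fa),
      Pl.ord_div _ (am g0) (am G0)] at w2
    rw [hz, map_div₀, map_mul, Pl.ord_div _ (mul_ne_zero (am G0) (am x0)) (am fa),
      Pl.ord_mul _ (am G0) (am x0)]
    omega

/-- a section is replaced by a monomial section -/
theorem dec13 {L K : Type} [Field L] [Algebra ℂ L] [Field K] [Algebra ℂ K] [Algebra L K]
    [IsScalarTower ℂ L K] {c ρ l n : ℕ} {b : Ba L c} {y : Fin ρ → K} {T X : Set (Pl K)}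
    {s : Fin l → L} (ok : b.Ok n) (mb : Ck.Mb c b.T b.S s) (fm : Fm b y T)
    (hX : X ⊆ Kt y T b.S) (N E : Finset (Pl L)) (hN : ∀ p ∈ N, p ∈ b.T ∧ p ∉ b.S ∧ p ∉ E)
    (hE : ∀ p, p ∈ E ↔ p ∈ b.T ∧ p ∉ b.S ∧ ¬ ∃ P ∈ T, At P p) (k : Pl K → ℤ)
    (hz : ∀ P ∈ T, Hz L y P → k P = 0)
    (od : ∀ P ∈ T, ∀ p ∉ b.S, p ∉ N → At P p → k P = 0 ∧ ∀ j, P.ord (y j) = 0)
    {φ : K} (φ0 : φ ≠ 0) (h : ∀ P ∈ T \ X, k P ≤ P.ord φ) (Q : Pl K) :
    ∃ (v : Fin ρ → ℤ) (w : Fin l → ℕ) (m : Pl L → ℤ) (a : ℕ), ∀ z,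
      z = (∏ p ∈ N, b.lam p ^ m p) * (∏ j, s j ^ w j) / (∏ p ∈ E, b.lam p) ^ a → z ≠ 0 ∧
      (∀ P ∈ T \ X, k P ≤ P.ord (hm y z v)) ∧
      (∀ P ∈ T, ∀ p ∉ b.S, p ∈ N → At P p → k P ≤ mu P p * m p + ∑ j, v j * P.ord (y j)) ∧
      Q.ord (hm y z v) ≤ Q.ord φ := by
  have y0 := fm.ext.ind.ne_zero
  obtain ⟨ψ, rfl⟩ := fm.lau φ φ0 fun P u v =>
    (hz P u v).ge.trans (h P ⟨u, fun x => (hX x).2.1 v⟩)
  obtain ⟨v, u0, -, le⟩ := Wd.ord_sum_ge ψ.support (fun m => hm y (ψ m) m) φ0 Q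
  have g0 := Finsupp.mem_support_iff.1 u0
  have o : ∀ P ∈ T \ X, k P ≤ P.ord (hm y (ψ v) v) := fun P u => by
    by_cases z : Hz L y P
    · rw [hz P u.1 z, z _ _ g0]
    · exact (h P u).trans (fm.inv P u.1 z ψ v u0)
  have oa : ∀ P ∈ T, ∀ p ∉ b.S, At P p →
      k P ≤ mu P p * p.ord (ψ v) + ∑ j, v j * P.ord (y j) := fun P u p i e => by
    have := o P ⟨u, fun x => (hX x).2.2 p i e⟩
    rwa [ord_hm y0 P g0, e.ord] at this
  obtain ⟨w, a, H⟩ := D13.base ok mb N E hN (fun p m => ⟨((hE p).1 m).1, ((hE p).1 m).2.1⟩) g0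
    (fun p u i j m => by
      obtain ⟨P, t, e⟩ : ∃ P ∈ T, At P p := by_contra fun z => m ((hE p).2 ⟨u, i, z⟩)
      have := oa P t p i e
      simp only [(od P t p i j e).1, (od P t p i j e).2, mul_zero, Finset.sum_const_zero,
        add_zero] at this
      exact (mul_nonneg_iff_of_pos_left e.e_pos).1 this) Q
  refine ⟨v, w, fun p => p.ord (ψ v), a, fun z hz' => ?_⟩
  obtain ⟨z0, z1, z2, z3, z4⟩ := H z hz'
  refine ⟨z0, fun P u => ?_, fun P u p i _ e => oa P u p i e, le_trans ?_ le⟩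
  · have := o P u
    rw [ord_hm y0 P g0] at this
    rw [ord_hm y0 P z0]
    obtain e | ⟨p, t, e⟩ := fm.pg P u.1
    · rwa [e.ord] at this ⊢
    have mu0 := e.e_pos.le
    rw [e.ord] at this ⊢
    by_cases i : p ∈ b.S
    · exact this.trans (add_le_add_left (mul_le_mul_of_nonneg_left (z1 p i) mu0) _)
    by_cases j : p ∈ N
    · exact this.trans (add_le_add_left (mul_le_mul_of_nonneg_left (z2 p j) mu0) _)
    · simp only [(od P u.1 p i j e).1, (od P u.1 p i j e).2, mul_zero, Finset.sum_const_zero,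
        add_zero]
      exact mul_nonneg mu0 (z3 p t i j fun m => ((hE p).1 m).2.2 ⟨P, u.1, e⟩)
  · rw [ord_hm y0 Q z0, ord_hm y0 Q g0]
    exact add_le_add_left z4 _

end Vale.Agent.P283R.Tk
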