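import Vale.Agent.P283R.Tk.St
import Vale.Agent.P283R.Tk.Car13
import Vale.Agent.P283R.Tk.Dec13

/-!
# P283R, block TK: the rows VTX and DEC
-/

open Set

noncomputable section

namespace Vale.Agent.P283R.Tk

open Vale.Agent.P287D Vale.Agent.P283M Vale.Agent.P297Z Cx Cq

theorem D13.zs {L ι : Type} [Field L] {x : L} (x0 : x ≠ 0) (N : Finset ι) (e : ι → ℤ)
    (a : ι → ℕ) : ∏ p ∈ N, (x ^ a p) ^ e p = x ^ ∑ p ∈ N, e p * (a p : ℤ) := by
  induction N using Finset.cons_induction with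
  | empty => simp
  | cons p N k ih =>
    rw [Finset.prod_cons, Finset.sum_cons, ih, zpow_add₀ x0, ← zpow_natCast, ← zpow_mul,
      mul_comm (e p)]

/-- **VTX** -/
theorem vtx13 : VTX := by
  intro L K _ _ _ _ _ _ c ρ b y T l s Q ξ k fm h
  obtain ⟨ξ', t, a, e, f, -⟩ := car13 k.ok k.mb fm h
  exact ⟨ξ', t, a, e, fun P u v => (f P).2 ⟨u, v⟩⟩

/-- **DEC** -/
theorem dec13r : DEC := by
  intro L K _ _ _ _ _ _ c ρ b y T l s d q ε ψ κ Q ξ I a N f m X st hN ⟨E, hE, hf⟩ hX ⟨φ, φ0, h, hQ⟩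
  obtain ⟨n, pk⟩ := st.pk
  have fm := pk.fm
  have nI : ∀ P ∈ T, ∀ p ∉ b.S, p ∉ N → At P p → p ∉ I := fun P u p i j e m =>
    j ((hN p).2 ⟨m, i, P, u, e⟩)
  obtain ⟨v, w, e, i, H⟩ := dec13 st.k0.ok st.k0.mb fm hX N E (fun p k => by
      obtain ⟨-, u, P, t, r⟩ := (hN p).1 k
      refine ⟨?_, u, fun z => ((hE p).1 z).2.2 ⟨P, t, r⟩⟩
      obtain z | ⟨p', z, z'⟩ := fm.pg P t
      · exact (r.e_pos.ne' (z.ord _)).elim
      · exact z'.uniq r ▸ z) hE (fun P => m * κ P)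
    (fun P u z => by rw [(pk.reg P u z).2, mul_zero])
    (fun P u p i j r => ⟨by rw [(st.od.od.od P u p (nI P u p i j r) r).2.2, mul_zero],
      fun x => st.od.y0 P u p (nI P u p i j r) r x (fm.ext.ind.ne_zero x)⟩) φ0 h Q
  obtain ⟨z0, z1, z2, z3⟩ := H _ rfl
  have s0 := fun j => (st.k0.mb.s0 j).1
  have eq : mo b s y f a N v (fun j => w j + ∑ p ∈ N, e p * (a p j : ℤ)) (-i) e =
      hm y ((∏ p ∈ N, b.lam p ^ e p) * (∏ j, s j ^ w j) / (∏ p ∈ E, b.lam p) ^ i) v := by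
    have e1 : ∏ p ∈ N, (∏ j, s j ^ a p j) ^ e p = ∏ j, s j ^ ∑ p ∈ N, e p * (a p j : ℤ) := by
      simp only [← Finset.prod_zpow]
      rw [Finset.prod_comm]
      refine Finset.prod_congr rfl fun j _ => ?_
      exact D13.zs (s0 j) N e fun p => a p j
    have e0 : ∏ j, s j ^ ∑ p ∈ N, e p * (a p j : ℤ) ≠ 0 :=
      Finset.prod_ne_zero_iff.2 fun j _ => zpow_ne_zero _ (s0 j)
    rw [mo, ← hf]
    congr 1
    simp only [div_zpow, Finset.prod_div_distrib, e1, To.mon, zpow_add₀ (s0 _),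
      Finset.prod_mul_distrib, zpow_natCast, zpow_neg]
    field_simp
  refine ⟨v, _, -i, e, fun p k P u r => z2 P u p ((hN p).1 k).2.1 k r, fun j => ?_,
    fun P u => eq ▸ z1 P ⟨u.1.1, u.2⟩, ?_⟩
  · exact le_add_of_nonneg_left (Int.natCast_nonneg _)
  · have g := pow_ne_zero m pk.g0
    rw [eq, Pl.ord_mul _ g (hm_ne fm.ext.ind.ne_zero z0 v)]
    rw [Pl.ord_mul _ g φ0] at hQ
    omega

end Vale.Agent.P283R.Tk
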