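import Vale.Agent.P283R.Tk.St

/-!
# P283R, block TK: the selection of the monomials
-/

open Set

noncomputable section

namespace Vale.Agent.P283R.Tk

open Vale.Agent.P287D Vale.Agent.P283M Cx Cy Cq Ck

/-- **SER** -/
theorem ser18 : SER := by
  classical
  intro sf zm vtx hvy lpi l d
  obtain ⟨C, hC⟩ := hvy l d
  refine ⟨C + l + (l + d + l), fun L K _ _ _ _ _ _ c ρ b y T s q ε ψ κ Q ξ I st => ?_⟩
  obtain ⟨n, pk⟩ := st.pk
  have fm := pk.fm
  have dm := pk.dim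
  obtain ⟨ξ', D, vx⟩ := vtx L K c ρ b y T l s Q ξ st.k0 fm st.rep
  obtain ⟨J₁, cJ, hJ⟩ := hC L K c ρ b y T s q ε ψ κ Q ξ ξ' I D st vx
  have fin : (Kt y T b.S).Finite := (Cq.car13 L K c ρ b y T b.S fm).1
  have Z := fun p h1 h2 => zm L K c ρ b y T l s Q ξ' p h1 h2 st.k0 fm vx.rep
  let H := I.filter (Hv b T)
  have hH : ∀ p, p ∈ H ↔ Hv b T p := fun p => Finset.mem_filter.trans (and_iff_right_of_imp
    fun ⟨_, _, P, a, b, e⟩ => by_contra fun n => by
      have := (st.od.od.od P a p n b).1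
      omega)
  have eA : ∀ p, ∃ A, Hv b T p → Ex b s p A := fun p => by
    by_cases h : Hv b T p
    · exact (Z p h.1 h.2.1).1.imp fun _ k _ => k
    · exact ⟨∅, fun k => (h k).elim⟩
  choose A hA using eA
  let S := fin.toFinset.disjSum (Finset.univ.filter (Zr b s T))
  let v : Pl K ⊕ Fin l → Fin l → ℤ :=
    Sum.elim (fun P i => P.ord (algebraMap L K (s i))) fun j => Pi.single j 1
  let o : Pl L → Pl K ⊕ Fin l → ℤ := fun p =>
    Sum.elim (fun P => P.ord (algebraMap L K (b.lam p))) 0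
  have w2 : ∀ p (a : Fin l → ℕ) j, ∑ i, (a i : ℤ) * v (.inr j) i - o p (.inr j) = a j :=
    fun p a j => by simp [v, o, Pi.single_apply]
  have S1 : ∀ P, Sum.inl P ∈ S ↔ P ∈ Kt y T b.S := fun P =>
    Finset.inl_mem_disjSum.trans fin.mem_toFinset
  have S2 : ∀ j, Sum.inr j ∈ S ↔ Zr b s T j := fun j => by simp [S]
  have w0 : ∀ p ∈ H, ∀ a ∈ A p, ∀ r ∈ S, o p r ≤ ∑ i, (a i : ℤ) * v r i := by
    rintro p hp a ha (P | j) hr
    · have h := (hH p).1 hp
      exact sub_nonneg.1 ((Z p h.1 h.2.1).2.2.1 a ((hA p h).1 a ha) P ((S1 P).1 hr))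
    · rw [← sub_nonneg, w2]
      exact Int.natCast_nonneg _
  obtain ⟨a, E, cE, aS, le⟩ := sf l _ _ _ H S A (fun a i => (a i : ℤ)) v o w0 fun ω => by
    obtain ⟨a, h1, h2⟩ := lpi L K c ρ b y T l s d q ε ψ κ Q ξ I H A fin.toFinset
      (fun P => ω (.inl P)) (fun j => if Zr b s T j then ω (.inr j) else 0) st
      (fun p h => ⟨(hH p).1 h, hA p ((hH p).1 h)⟩) (fun P => fin.mem_toFinset.1)
      fun j h => by_contra fun k => h (if_neg k)
    refine ⟨a, h1, ?_⟩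
    simp only [S, Finset.sum_disjSum, w2, Finset.sum_filter]
    simp only [Nat.cast_ite, Nat.cast_zero, ite_mul, zero_mul] at h2
    exact h2
  have ch : ∀ p : Pl L, ∃ a', (Hv b T p → a' = a p) ∧ (p ∈ b.T → p ∉ b.S → Su b s p a' ∧
      (¬ Hv b T p → wd b s p a' Q ≤ 0)) := fun p => by
    by_cases h : Hv b T p
    · exact ⟨_, fun _ => rfl, fun _ _ => ⟨(hA p h).1 _ (aS p ((hH p).2 h)), fun n => (n h).elim⟩⟩
    by_cases k : p ∈ b.T ∧ p ∉ b.S
    · obtain ⟨a₁, z1, z2⟩ := (Z p k.1 k.2).2.1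
      exact ⟨a₁, fun k => (h k).elim, fun _ _ => ⟨z1, fun _ => z2⟩⟩
    · exact ⟨0, fun k => (h k).elim, fun k1 k2 => (k ⟨k1, k2⟩).elim⟩
  choose a' s2 s3 using ch
  let D' := D.disjSum (Finset.univ : Finset (Fin l))
  let F := fun r => H.filter fun p => p ∉ E ∧ r ∈ S ∧ ∑ i, (a p i : ℤ) * v r i - o p r ≠ 0
  have cF : ∀ r ∈ D', (F r).card ≤ 1 := fun r _ => by
    rcases (F r).eq_empty_or_nonempty with e | ⟨p₀, e⟩
    · simp [e]
    have hr := (Finset.mem_filter.1 e).2.2.1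
    have := le r hr (F r) (Finset.filter_subset _ _) fun p h => (Finset.mem_filter.1 h).2.1
    have k := Finset.card_nsmul_le_sum (F r) (fun p => ∑ i, (a p i : ℤ) * v r i - o p r) 1
      fun p h => by
        obtain ⟨u, -, -, w⟩ := Finset.mem_filter.1 h
        have := w0 p u _ (aS p u) r hr
        omega
    simp only [nsmul_eq_mul, mul_one] at k
    omega
  have nJ : ∀ p, Hv b T p → p ∉ (J₁ ∪ E ∪ D'.biUnion F).filter (Hv b T) →
      p ∉ J₁ ∧ p ∉ E ∧ p ∉ D'.biUnion F := fun p h n => by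
    simpa only [Finset.mem_filter, h, and_true, Finset.mem_union, not_or, and_assoc] using n
  have zr : ∀ p, Hv b T p → p ∉ (J₁ ∪ E ∪ D'.biUnion F).filter (Hv b T) → ∀ r ∈ D', r ∈ S →
      ∑ i, (a p i : ℤ) * v r i - o p r = 0 := fun p h n r r1 r2 => by_contra fun w =>
    (nJ p h n).2.2 (Finset.mem_biUnion.2 ⟨r, r1,
      Finset.mem_filter.2 ⟨(hH p).2 h, (nJ p h n).2.1, r2, w⟩⟩)
  have hz : ∀ p, Hv b T p → p ∉ (J₁ ∪ E ∪ D'.biUnion F).filter (Hv b T) → ∀ j, Zr b s T j →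
      a' p j = 0 := fun p h n j z => by
    have := zr p h n (.inr j) (Finset.inr_mem_disjSum.2 (Finset.mem_univ j)) ((S2 j).2 z)
    rw [w2] at this
    rw [s2 p h]
    exact_mod_cast this
  have hc : ∀ p, Hv b T p → p ∉ (J₁ ∪ E ∪ D'.biUnion F).filter (Hv b T) →
      wd b s p (a' p) Q = 0 := fun p h n =>
    (Z p h.1 h.2.1).2.2.2 (hJ p h (nJ p h n).1) _ (hz p h n) fun P u w => by
      rw [s2 p h]
      exact zr p h n (.inl P) (Finset.inl_mem_disjSum.2 (vx.ray P u w)) ((S1 P).2 u)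
  refine ⟨ξ', D, (J₁ ∪ E ∪ D'.biUnion F).filter (Hv b T), a', vx, ?_,
    fun p h => (Finset.mem_filter.1 h).2, fun p u w => (s3 p u w).1, fun p u w k => ?_, hc, hz,
    fun P r H' h => ?_⟩
  · have c1 := Finset.card_biUnion_le_card_mul D' F 1 cF
    have c2 := Finset.card_union_le (J₁ ∪ E) (D'.biUnion F)
    have c3 := Finset.card_union_le J₁ E
    have c4 := Finset.card_filter_le (J₁ ∪ E ∪ D'.biUnion F) (Hv b T)
    have c5 : D'.card = D.card + l := by simp [D']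
    have := vx.card
    omega
  · by_cases h : Hv b T p
    · exact (hc p h k).le
    · exact (s3 p u w).2 h
  · rw [Finset.sum_congr rfl fun p u => by rw [s2 p (h p u).1]]
    exact le (.inl P) ((S1 P).2 r) H' (fun p u => (hH p).2 (h p u).1)
      fun p u => (nJ p (h p u).1 (h p u).2).2.1

end Vale.Agent.P283R.Tk
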