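import Vale.Agent.P283R.Cq.Rees79

/-!
# P283R, block TK: a weighted Rees valuation of a closed point
-/

open Set

noncomputable section

namespace Vale.Agent.P283R.Tk.W16

open Vale.Agent.P287D Vale.Agent.P283M Vale.Agent.P297Z T3

variable {F : Type} [Field F] [Algebra ℂ F] {n N : ℕ} {S : Subalgebra ℂ F} {p : Ideal S}

/-- **WRE** -/
theorem wre (A : Aff (n + 1) S) (hp : p.IsMaximal) (t : Fin N → F)
    (hS : S = Algebra.adjoin ℂ (range t)) (ht : ∀ a : S, (a : F) ∈ range t → a ∈ p)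
    (w : Fin N → ℕ) (w0 : ∀ i, 0 < w i) :
    ∃ (R : Pl F) (e M : ℕ) (σ : Fin (n + 1) → Fin N), 0 < e ∧ 0 < M ∧ Cen S p R ∧
      (∀ i, t i ≠ 0 → (e * w i : ℤ) ≤ M * R.ord (t i)) ∧ Function.Injective σ ∧
      AlgebraicIndependent ℂ (t ∘ σ) ∧ (∀ i, (e * w (σ i) : ℤ) = M * R.ord (t (σ i))) ∧
      1 + kap (t ∘ σ) R = ∑ i, R.ord (t (σ i)) := by
  classical
  obtain ⟨z, z1, z0, R₀, c₀⟩ := H95.plc A hp
  obtain ⟨v, ev⟩ : ∃ v : Finset F, (v : Set F) = range t := ⟨Finset.univ.image t, by simp⟩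
  rw [← ev] at hS ht
  obtain rfl : S = Ad v := hS
  have o : Og v p := ⟨hp, ht⟩
  have tv : ∀ i, t i ∈ v := fun i => ev.ge ⟨i, rfl⟩
  have vS : ∀ i, t i ∈ Ad v := fun i => Algebra.subset_adjoin (tv i)
  choose c hc using fun i => Finset.dvd_prod_of_mem w (Finset.mem_univ i)
  have M0 : 0 < ∏ i, w i := Finset.prod_pos fun i _ => w0 i
  have c0 : ∀ i, 0 < c i := fun i => Nat.pos_of_mul_pos_left (hc i ▸ M0)
  have nz : ∃ i, t i ≠ 0 := by_contra fun nz => z0 (show z ∈ (⊥ : Ideal (Ad v)) from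
    S79.le_of o (fun a k => Subtype.ext (by
      obtain ⟨i, e⟩ := ev.le k
      exact by_contra fun x => nz ⟨i, e ▸ x⟩)) z1)
  obtain ⟨j, hj, mn⟩ := (Finset.univ.filter fun i => t i ≠ 0).exists_min_image
    (fun i => R₀.ord (t i ^ c i)) (let ⟨i, k⟩ := nz; ⟨i, by simpa using k⟩)
  have j0 : t j ≠ 0 := (Finset.mem_filter.1 hj).2
  obtain ⟨f, hf⟩ : ∃ f, f = t j ^ c j := ⟨_, rfl⟩
  have f0 : f ≠ 0 := hf ▸ pow_ne_zero _ j0
  have p₀ : 0 < R₀.ord f := by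
    have := ((Hr.cen_iff c₀ ⟨t j, vS j⟩).1 (ht _ (tv j))).resolve_left j0
    rw [hf, Pl.ord_pow]
    exact mul_pos (Nat.cast_pos.2 (c0 j)) this
  let B := Algebra.adjoin ℂ (range t ∪ range fun i => t i ^ c i / f)
  have tB : ∀ i, t i ∈ B := fun i => Algebra.subset_adjoin (.inl ⟨i, rfl⟩)
  have fB : f ∈ B := hf ▸ pow_mem (tB j) _
  have dB : ∀ i, t i ^ c i / f ∈ B := fun i => Algebra.subset_adjoin (.inr ⟨i, rfl⟩)
  have le : Ad v ≤ B := Algebra.adjoin_le fun a ha => let ⟨i, e⟩ := ev.le ha; e ▸ tB i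
  have B0 : ∀ a ∈ B, a ∈ R₀.ring := fun a ha => Cb.adj_mem (by
    rintro _ (⟨i, rfl⟩ | ⟨i, rfl⟩)
    · exact (c₀ ⟨t i, vS i⟩).1
    · by_cases a0 : t i = 0
      · simp [a0, (c0 i).ne']
      · have := mn i (by simpa using a0)
        exact Cb.mem_ord (by
          beta_reduce
          rw [Pl.ord_div _ (pow_ne_zero _ a0) f0, hf]
          omega)) ha
  have al : Algebra.IsAlgebraic B F := by
    have : IsFractionRing B F := IsFractionRing.of_field B F fun a =>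
      let ⟨s, t, e⟩ := A.fr a
      ⟨⟨s, le s.2⟩, ⟨t, le t.2⟩, e⟩
    exact IsLocalization.isAlgebraic F (nonZeroDivisors B)
  obtain ⟨R, r, pf, ak⟩ := On.div_alg A.ff
    (Subalgebra.fg_def.2 ⟨_, (finite_range _).union (finite_range _), rfl⟩) al fB f0
    fun k => by
      have := Pl.ord_nonneg_of_mem _ (B0 _ k)
      rw [Pl.ord_inv] at this
      omega
  have r' : ∀ s ∈ Ad v, s ∈ R.ring := fun s hs => r s (le hs)
  have ge : ∀ i, t i ≠ 0 → R.ord f ≤ c i * R.ord (t i) := fun i a0 => by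
    have := Pl.ord_nonneg_of_mem _ (r _ (dB i))
    rw [Pl.ord_div _ (pow_ne_zero _ a0) f0, Pl.ord_pow] at this
    omega
  have pt : ∀ i, t i = 0 ∨ 0 < R.ord (t i) := fun i => or_iff_not_imp_left.2 fun a0 =>
    pos_of_mul_pos_right (pf.trans_le (ge i a0)) (Int.natCast_nonneg _)
  obtain ⟨q, hq, cq⟩ := Oner.exists_cen _ R r'
  obtain rfl : p = q := hp.eq_of_le hq.ne_top (S79.le_of o fun a k => (Hr.cen_iff cq a).2
    (let ⟨i, e⟩ := ev.le k; e ▸ pt i))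
  have sub : ∀ a ∈ B, R.rd a ∈ Algebra.adjoin ℂ (range fun i => R.rd (t i ^ c i / f)) :=
    fun a ha => by
      induction ha using Algebra.adjoin_induction with
      | mem x hx =>
        rcases hx with ⟨i, rfl⟩ | ⟨a, rfl⟩
        · rw [(Bm.rd_zero_iff R (r _ (tB i))).2 (pt i)]
          exact zero_mem _
        · exact Algebra.subset_adjoin ⟨a, rfl⟩
      | algebraMap c => rw [Cb.rd_const]; exact Subalgebra.algebraMap_mem _ _
      | add a b ka kb ha hb => rw [Cb.rd_add (r a ka) (r b kb)]; exact add_mem ha hb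
      | mul a b ka kb ha hb => rw [Cb.rd_mul (r a ka) (r b kb)]; exact mul_mem ha hb
  have a2 : Algebra.IsAlgebraic (Algebra.adjoin ℂ (range fun i => R.rd (t i ^ c i / f))) R.κ :=
    ⟨fun x => IntermediateField.isAlgebraic_adjoin_iff.1 (On.alg_mono Subtype.val_injective
      Subtype.val_injective (fun s => ⟨⟨s, IntermediateField.adjoin_le_iff.2 (by
        rintro _ ⟨a, ha, rfl⟩
        exact IntermediateField.algebra_adjoin_le_adjoin _ _ (sub a ha)) s.2⟩, rfl⟩)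
      (ak.isAlgebraic x))⟩
  obtain ⟨b, bs, hb⟩ := exists_isTranscendenceBasis_subset (R := ℂ)
    (range fun i => R.rd (t i ^ c i / f))
  have k := hb.cardinalMk_eq_trdeg
  rw [Cb.trdeg_κ A.ff, ← Cardinal.mk_fin, Cardinal.eq] at k
  obtain ⟨ε⟩ := k
  choose u hu using fun i => bs (ε.symm i).2
  have ind : AlgebraicIndependent ℂ fun i => R.rd (t (u i) ^ c (u i) / f) :=
    funext hu ▸ hb.1.comp _ ε.symm.injective
  have m : ∀ i, t (u i) ^ c (u i) / f ∈ R.ring := fun i => r _ (dB _)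
  have un := fun i => not_or.1 (mt (Bm.rd_zero_iff R (m i)).2 (ind.ne_zero i))
  have u0 : ∀ i, t (u i) ≠ 0 := fun i z => (un i).1 (by rw [z, zero_pow (c0 _).ne', zero_div])
  have u1 : ∀ i, R.ord (t (u i) ^ c (u i) / f) = 0 := fun i =>
    le_antisymm (not_lt.1 (un i).2) (Pl.ord_nonneg_of_mem _ (m i))
  let σ : Fin (n + 1) → Fin N := Fin.cons j u
  have x0 : ∀ i, (t ∘ σ) i ≠ 0 := fun i => Fin.cases j0 u0 i
  obtain ⟨⟨D, hD⟩, -, h3, -⟩ := H.adf0 A.ff R pf.ne' m (Cb.fr_of (Bm.ff_κ A.ff R) ind)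
  have d0 : H.Dlg (t ∘ σ) f := hf ▸ (H.Dlg.self 0 (x0 0)).pow _
  have dl : ∀ i, H.Dlg (t ∘ σ)
      ((Fin.cons f fun i => t (u i) ^ c (u i) / f : Fin (n + 1) → F) i) := fun i =>
    Fin.cases d0 (fun l => ((H.Dlg.self l.succ (x0 _)).pow _).div d0) i
  obtain ⟨xi, h4⟩ := H.kp_log A.ff (Equiv.refl _) x0 dl (H.ind_of_fr hD)
  have h4 := congrFun h4 R
  rw [H.kp_eq A.ff _ (Equiv.refl _), H.kp_eq A.ff _ (Equiv.refl _)] at h4
  have e1 : ((R.ord f).toNat : ℤ) = R.ord f := Int.toNat_of_nonneg pf.le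
  have e2 : ∀ i, R.ord f = c (σ i) * R.ord (t (σ i)) := fun i => Fin.cases
    (by rw [hf, Pl.ord_pow]; rfl) (fun l => by
      have := u1 l
      rw [Pl.ord_div _ (pow_ne_zero _ (u0 l)) f0, Pl.ord_pow] at this
      exact (sub_eq_zero.1 this).symm) i
  refine ⟨R, (R.ord f).toNat, ∏ i, w i, σ, by omega, M0, cq, fun i a0 => ?_,
    xi.injective.of_comp, xi, fun i => ?_, ?_⟩
  · rw [e1, hc i, Nat.cast_mul, mul_assoc, mul_comm]
    exact mul_le_mul_of_nonneg_left (ge i a0) (Int.natCast_nonneg _)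
  · rw [e1, hc (σ i), e2 i]
    push_cast
    ring
  · simp only [dsc, Pi.sub_apply, Pi.add_apply, Finset.sum_apply, dv, Equiv.coe_refl,
      Function.comp_id] at h3 h4
    rw [Fin.sum_univ_succ (fun i => ((R.ord ((Fin.cons f fun i => t (u i) ^ c (u i) / f :
      Fin (n + 1) → F) i) : ℤ) : ℝ))] at h4
    simp only [Fin.cons_zero, Fin.cons_succ, u1, Int.cast_zero, Finset.sum_const_zero,
      Function.comp_apply] at h4
    push_cast
    linarith

/-- the log discrepancy of a weighted Rees valuation -/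
theorem wre_ld (A : Aff (n + 1) S) (nr : IsIntegrallyClosed S) (hp : p.IsMaximal) (t : Fin N → F)
    (hS : S = Algebra.adjoin ℂ (range t)) (ht : ∀ a : S, (a : F) ∈ range t → a ∈ p)
    (w : Fin N → ℕ) (w0 : ∀ i, 0 < w i) {y : Fin (n + 1) → F} (hy : Frm y) {q : ℕ} (hq : 0 < q)
    {h : F} (h0 : h ≠ 0) (bd : ∀ R, PDat S p R → ld y q h R ≤ 1) :
    ∃ (R : Pl F) (e M : ℕ), 0 < e ∧ 0 < M ∧ Cen S p R ∧
      (∀ i, t i ≠ 0 → (e * w i : ℤ) ≤ M * R.ord (t i)) ∧ M * ld y q h R ≤ e * ∑ i, (w i : ℝ) := by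
  classical
  obtain ⟨R, e, M, σ, e0, M0, c, g, inj, xi, k1, k2⟩ := wre A hp t hS ht w w0
  refine ⟨R, e, M, e0, M0, c, g, (mul_le_mul_of_nonneg_left ((Wd.secb45 _ q F S p y _ h hq A nr
    hp.isPrime hy (fun l => hS ▸ Algebra.subset_adjoin ⟨σ l, rfl⟩) xi h0 bd R c).trans k2.le)
    (Nat.cast_nonneg M)).trans ?_⟩
  have a : (M : ℝ) * ((∑ i, R.ord (t (σ i)) : ℤ) : ℝ) = e * ∑ i, (w (σ i) : ℝ) := by
    push_cast
    rw [Finset.mul_sum, Finset.mul_sum]
    exact Finset.sum_congr rfl fun i _ => by exact_mod_cast (k1 i).symm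
  rw [a, ← Finset.sum_image (f := fun i => (w i : ℝ)) (s := Finset.univ) (g := σ) inj.injOn]
  exact mul_le_mul_of_nonneg_left (Finset.sum_le_univ_sum_of_nonneg fun i => Nat.cast_nonneg _)
    (Nat.cast_nonneg e)

end Vale.Agent.P283R.Tk.W16
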