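import Vale.Agent.P283R.Tk.St
import Vale.Agent.P283R.Tk.Wre16

/-!
# P283R, block TK: the row WRE
-/

open Set

noncomputable section

namespace Vale.Agent.P283R.Tk

open Vale.Agent.P287D Vale.Agent.P283M Vale.Agent.P297Z T3

/-- **WRE** -/
theorem wrs16 : WRE := by
  classical
  intro F _ _ n S p A hp
  refine ⟨n + 1, fun ι _ z ω hz => ?_⟩
  obtain ⟨v, ev, hv⟩ := @S79.coo _ _ _ _ _ A p hp
  let ε := Fintype.equivFin (ι ⊕ v)
  let t : ι ⊕ v → F := Sum.elim (fun i => z i) fun a => a
  let w : ι ⊕ v → ℕ := Sum.elim ω fun _ => 0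
  have tS : ∀ i, t i ∈ S := fun i => i.casesOn (fun i => (z i).2) fun a =>
    ev ▸ Algebra.subset_adjoin a.2
  have hS : S = Algebra.adjoin ℂ (range (t ∘ ε.symm)) := le_antisymm
    (ev ▸ Algebra.adjoin_mono fun a ha => ⟨ε (.inr ⟨a, ha⟩), by simp [t]⟩)
    (Algebra.adjoin_le (by rintro _ ⟨i, rfl⟩; exact tS _))
  obtain ⟨R, e, M, σ, e0, M0, c, g, inj, xi, k1, k2⟩ := W16.wre A hp (t ∘ ε.symm) hS
    (by
      rintro a ⟨i, h⟩
      rcases k : ε.symm i with j | j
      · have : z j = a := Subtype.ext (by simpa [t, k] using h)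
        exact this ▸ hz j
      · refine hv a ?_
        have : (j : F) = a := by simpa [t, k] using h
        exact this ▸ j.2)
    (fun i => w (ε.symm i) + 1) fun i => Nat.succ_pos _
  refine ⟨R, M, e, (t ∘ ε.symm) ∘ σ, M0, e0, c, fun i h => ?_, fun i => tS _, xi, ?_⟩
  · have := g (ε (.inl i)) (by simpa [t] using h)
    simp only [Function.comp_apply, Equiv.symm_apply_apply, t, w, Sum.elim_inl] at this
    refine le_trans ?_ this
    push_cast
    nlinarith
  · have a : ∑ i, w (ε.symm (σ i)) ≤ ∑ i, ω i := by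
      rw [← Finset.sum_image (f := w) (s := Finset.univ) (g := fun i => ε.symm (σ i))
        (ε.symm.injective.comp inj).injOn]
      refine (Finset.sum_le_sum_of_subset (Finset.subset_univ _)).trans ?_
      simp [w]
    have b : (M : ℤ) * ∑ i, R.ord ((t ∘ ε.symm) (σ i)) ≤ (n + 1 + ∑ i, ω i : ℕ) * e := by
      rw [Finset.mul_sum, ← Finset.sum_congr rfl fun i _ => k1 i, ← Finset.mul_sum, mul_comm]
      refine mul_le_mul_of_nonneg_right ?_ (Int.natCast_nonneg e)
      norm_cast
      rw [Finset.sum_add_distrib]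
      simp only [Finset.sum_const, Finset.card_univ, Fintype.card_fin, smul_eq_mul, mul_one]
      omega
    rw [k2]
    exact_mod_cast b

end Vale.Agent.P283R.Tk
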