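import Vale.Agent.P283R.Tk.St

/-!
# P283R, block TK: the weight of a section is its mass
-/

open Set

noncomputable section

namespace Vale.Agent.P283R.Tk

open Vale.Agent.P287D Vale.Agent.P283M Cx Cy Cq Vale.Agent.P297Z
open Vale.Agent.P283R.To (mon)

/-- **WX** -/
theorem wx78 : WX := fun L K _ _ _ _ _ _ c ρ b y T n Q ξ o X rp => by
  classical
  obtain ⟨μ, δ, h1, h2⟩ : ∃ (μ : Pl K → ℤ) (δ : Pl K → Fin b.k → ℤ),
      (∀ P p, At P p → μ P = mu P p ∧ δ P = b.D p) ∧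
        ∀ P, Trv (algebraMap L K) P → δ P = 0 :=
    ⟨fun P => if h : ∃ p : Pl L, At P p then mu P h.choose else 0,
      fun P => if h : ∃ p : Pl L, At P p then b.D h.choose else 0, fun P p a => by
        have e : ∃ p : Pl L, At P p := ⟨p, a⟩
        simp only [dif_pos e, e.choose_spec.uniq a, and_self], fun P a => dif_neg a.not_lies⟩
  have pT : ∀ P ∈ T, ∀ p, At P p → p ∈ b.T := fun P a p k => by
    obtain n | ⟨p', n, e⟩ := X.pg P a
    exacts [absurd n k.not_trv, e.uniq k ▸ n]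
  have fA : ∀ p : Pl L, {P | P ∈ T ∧ At P p}.Finite := fun p =>
    (X.fin (algebraMap L K p.t)).subset fun P a => ⟨a.1, a.2.e_pos.ne'⟩
  have fD : ∀ a : Fin b.k → ℤ, {P | P ∈ T ∧ μ P * (a ⬝ᵥ δ P) ≠ 0}.Finite := fun a =>
    (b.S.finite_toSet.biUnion fun p _ => fA p).subset fun P ⟨k, z⟩ => by
      obtain n | ⟨p, n, e⟩ := X.pg P k
      · simp [h2 P n] at z
      · exact mem_biUnion (show p ∈ b.S from by_contra fun j => by
          simp [(h1 P p e).2, o.sup p n j] at z) ⟨k, e⟩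
  have fs : ∀ {η : Pl K → ℝ}, (∀ P, η P ≠ 0 → P ∈ T) → ∀ {F : Pl K → ℤ},
      {P | P ∈ T ∧ F P ≠ 0}.Finite → (Function.support fun P => η P * (F P : ℝ)).Finite :=
    fun h _ hF => hF.subset fun P z => ⟨h P (left_ne_zero_of_mul z),
      Int.cast_ne_zero.1 (right_ne_zero_of_mul z)⟩
  have ξT : ∀ P, ξ P ≠ 0 → P ∈ T := fun P z => (rp.sup P z).1
  have val : ∀ (φ : L) (a : Fin b.k → ℤ), φ ≠ 0 → (Q.ord (algebraMap L K φ) : ℝ) +
      pa a (fun i => ∑ᶠ P, ξ P * (μ P * δ P i : ℤ)) =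
      ∑ᶠ P, ξ P * (P.ord (algebraMap L K φ) + μ P * (a ⬝ᵥ δ P) : ℤ) := fun φ a φ0 => by
    have e := rp.eq φ 0 φ0
    simp only [hm, mon, Pi.zero_apply, zpow_zero, Finset.prod_const_one, mul_one] at e
    simp only [Int.cast_add, mul_add]
    rw [finsum_add_distrib (fs ξT (X.fin _)) (fs ξT (fD a)), e, pa]
    simp only [mul_finsum]
    rw [← finsum_sum_comm _ _ fun i _ => (fs ξT (fD (Pi.single i 1))).subset fun P z => by
      simpa using right_ne_zero_of_mul z]
    refine congrArg _ (finsum_congr fun P => ?_)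
    simp only [dotProduct, Finset.mul_sum]
    push_cast
    simp only [Finset.mul_sum]
    exact Finset.sum_congr rfl fun i _ => by ring
  have vl : ∀ (φ : L) (a : Fin b.k → ℤ) P p, At P p →
      P.ord (algebraMap L K φ) + μ P * (a ⬝ᵥ δ P) = mu P p * (p.ord φ + a ⬝ᵥ b.D p) :=
    fun φ a P p k => by rw [(h1 P p k).1, (h1 P p k).2, k.ord, mul_add, mu]
  refine ⟨fun i => ∑ᶠ P, ξ P * (μ P * δ P i : ℤ), fun φ a φ0 h => ?_⟩
  have tv : ∀ P, Trv (algebraMap L K) P → P.ord (algebraMap L K φ) + μ P * (a ⬝ᵥ δ P) = 0 :=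
    fun P n => by simp [h2 P n, n.ord]
  have nn : ∀ P, 0 ≤ ξ P * (P.ord (algebraMap L K φ) + μ P * (a ⬝ᵥ δ P) : ℤ) := fun P => by
    by_cases z : ξ P = 0
    · simp [z]
    refine mul_nonneg (rp.nn P) (Int.cast_nonneg ?_)
    obtain n | ⟨p, n, e⟩ := X.pg P (ξT P z)
    · exact (tv P n).ge
    · rw [vl φ a P p e]
      exact mul_nonneg e.e_pos.le (h p n)
  have fn : (Function.support fun P =>
      ξ P * (P.ord (algebraMap L K φ) + μ P * (a ⬝ᵥ δ P) : ℤ)).Finite :=
    fs ξT (((X.fin (algebraMap L K φ)).union (fD a)).subset fun P z => by_contra fun k => z.2 (by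
      simp only [mem_union, mem_ofPred, z.1, true_and, not_or, not_not] at k
      rw [k.1, k.2, add_zero]))
  rw [val φ a φ0]
  refine ⟨finsum_nonneg nn, fun e P p z k => ?_, fun e => finsum_eq_zero_of_forall_eq_zero fun P => ?_⟩
  · have := single_le_finsum P fn nn
    rw [e] at this
    have w := (mul_eq_zero.1 (this.antisymm (nn P))).resolve_left z
    rw [vl φ a P p k, Int.cast_eq_zero] at w
    exact (mul_eq_zero.1 w).resolve_left k.e_pos.ne'
  · by_cases z : ξ P = 0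
    · simp [z]
    obtain n | ⟨p, -, k⟩ := X.pg P (ξT P z)
    · rw [tv P n, Int.cast_zero, mul_zero]
    · rw [vl φ a P p k, e P p z k, mul_zero, Int.cast_zero, mul_zero]

end Vale.Agent.P283R.Tk
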