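import Vale.Agent.P283R.Lz.On3g
import Vale.Agent.P283R.Tk.Bxr59
import Vale.Agent.P283R.Tk.Cor52
import Vale.Agent.P283R.Tk.Fir62
import Vale.Agent.P283R.Tk.Hvr28
import Vale.Agent.P283R.Tk.Lpr12
import Vale.Agent.P283R.Tk.On38
import Vale.Agent.P283R.Tk.Orm45
import Vale.Agent.P283R.Tk.Row13
import Vale.Agent.P283R.Tk.Ser18
import Vale.Agent.P283R.Tk.Wgr36
import Vale.Agent.P283R.Tk.Wrs16
import Vale.Agent.P283R.Tk.Wx78
import Vale.Agent.P283R.Tk.Zm40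
import Vale.Agent.P283R.Tz.Sfr24

/-!
# P283R, block TK: the closed statements
-/

namespace Vale.Agent.P283R

/-- the theorem at one place for orbit spaces with few Cox generators besides the boundary -/
theorem Tk.pq : Tk.PQT :=
  Tk.pqr59 (Tk.ser18 Tz.sfr24 Tk.zm40 Tk.vtx13 (Tk.hvr28 Tk.rs59 Tk.wx78 Tk.cor52)
    (Tk.lpr12 (Tk.wgr36 Tk.wrs16) Tk.wx78 Tk.cor52))
    (Tk.fir62 Tk.zm40 Tk.dec13r Tk.orm45 (Tk.bxr59 Tk.rs59))

/-- the theorem on the tier -/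
theorem Tk.wt : Tk.T38.WT := Tk.T38.wt Tk.pq

theorem Tk.on : Tk.ONT := Tk.onr38 Tk.pq

open Sl.Var in
/-- bounded klt complements over a base with few Cox generators besides the boundary -/
theorem Sl.onN_tk (M : ℕ → ℕ) :
    Sl.OnN fun d _ _ f _ _ z => ∃ V, z.In V ∧ Sl.FewQuot (M d) (pre f V) :=
  Sl.onN_tk_of Tk.pq M

namespace Lz

open Sl Sl.Var CategoryTheory AlgebraicGeometry

/-- orbit spaces with few Cox generators besides the boundary -/
theorem on_tg (M : ℕ → ℕ) : OnN fun d _ _ f _ _ z => ∃ V, z.In V ∧ TGen (M d) (pre f V) :=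
  on_tg_of Tk.on M

/-- the classes over an open neighbourhood -/
theorem on_open3g (M : ℕ → ℕ) : OnN fun d X _ f _ _ z => ∃ V, z.In V ∧
    (Sph (pre f V) ∅ ∨ TGen (M d) (pre f V) ∨ IsAffineOpen V ∧ ∃ (S : Var) (π : S.X ⟶ X.X),
      FinQuot π ∧ Sph (pre (π ≫ f) V) {x | x.map (π ≫ f) = z}) :=
  on_open3g_of Tk.on M

end Lz

end Vale.Agent.P283R
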