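import Vale.Agent.P283R.Tk.Brb20
import Vale.Agent.P283R.Tk.On38
import Vale.Agent.P283R.Sf.Spf20
import Vale.Agent.P283R.Tq.Top48
import Vale.Agent.P283R.Sl.Rk20

/-!
# P283R, block TK: the plain word, the scheme side
-/

open Set CategoryTheory AlgebraicGeometry

noncomputable section

namespace Vale.Agent.P283R.Tk.B20

open Vale.Agent.P287D Vale.Agent.P283M Vale.Agent.P297Z Cx Cy Cq
open Vale.Agent.P283M.Br Vale.Agent.P283R.Gl Vale.Agent.P283R.Sg.T20 Vale.Agent.P283R.Tq.T20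
open Vale.Agent.P283R.To (mon)
open Uq (Tz)

section

open Vale.Agent.P289 (Pt)
open Vale.Agent.P283M.Stm Vale.Agent.P283M.Stm.Var

theorem col {X : Var} {L : Type} [Field L] [Algebra L X.K] {r : ℕ} {W W' : X.X.Opens}
    {y : Fin r → X.K} (co : I12.CoL L W y) {γ : L} (rg : ∀ x ∈ W, RegAt (algebraMap L X.K γ) x)
    (le : W' ≤ W) (h : ∀ x ∈ W, x ∈ W' ↔ UnAt (algebraMap L X.K γ) x) : I12.CoL L W' y := by
  refine ⟨co.1, fun x hx => ?_⟩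
  obtain ⟨U, UW, hU, xU, sp⟩ := co.2 x (le hx)
  have m2 := (h x (le hx)).1 hx
  have : Nonempty U := ⟨⟨x, xU⟩⟩
  obtain ⟨b, hb⟩ := Am.reg_iff.1 (Am.mem_reg.2 fun p hp => rg p (UW hp))
  have ub : ∀ p, p ∈ X.X.basicOpen b ↔ p ∈ U ∧ UnAt (algebraMap L X.K γ) p := fun p =>
    ⟨fun a => ⟨X.X.basicOpen_le b a, hb ▸ (Am.un_secK b (X.X.basicOpen_le b a)).2 a⟩,
      fun a => (Am.un_secK b a.1).1 (hb ▸ a.2)⟩
  refine ⟨X.X.basicOpen b, fun p hp => (h p (UW ((ub p).1 hp).1)).2 ((ub p).1 hp).2,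
    hU.basicOpen b, (ub x).2 ⟨xU, m2⟩, fun c hc => ?_⟩
  obtain ⟨N, hN⟩ := Am.ext_sec (W := U) (D := 0) (E := 0) (f := c) Am.fs_zero m2.1
    (fun p hp => (Am.sc_zero (Am.nrm X)).2 (rg p (UW hp))) fun p hp q =>
      (Am.sc_zero (Am.nrm X)).2 (hc p ((ub p).2 ⟨hp, (Am.gn_zero (Am.nrm X)).1 q⟩))
  have k := Submodule.mem_map_of_mem (f := LinearMap.mulRight ℂ ((algebraMap L X.K γ)⁻¹ ^ N))
    (sp (c * algebraMap L X.K γ ^ N) fun p hp =>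
      (Am.sc_zero (Am.nrm X)).1 (by simpa using hN N le_rfl p hp))
  rw [Submodule.map_span, LinearMap.mulRight_apply, mul_assoc, ← mul_pow, mul_inv_cancel₀ m2.1,
    one_pow, mul_one] at k
  refine Submodule.span_mono ?_ k
  rintro _ ⟨_, ⟨a, φ, m, rfl⟩, rfl⟩
  refine ⟨fun p hp => reg_mul (a p ((ub p).1 hp).1) ((lr p).pow_mem ((ub p).1 hp).2.2.2 N),
    φ * γ⁻¹ ^ N, m, ?_⟩
  rw [LinearMap.mulRight_apply, hm, hm, map_mul, map_pow, map_inv₀, mul_right_comm]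

theorem base {X : Var} {l c : ℕ} {T : Set (Pl X.K)} {S : Finset (Pl X.K)} {s : Fin l → X.K}
    (le : T ⊆ range pq) (mb : Ck.Mb c T S s) : ∃ b : Ba X.K c, K0 b s ∧ b.T = T := by
  classical
  have hK := mb.ff
  obtain ⟨y, hy, -⟩ := id hK
  choose z hz using Cb.kap_int y
  obtain ⟨j, j0, ej⟩ := mb.pri z (((Cq.B20.kfin hK hy).image pq).subset fun p ⟨t, a⟩ => by
    obtain ⟨E, rfl⟩ := le t
    refine ⟨E, fun b => a ?_, rfl⟩
    rw [hz] at b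
    exact_mod_cast b)
  choose lam l0 hl using fun p => mb.pri (fun p' => if p' = p then 1 else 0)
    ((finite_singleton p).subset fun p' a => by_contra fun b => a.2 (if_neg b))
  obtain ⟨b, ok, eT, eS, -, -, el, -, sg⟩ := Ck.bld40 X.K c l _ _ s y j
    (fun p => if p ∈ S then 1 else lam p) mb (Cb.fr_of hK hy) j0
    (fun p a b => by rw [hz, ej p a b])
    (fun p => by
      split_ifs
      exacts [one_ne_zero, l0 p])
    (fun p a => if_pos a) fun p _ a p' b b' => by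
      rw [if_neg a, hl p p' b b']
  refine ⟨b, ⟨eS ▸ ok, eT ▸ eS ▸ mb, fun p a => ?_, sg⟩, eT⟩
  rw [el]
  exact if_pos (eS ▸ a)

theorem dat {X Y : Var} {W : X.X.Opens} {x : Pt X.X} (hx : x ∈ W) (φ : Y.K →ₐ[ℂ] X.K) {k l : ℕ}
    (D : Fin k → Y.PrimeDiv →₀ ℤ) (g : Sl.GradedGen (k + l) (Sg.Sec (pls (X := Y) ⊤) (dvs D)))
    (h : ∀ G : Y.PrimeDiv →₀ ℤ, ∃ (m : Fin k → ℤ) (ψ : Y.K), ψ ≠ 0 ∧
      ∀ E, G E = ord ψ E + ∑ i, m i * D i E)
    (pg : ∀ E : X.PrimeDiv, E.1 ∈ W → Trv (φ : Y.K →+* X.K) (pq E) ∨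
      ∃ F : Y.PrimeDiv, Lies (φ : Y.K →+* X.K) (pq E) (pq F)) :
    ∃ (γ : Y.K) (c : ℕ) (b : Ba Y.K c) (s : Fin (2 * (l + 1)) → Y.K), (∀ x ∈ W, RegAt (φ γ) x) ∧
      UnAt (φ γ) x ∧ K0 b s ∧ b.T = Tz (pls ⊤) γ := by
  classical
  obtain ⟨c, hK⟩ := Md.exists_ff Y
  have ft : ∀ G : Pl Y.K → ℤ, {P | P ∈ pls (X := Y) ⊤ ∧ G P ≠ 0}.Finite → ∃ m ψ, ψ ≠ 0 ∧
      ∀ P ∈ pls (X := Y) ⊤, G P = P.ord ψ + m ⬝ᵥ dvs D P := fun G f => by
    obtain ⟨m, ψ, ψ0, e⟩ := h (Finsupp.ofSupportFinite (fun E => G (pq E))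
      ((f.preimage pq_inj.injOn).subset fun E a => ⟨⟨E, trivial, rfl⟩, a⟩))
    refine ⟨m, ψ, ψ0, ?_⟩
    rintro _ ⟨E, -, rfl⟩
    rw [dot, ← pq_ord]
    exact e E
  obtain ⟨σ, a, cx⟩ := Cq.B20.cox (fun ψ m => fn ((fin Y ψ).union
    (finite_iUnion fun i => (D i).support.finite_toSet)) fun E a => by_contra fun b => a (by
      rw [mem_union, not_or, mem_iUnion, not_exists] at b
      rw [dot, ← pq_ord, not_not.1 b.1, zero_add]
      exact Finset.sum_eq_zero fun i _ => by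
        rw [Finsupp.notMem_support_iff.1 (b.2 i), mul_zero])) ft g
  let A : Subalgebra ℂ Y.K :=
    { carrier := Sp σ a 0
      mul_mem' := fun p q => by simpa using sp_mul p q
      add_mem' := add_mem
      algebraMap_mem' := fun z => by
        rw [Algebra.algebraMap_eq_smul_one]
        exact Submodule.smul_mem _ _ (Lx.O15.one_sp σ a) }
  have rg : ∀ u ∈ A, ∀ x ∈ W, RegAt (φ u) x := fun u hu x hx => by
    rcases eq_or_ne u 0 with rfl | u0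
    · exact map_zero φ ▸ (lr x).zero_mem
    refine har X _ x fun E b => ?_
    rw [pq_ord]
    refine Pl.ord_nonneg_of_mem _ ?_
    obtain z | ⟨F, z⟩ := pg E (b.mem_open W.isOpen hx)
    · exact z u
    · exact (z u).1 ((Pl.ord_nonneg_iff _ u0).1
        (by simpa using (cx.sec 0 u u0).1 hu _ ⟨F, trivial, rfl⟩))
  let m : Ideal A :=
    { carrier := {u | φ u.1 ∈ nu x}
      add_mem' := fun {u v} p q => show φ (u.1 + v.1) ∈ nu x from map_add φ _ _ ▸ add_mem p q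
      zero_mem' := show φ 0 ∈ nu x from map_zero φ ▸ zero_mem _
      smul_mem' := fun u v p => show φ (u.1 * v.1) ∈ nu x from
        map_mul φ _ _ ▸ Sf.S20.nu_mul (rg _ u.2 x hx) p }
  have un : ∀ u : A, u ∉ m → UnAt (φ u) x := fun u n =>
    by_contra fun z => n (nu_iff.2 ⟨rg _ u.2 x hx, z⟩)
  obtain ⟨γ, g1, S, s, mb⟩ := loc (m := m) hK cx ft (fun _ => Iff.rfl)
    ⟨fun z => (nu_iff.1 ((Ideal.eq_top_iff_one m).1 z)).2
        (show UnAt (φ 1) x from map_one φ ▸ unAt_one),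
      fun {u v} z => by_contra fun n => (nu_iff.1 z).2 (show UnAt (φ (u.1 * v.1)) x from
        map_mul φ _ _ ▸ (un u fun o => n (.inl o)).mul (un v fun o => n (.inr o)))⟩ le_rfl
  obtain ⟨b, k0, bT⟩ := base (T := Tz (pls ⊤) γ) (fun _ ⟨⟨E, _, e⟩, _⟩ => ⟨E, e⟩) mb
  exact ⟨γ, c, b, s, rg γ g1.1, un _ g1.2, k0, bT⟩

end

open Sl Sl.Var

theorem fam {X Y : Sl.Var} {W : X.X.Opens} {x : Pt X.X} (hx : x.In W) (φ : Y.K →ₐ[ℂ] X.K)
    {r c l : ℕ} {y : Fin r → X.K} (co : letI : Algebra Y.K X.o.K := φ.toRingHom.toAlgebra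
      I12.CoL (X := X.o) Y.K W y) {b : Ba Y.K c} (ok : b.Ok l)
    (pg : ∀ E : X.o.PrimeDiv, E.1 ∈ W → Trv (φ : Y.K →+* X.K) (pq E) ∨
      ∃ p ∈ b.T, Lies (φ : Y.K →+* X.K) (pq E) p) :
    letI : Algebra Y.K X.o.K := φ.toRingHom.toAlgebra
    Fm (K := X.o.K) b y {P | ∃ E : X.o.PrimeDiv, E.1 ∈ W ∧ pq E = P} := by
  let _ : Algebra Y.K X.o.K := φ.toRingHom.toAlgebra
  have : IsScalarTower ℂ Y.K X.o.K := .of_algebraMap_eq fun c => (φ.commutes c).symm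
  obtain ⟨ai, ch⟩ := co
  obtain ⟨r1, r2, r3⟩ := @rat12 X.o Y.K _ _ _ this c r W y x ok.ff hx ai ch
  obtain ⟨k1, k2⟩ := @eqk60 X.o Y.K _ _ _ this c r W y x ok.ff hx ai ch
  refine ⟨r1, r2, ?_, @inv12 X.o Y.K _ _ _ this c r W y x ok.ff hx ai ch,
    @lau12 X.o Y.K _ _ _ this c r W y x ok.ff hx ai ch, k1, fun P a z => ?_,
    @mis29 X.o Y.K _ _ _ this c r W y x ok.ff hx ai ch b l ok, ?_⟩
  · refine ((r3 b.s ok.fr).union (r2 (algebraMap _ _ b.h))).subset fun P a => by_contra fun n => ?_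
    have n1 : lt b.s y P = 1 := by_contra fun z => n (.inl ⟨a.1, z⟩)
    have n2 : P.ord (algebraMap Y.K X.o.K b.h) = 0 := by_contra fun z => n (.inr ⟨a.1, z⟩)
    exact a.2 (show ⌊lt b.s y P⌋ - 1 - P.ord (algebraMap Y.K X.o.K b.h) = 0 by rw [n1, n2]; simp)
  · have := z b.h 0 ok.can.1
    simp only [hm, mon, Pi.zero_apply, zpow_zero, Finset.prod_const_one, mul_one] at this
    simp [cz, k2 b.s ok.fr P a z, this]
  · rintro _ ⟨E, hE, rfl⟩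
    exact pg E hE

/-- the plain word, from the theorem at one place -/
theorem on_of (pq' : PQT) (m : ℕ → ℕ) :
    OnN fun d _ _ f _ _ z => ∃ W, z.In W ∧ RankBase (m d) (pre f W) := by
  intro d hd ε hε R hR
  obtain ⟨n, rfl⟩ : ∃ n, d = n + 1 := ⟨d - 1, by omega⟩
  obtain ⟨M, M1, H⟩ := T38.wt pq' (2 * (m (n + 1) + 1)) n (∏ r ∈ R, r.den) ε
    (Finset.prod_pos fun r _ => r.den_pos) hε
  refine ⟨M, M1, fun X Z f ω B z a b c e s u
    ⟨u1, u2, W, zW, Y, φ, r, k, y, D, ch, pg, g, h⟩ => (has_iff f ω B M z).2 ?_⟩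
  obtain ⟨x, hx⟩ := s.2.2.1.surj z
  obtain ⟨_, -, -, -, ⟨ψ, rfl, ind⟩, -⟩ := ch x (show f x ∈ W from hx ▸ zW)
  let i3 : Algebra Y.o.K X.o.K := ψ.toRingHom.toAlgebra
  have i4 : IsScalarTower ℂ Y.o.K X.o.K := .of_algebraMap_eq fun c => (ψ.commutes c).symm
  obtain ⟨V, v0, hV, zV, co⟩ := @sum_co X.o Y.o Z.o f z W r i3 i4 y s zW
    ⟨algebraicIndependent_iff.2 ind, fun x hx =>
      let ⟨U, a, b, c, e⟩ := ch x hx; ⟨U, a, b, c, e.2⟩⟩
  have xV : x ∈ f ⁻¹ᵁ V := show f x ∈ V from hx ▸ zV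
  have pg' : ∀ E : X.o.PrimeDiv, E.1 ∈ f ⁻¹ᵁ V → Trv (ψ : Y.K →+* X.K) (pq E) ∨
      ∃ F : Y.o.PrimeDiv, Lies (ψ : Y.K →+* X.K) (pq E) (pq F) := fun E hE => by
    have e : ∀ g : X.K, ord g E = (pq (X := X.o) E).ord g := pq_ord (X := X.o) E
    obtain z | ⟨F, μ, z⟩ := pg E (v0 hE)
    · refine .inl fun f => ?_
      by_cases f0 : f = 0
      · simp [f0]
      · exact (Pl.ord_nonneg_iff _ ((map_ne_zero _).2 f0)).1 ((e _).symm.trans (z f)).ge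
    · exact (lies96 _ _ (pq (X := Y.o) F) μ fun c => (e _).symm.trans ((z c).trans
        (congrArg _ (pq_ord (X := Y.o) F c)))).imp_right fun a => ⟨F, a⟩
  have es : (fun m => sections (all Y.X) (comb D m)) =
      Sg.Sec (pls (X := Y.o) ⊤) (dvs (X := Y.o) D) :=
    funext fun m => Set.ext fun φ => (sec (X := Y.o) _ m φ).symm
  obtain ⟨γ, c', bs, σ, rg, un, kk, bT⟩ := dat (X := X.o) (Y := Y.o) xV ψ D (es ▸ g) (fun G =>
    let ⟨m, φ, φ0, e⟩ := h G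
    ⟨m, φ, φ0, fun E => Int.cast_injective (α := ℚ) (e E trivial)⟩) pg'
  obtain ⟨V', hV', le, bw⟩ := Tq.bas48 (X := X.o) (Z := Z.o) s hV xV rg
  have xV' := (bw x xV).2 un
  have zV' : z ∈ V' := by
    rw [← hx]
    exact xV'
  have fm := fam (W := pre f V') (x := x) xV' ψ
    (@col X.o Y.o.K _ i3 r _ _ y co γ rg (fun _ a => le a) bw) kk.ok fun E hE =>
      (pg' E (le hE)).imp_right fun ⟨F, a⟩ => ⟨_, bT ▸ ⟨⟨F, trivial, rfl⟩, by
        have o := (Lx.un_ord (pq_is E).dom un.1).1 ((bw _ (le hE)).1 hE)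
        exact (mul_eq_zero.1 ((a.ord γ).symm.trans o)).resolve_left a.e_pos.ne'⟩, a⟩
  exact H42.sch (X := X.o) (Z := Z.o) M1 (fun v Λ Γ Γ' hK da T co lc nf =>
    @H Y.K X.K _ _ _ _ i3 i4 c' r v Λ Γ Γ' bs y σ kk
      (Nat.cast_injective (fm.ext.ff'.trdeg.symm.trans hK.trdeg)) da
      ((Set.ext T : Cx.Tt n v Λ = {P | ∃ E : X.o.PrimeDiv, E.1 ∈ pre f V' ∧ Gl.pq E = P}) ▸ fm)
      co lc nf) a b ((pair_iff _ _ ω B).1 c) (C3.den e) s
    ((fanoType_iff f ω).1 u1) ((nefOver_iff f _).1 u2) u hV' zV'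

end Vale.Agent.P283R.Tk.B20
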