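import Vale.Agent.P283R.Tk.Bra20
import Vale.Agent.P283R.Cq.Base20
import Vale.Agent.P283R.Ck.Bld40

/-!
# P283R, block TK: few generators give many primes and few functions, the lemma of Nakayama
-/

open Set

noncomputable section

namespace Vale.Agent.P283R.Tk.B20

open Vale.Agent.P287D Vale.Agent.P283M Vale.Agent.P283R.Cx Vale.Agent.P297Z
open Vale.Agent.P283R.Lx (Nz Ie)
open Vale.Agent.P283R.Lx.O15 Vale.Agent.P283R.Tq.S35
open Uq (Tz)

variable {L : Type} [Field L] [Algebra ℂ L] {c k N l : ℕ} {T : Set (Pl L)}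
  {D : Pl L → Fin k → ℤ} {s : Fin N → L} {a : Fin N → Fin k → ℤ} {A : Subalgebra ℂ L} {m : Ideal A}

theorem nz0 {x : L} (h : Nz A m x) : x ≠ 0 := fun e => h.2 (by
  have : (⟨_, h.1⟩ : A) = 0 := Subtype.ext e
  exact this ▸ m.zero_mem)

theorem lam (ff : FF L c) (cx : Cox T D s a) (hz : ∀ x, x ∈ A ↔ x ∈ Sp s a 0) (hm : m ≠ ⊤)
    (Λ : Submodule ℤ (Fin k → ℤ)) (h : ∀ j, a j ∉ Λ → ∃ e e' x y, x ∈ Ie A m s a e ∧
      y ∈ Ie A m s a e' ∧ e + e' = a j ∧ x * y = s j) : Λ = ⊤ := by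
  have k0 : ∀ j, a j ∈ Λ := fun j₀ => by_contra fun n => by
    obtain ⟨F, _, _, _, _, t, ex⟩ := ext L c k ff
    have t0 := ex.ind.ne_zero
    obtain ⟨I, I1, hI⟩ := ideal hz ex.ind hm
    let g : {j // a j ∉ Λ} → Rg s a t := fun j => ⟨_, An.mem_rg t0 (Uq.gen18 s a j)⟩
    have k1 : ∀ e ∉ Λ, ∀ φ ∈ Sp s a e, ∃ z ∈ Ideal.span (range g), (z : F) = Cx.hm t φ e :=
      fun e he φ hφ => by
        induction hφ using Submodule.span_induction with
        | mem x hx =>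
          obtain ⟨w, rfl, rfl⟩ := hx
          obtain ⟨j, j1, j2⟩ : ∃ j, w j ≠ 0 ∧ a j ∉ Λ :=
            by_contra fun z => he (dg_mem _ w fun j b => by_contra fun o => z ⟨j, b, o⟩)
          obtain ⟨y, y1, y2⟩ := split (s := s) (a := a) j1
          refine ⟨g ⟨j, j2⟩ * ⟨_, An.mem_rg t0 y1⟩,
            Ideal.mul_mem_right _ _ (Ideal.subset_span ⟨_, rfl⟩), ?_⟩
          rw [MulMemClass.coe_mul, ← An.hm_mul t0, add_sub_cancel]
          exact congrArg (Cx.hm t · _) y2.symm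
        | zero => exact ⟨0, zero_mem _, by simp [Cx.hm]⟩
        | add x y _ _ hx hy =>
          obtain ⟨z, z1, z2⟩ := hx
          obtain ⟨z', z3, z4⟩ := hy
          exact ⟨z + z', add_mem z1 z3, by simp [z2, z4, Cx.hm, add_mul]⟩
        | smul r x _ hx =>
          obtain ⟨z, z1, z2⟩ := hx
          refine ⟨algebraMap ℂ _ r * z, Ideal.mul_mem_left _ _ z1, ?_⟩
          rw [MulMemClass.coe_mul, z2, Cx.hm, Cx.hm, Algebra.smul_def, map_mul,
            ← IsScalarTower.algebraMap_apply, mul_assoc]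
          rfl
    have k3 : ∀ e e' x y (j : {j // a j ∉ Λ}), e' ∉ Λ → x ∈ Ie A m s a e → y ∈ Ie A m s a e' →
        e + e' = a j → x * y = s j → g j ∈ I • Ideal.span (range g) := fun e e' x y j n x1 y1 p q => by
      obtain ⟨z, z1, z2⟩ := k1 e' n y y1.1
      have : g j = (⟨_, An.mem_rg t0 x1.1⟩ : Rg s a t) • z := Subtype.ext (by
        rw [smul_eq_mul, MulMemClass.coe_mul, z2, ← An.hm_mul t0, p, q])
      exact this ▸ Submodule.smul_mem_smul (hI e x x1 _ rfl) z1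
    obtain ⟨r, r1, r2⟩ := Submodule.exists_sub_one_mem_and_smul_eq_zero_of_fg_of_le_smul I
      (Ideal.span (range g)) (Submodule.fg_span (finite_range g)) (Submodule.span_le.2 (by
        rintro _ ⟨j, rfl⟩
        obtain ⟨e, e', x, y, x1, y1, p, q⟩ := h j.1 j.2
        by_cases z : e' ∈ Λ
        · exact k3 e' e y x j (fun o => j.2 (p ▸ add_mem o z)) y1 x1 (add_comm e e' ▸ p)
            (mul_comm x y ▸ q)
        · exact k3 e e' x y j z x1 y1 p q))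
    rcases mul_eq_zero.1 (r2 _ (Ideal.subset_span ⟨⟨j₀, n⟩, rfl⟩)) with rfl | z
    · exact I1 ((Ideal.eq_top_iff_one _).2 (by simpa using r1))
    · exact hm_ne t0 (cx.ne j₀) _ (congrArg Subtype.val z)
  refine eq_top_iff.2 fun e _ => ?_
  obtain ⟨e', b, hb, c, hc, b0, c0⟩ := cx.fr1 e
  obtain ⟨u, hu⟩ := ex_mon hb b0
  obtain ⟨v, hv⟩ := ex_mon hc c0
  rw [← add_sub_cancel_right e e', ← hu, ← hv]
  exact sub_mem (dg_mem _ u fun j _ => k0 j) (dg_mem _ v fun j _ => k0 j)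

theorem nak (ff : FF L c) (cx : Cox T D s a) (ft : ∀ G : Pl L → ℤ, {p | p ∈ T ∧ G p ≠ 0}.Finite →
      ∃ m ψ, ψ ≠ 0 ∧ ∀ p ∈ T, G p = p.ord ψ + m ⬝ᵥ D p) (hz : ∀ x, x ∈ A ↔ x ∈ Sp s a 0)
    (hm : m.IsPrime) : ∃ γ, Nz A m γ ∧
      Submodule.span ℤ (a '' {j | Gd (Tz T γ) D (s j) (a j)}) = ⊤ := by
  classical
  choose d x x0 hx using fun F => ft (fun p => if p = F then 1 else 0)
    ((finite_singleton F).subset fun p z => by_contra fun b => z.2 (if_neg b))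
  have xs : ∀ F, x F ∈ Sp s a (d F) := fun F => (cx.sec _ _ (x0 F)).2 fun p z => by
    rw [← hx F p z]
    split_ifs <;> simp
  have nn : ∀ j, ∀ p ∈ T, 0 ≤ p.ord (s j) + a j ⬝ᵥ D p := fun j =>
    (cx.sec _ _ (cx.ne j)).1 (Uq.gen18 s a j)
  have fi : {p | p ∈ T ∧ (∃ j, p.ord (s j) + a j ⬝ᵥ D p ≠ 0) ∧ x p ∉ Ie A m s a (d p)}.Finite :=
    (finite_iUnion fun j => cx.fin (s j) (a j)).subset fun p ⟨x, ⟨j, y⟩, _⟩ =>
      mem_iUnion.2 ⟨j, x, y⟩
  choose ψ ψ1 ψ2 using fun p : fi.toFinset => (not_ie (xs p)).1 (fi.mem_toFinset.1 p.2).2.2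
  have nz : ∀ S : Finset fi.toFinset, Nz A m (∏ p ∈ S, x p * ψ p) := fun S =>
    Finset.prod_induction _ _ (fun _ _ => nz_mul hm) (nz_one hm.ne_top) fun p _ => ψ2 p
  refine ⟨_, nz Finset.univ, lam ff cx hz hm.ne_top _ fun j n => ?_⟩
  have ie : ∀ p ∈ Tz T (∏ p : fi.toFinset, x p * ψ p), p.ord (s j) + a j ⬝ᵥ D p ≠ 0 →
      x p ∈ Ie A m s a (d p) := fun p z o => by_contra fun b => by
    let q : fi.toFinset := ⟨p, fi.mem_toFinset.2 ⟨z.1, ⟨j, o⟩, b⟩⟩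
    have e1 := z.2
    have ψ0 := right_ne_zero_of_mul (nz0 (ψ2 q))
    rw [← Finset.mul_prod_erase _ _ (Finset.mem_univ q), Pl.ord_mul _ (nz0 (ψ2 q)) (nz0 (nz _)),
      Pl.ord_mul _ (x0 _) ψ0] at e1
    have e2 := (cx.sec _ _ (nz0 (nz (Finset.univ.erase q)))).1 ((hz _).1 (nz _).1) p z.1
    have e3 := (cx.sec _ _ ψ0).1 (ψ1 q) p z.1
    have e4 := hx p p z.1
    rw [zero_dotProduct] at e2
    rw [neg_dotProduct] at e3
    rw [if_pos rfl] at e4
    change p.ord (x p) + _ + _ = 0 at e1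
    change 0 ≤ _ + -(d p ⬝ᵥ _) at e3
    omega
  have ng : ¬ Gd _ D (s j) (a j) := fun z => n (Submodule.subset_span ⟨j, z, rfl⟩)
  simp only [Gd, not_forall] at ng
  obtain ⟨p, hp, p', hp', o, o', b⟩ := ng
  have x2 := mul_ne_zero (x0 p) (x0 p')
  refine ⟨_, _, _, _, ie p hp o, ie_mul (ie p' hp' o') ((cx.sec (a j - d p - d p')
    (s j / (x p * x p')) (div_ne_zero (cx.ne j) x2)).2 fun q z => ?_), by ring, by
      field_simp [x0 p, x0 p']⟩
  have e1 := hx p q z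
  have e2 := hx p' q z
  have e3 := nn j q z
  rw [Pl.ord_div _ (cx.ne j) x2, Pl.ord_mul _ (x0 p) (x0 p'), sub_dotProduct, sub_dotProduct]
  by_cases y : q = p <;> by_cases y' : q = p'
  · subst y y'
    simp only [true_and, if_true] at b e1
    omega
  · subst y
    rw [if_pos rfl] at e1
    rw [if_neg y'] at e2
    omega
  · subst y'
    rw [if_pos rfl] at e2
    rw [if_neg y] at e1
    omega
  · rw [if_neg y] at e1
    rw [if_neg y'] at e2
    omega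

/-- the base after a localisation -/
theorem loc (ff : FF L c) (cx : Cox T D s a) (ft : ∀ G : Pl L → ℤ, {p | p ∈ T ∧ G p ≠ 0}.Finite →
      ∃ m ψ, ψ ≠ 0 ∧ ∀ p ∈ T, G p = p.ord ψ + m ⬝ᵥ D p) (hz : ∀ x, x ∈ A ↔ x ∈ Sp s a 0)
    (hm : m.IsPrime) (le : N ≤ k + l) : ∃ γ, Nz A m γ ∧
      ∃ (S : Finset (Pl L)) (σ : Fin (2 * (l + 1)) → L), Ck.Mb c (Tz T γ) S σ := by
  classical
  obtain ⟨γ, g, h⟩ := nak ff cx ft hz hm
  refine ⟨γ, g, mb ff (Uq.lcx18 L k N T D s a γ cx ((hz _).1 g.1) (nz0 g)) (fun G f => ?_)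
    (by omega) (eq_top_iff.2 (h.ge.trans (Submodule.span_mono ?_)))⟩
  · obtain ⟨e, ψ, ψ0, z⟩ := ft (fun p => if p.ord γ = 0 then G p else 0)
      (f.subset fun p z => by
        by_cases o : p.ord γ = 0
        · exact ⟨⟨z.1, o⟩, by simpa [o] using z.2⟩
        · exact (z.2 (if_neg o)).elim)
    exact ⟨e, ψ, ψ0, fun p o => (if_pos o.2).symm.trans (z p o.1)⟩
  · rintro _ ⟨j, z, rfl⟩
    exact ⟨j.succ, z, rfl⟩

end Vale.Agent.P283R.Tk.B20
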