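import Vale.Agent.P283R.Tk.All
import Vale.Agent.P283R.Tk.Brb20
import Vale.Agent.P283R.Lz.Ws
import Vale.Agent.P283R.Tq.Top48

/-!
# P283R, block TK: orbit spaces whose Cox ring has at most `k + l` generators
-/

open Set CategoryTheory AlgebraicGeometry

noncomputable section

namespace Vale.Agent.P283R.Pln10

open Vale.Agent.P287D Vale.Agent.P283M Vale.Agent.P297Z Cx Cy Cq
open Vale.Agent.P283R.To (mon)
open Ck (Mb)
open Uq (Tz)
open Tk (K0)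

theorem k0_of {L : Type} [Field L] [Algebra ℂ L] {c l : ℕ} {T : Set (Pl L)} {S : Finset (Pl L)}
    {s : Fin l → L} (mb : Mb c T S s) {y : Fin c → L} (hy : AlgebraicIndependent ℂ y)
    (kf : {p | p ∈ T ∧ kap y p ≠ 0}.Finite) : ∃ b : Ba L c, K0 b s ∧ b.T = T := by
  classical
  choose z hz using Cb.kap_int y
  obtain ⟨j, j0, ej⟩ := mb.pri z (kf.subset fun p a => ⟨a.1, fun b => a.2 (by
    rw [hz] at b
    exact_mod_cast b)⟩)
  choose lam l0 hl using fun p => mb.pri (fun p' => if p' = p then 1 else 0)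
    ((finite_singleton p).subset fun p' a => by_contra fun b => a.2 (if_neg b))
  obtain ⟨b, ok, eT, eS, -, -, el, -, sg⟩ := Ck.bld40 L c l _ _ s y j
    (fun p => if p ∈ S then 1 else lam p) mb (Cb.fr_of mb.ff hy) j0
    (fun p a b => by rw [hz, ej p a b])
    (fun p => by
      split_ifs
      exacts [one_ne_zero, l0 p])
    (fun p a => if_pos a) fun p _ a p' b b' => by
      rw [if_neg a, hl p p' b b']
  refine ⟨b, ⟨eS ▸ ok, eT ▸ eS ▸ mb, fun p a => ?_, sg⟩, eT⟩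
  rw [el]
  exact if_pos (eS ▸ a)

section

open Vale.Agent.P289 (Pt)
open Vale.Agent.P283M.Stm Vale.Agent.P283M.Stm.Var Vale.Agent.P283M.Br
open Vale.Agent.P283R.Gl Vale.Agent.P283R.Sg.T20

theorem un_add {X : Var} {x : Pt X.X} {a b : X.K} (ha : RegAt a x) (hb : RegAt b x)
    (h : UnAt (a + b) x) : UnAt a x ∨ UnAt b x := by
  obtain ⟨a, rfl⟩ := ha
  obtain ⟨b, rfl⟩ := hb
  have e : IsUnit (a + b) := P270L.S.un_toK.1 (by
    rw [map_add]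
    exact h)
  exact (IsLocalRing.isUnit_or_isUnit_of_isUnit_add e).imp P270L.S.un_toK.2 P270L.S.un_toK.2

theorem un_right {X : Var} {x : Pt X.X} {a b : X.K} (ha : RegAt a x) (hb : RegAt b x)
    (h : UnAt (a * b) x) : UnAt b x := by
  have a0 := left_ne_zero_of_mul h.1
  have b0 := right_ne_zero_of_mul h.1
  refine ⟨b0, hb, ?_⟩
  have : b⁻¹ = a * (a * b)⁻¹ := by field_simp
  exact this ▸ reg_mul ha h.2.2

/-- the base after a localisation -/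
theorem base {X Y : Var} {k l : ℕ} (D : Fin k → Y.PrimeDiv →₀ ℤ)
    (g : Sl.GradedGen (k + l) (Sg.Sec (pls (X := Y) ⊤) (dvs D)))
    (h : ∀ F : Y.PrimeDiv, ∃ (m : Fin k → ℤ) (ψ : Y.K), ψ ≠ 0 ∧
      ∀ E, Finsupp.single F (1 : ℤ) E = ord ψ E + ∑ i, m i * D i E)
    (χ : Y.K →+* X.K) (x : Pt X.X)
    (rg : ∀ a, (∀ p ∈ pls (X := Y) ⊤, a ∈ p.ring) → RegAt (χ a) x) :
    ∃ γ, (∀ p ∈ pls (X := Y) ⊤, γ ∈ p.ring) ∧ UnAt (χ γ) x ∧
      ∃ (c : ℕ) (b : Ba Y.K c) (s : Fin (2 * (l + 1)) → Y.K), K0 b s ∧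
        b.T = Tz (pls (X := Y) ⊤) γ := by
  classical
  obtain ⟨c, hK⟩ := Md.exists_ff Y
  obtain ⟨y, hy, -⟩ := id hK
  choose e ψ ψ0 hψ using h
  have ft : ∀ G : Pl Y.K → ℤ, {P | P ∈ pls (X := Y) ⊤ ∧ G P ≠ 0}.Finite → ∃ m ψ, ψ ≠ 0 ∧
      ∀ P ∈ pls (X := Y) ⊤, G P = P.ord ψ + m ⬝ᵥ dvs D P := fun G f => by
    have f' : {E : Y.PrimeDiv | G (pq E) ≠ 0}.Finite :=
      (f.preimage pq_inj.injOn).subset fun E a => ⟨⟨E, trivial, rfl⟩, a⟩
    have key : ∀ S : Finset Y.PrimeDiv, ∃ m φ, φ ≠ 0 ∧ ∀ E,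
        (if E ∈ S then G (pq E) else 0) = (pq E).ord φ + m ⬝ᵥ dvs D (pq E) := fun S => by
      induction S using Finset.induction_on with
      | empty => exact ⟨0, 1, one_ne_zero, fun E => by simp [Pl.ord_one]⟩
      | insert F S n ih =>
        obtain ⟨m, φ, φ0, w⟩ := ih
        refine ⟨m + G (pq F) • e F, φ * ψ F ^ G (pq F), mul_ne_zero φ0 (zpow_ne_zero _ (ψ0 F)),
          fun E => ?_⟩
        have u := hψ F E
        rw [← dot, pq_ord] at u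
        rw [Pl.ord_mul _ φ0 (zpow_ne_zero _ (ψ0 F)), Pl.ord_zpow, add_dotProduct, smul_dotProduct,
          smul_eq_mul, add_add_add_comm, ← w, ← mul_add, ← u]
        by_cases z : E = F
        · subst z
          simp [n]
        · simp [z, Finsupp.single_eq_of_ne z]
    obtain ⟨m, φ, φ0, w⟩ := key f'.toFinset
    refine ⟨m, φ, φ0, ?_⟩
    rintro _ ⟨E, -, rfl⟩
    rw [← w]
    by_cases z : G (pq E) = 0
    · simp [z]
    · exact (if_pos (f'.mem_toFinset.2 z)).symm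
  obtain ⟨σ, a, cx⟩ := Cq.B20.cox (fun φ m => fn ((fin Y φ).union
    (finite_iUnion fun i => (D i).support.finite_toSet)) fun E a => by_contra fun b => a (by
      rw [mem_union, not_or, mem_iUnion, not_exists] at b
      rw [dot, ← pq_ord, not_not.1 b.1, zero_add]
      exact Finset.sum_eq_zero fun i _ => by
        rw [Finsupp.notMem_support_iff.1 (b.2 i), mul_zero])) ft g
  let A : Subalgebra ℂ Y.K :=
    { carrier := {a | ∀ p ∈ pls (X := Y) ⊤, a ∈ p.ring}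
      mul_mem' := fun a b P h => mul_mem (a P h) (b P h)
      add_mem' := fun a b P h => add_mem (a P h) (b P h)
      algebraMap_mem' := fun c P _ => P.con c }
  have hz : ∀ u, u ∈ A ↔ u ∈ Sp σ a 0 := fun u => by
    by_cases u0 : u = 0
    · exact ⟨fun _ => u0 ▸ zero_mem _, fun _ => u0 ▸ zero_mem _⟩
    refine Iff.trans (forall₂_congr fun p _ => ?_) (cx.sec 0 u u0).symm
    rw [zero_dotProduct, add_zero, Pl.ord_nonneg_iff _ u0]
  let m : Ideal A :=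
    { carrier := {u | ¬ UnAt (χ u) x}
      add_mem' := fun {u v} p q r => (un_add (rg _ u.2) (rg _ v.2) (map_add χ _ _ ▸ r)).elim p q
      zero_mem' := fun r => r.1 (map_zero χ)
      smul_mem' := fun u v p r => p (un_right (rg _ u.2) (rg _ v.2) (map_mul χ _ _ ▸ r)) }
  have hm : m.IsPrime := ⟨(Ideal.ne_top_iff_one m).2 fun r => r (by
      change UnAt (χ 1) x
      rw [map_one]
      exact unAt_one), fun {u v} r => by_contra fun n => r (by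
      rw [not_or] at n
      change UnAt (χ (u * v)) x
      rw [map_mul]
      exact (not_not.1 n.1 : UnAt (χ u) x).mul (not_not.1 n.2))⟩
  obtain ⟨γ, ⟨γ1, γ2⟩, S, s, mb⟩ := Tk.B20.loc hK cx ft hz hm le_rfl
  obtain ⟨b, kk, bT⟩ := k0_of mb hy ((fn (W := ⊤) (p := fun P => kap y P ≠ 0) (Cq.B20.kfin hK hy)
    fun E a => a).subset fun p a => ⟨a.1.1, a.2⟩)
  exact ⟨γ, γ1, not_not.1 γ2, c, b, s, kk, bT⟩

end

/-- the family over the smaller open set -/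
theorem fam {L K : Type} [Field L] [Algebra ℂ L] [Field K] [Algebra ℂ K] [Algebra L K] {c ρ : ℕ}
    {b : Ba L c} {y : Fin ρ → K} {T : Set (Pl K)} {T₀ : Set (Pl L)} {γ : L} (γ0 : γ ≠ 0)
    (bT : b.T = Tz T₀ γ) (ext : Ext L c y) (fin : ∀ a : K, {P | P ∈ T ∧ P.ord a ≠ 0}.Finite)
    (fl : {P | P ∈ T ∧ lt b.s y P ≠ 1}.Finite) (inv : ∀ P ∈ T, ¬ Hz L y P → Wd.Gm (K := L) y P)
    (lau : ∀ φ : K, φ ≠ 0 → (∀ P ∈ T, Hz L y P → 0 ≤ P.ord φ) →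
      ∃ ψ : (Fin ρ → ℤ) →₀ L, lv y ψ = φ)
    (eqn : ∀ a : Pl K → ℤ, {P | a P ≠ 0}.Finite →
      ∃ φ : K, φ ≠ 0 ∧ ∀ P ∈ T, Hz L y P → P.ord φ = a P)
    (kt : ∀ P ∈ T, Hz L y P → lt b.s y P = 1) (h0 : b.h ≠ 0)
    (mis : {p | p ∈ b.T ∧ ¬ ∃ P ∈ T, At P p}.Finite)
    (pg : ∀ P ∈ T, Trv (algebraMap L K) P ∨ ∃ p ∈ T₀, At P p) :
    Fm b y (Tz T (algebraMap L K γ)) := by
  have hz : ∀ P, Hz L y P → ∀ φ : L, φ ≠ 0 → P.ord (algebraMap L K φ) = 0 := fun P z φ φ0 => by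
    have := z φ 0 φ0
    simpa only [hm, mon, Pi.zero_apply, zpow_zero, Finset.prod_const_one, mul_one] using this
  refine ⟨ext, fun a => (fin a).subset fun P h => ⟨h.1.1, h.2⟩, ?_, fun P h => inv P h.1,
    fun φ φ0 h => lau φ φ0 fun P a z => h P ⟨a, hz P z γ γ0⟩ z,
    fun a h => (eqn a h).imp fun φ k => ⟨k.1, fun P a => k.2 P a.1⟩, fun P a z => ?_,
    mis.subset fun p h => ⟨h.1, fun ⟨P, a, k⟩ => h.2 ⟨P, ⟨a, ?_⟩, k⟩⟩, fun P a => ?_⟩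
  · refine (fl.union (fin (algebraMap _ _ b.h))).subset fun P a => by_contra fun n => ?_
    have n1 : lt b.s y P = 1 := by_contra fun z => n (.inl ⟨a.1.1, z⟩)
    have n2 : P.ord (algebraMap L K b.h) = 0 := by_contra fun z => n (.inr ⟨a.1.1, z⟩)
    exact a.2 (show ⌊lt b.s y P⌋ - 1 - P.ord (algebraMap L K b.h) = 0 by rw [n1, n2]; simp)
  · simp [cz, kt P a.1 z, hz P z _ h0]
  · rw [k.ord, (bT.subset h.1).2, mul_zero]
  · refine (pg P a.1).imp_right fun ⟨p, u, k⟩ => ⟨p, bT.symm.subset ⟨u, ?_⟩, k⟩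
    have := a.2
    rw [k.ord] at this
    exact (mul_eq_zero.1 this).resolve_left k.e_pos.ne'

open Vale.Agent.P283M.Br Vale.Agent.P283R.Gl Sl Sl.Var Sg.T20 in
theorem on (h : Tk.T38.WT) (m : ℕ → ℕ) : OnN fun d X _ f _ _ z => ∃ V, z.In V ∧
    ∃ (Y : Sl.Var) (φ : Y.K → X.K) (r : ℕ) (y : Fin r → X.K),
      (∀ x : Pt X.X, x.In (pre f V) →
        ∃ U ≤ pre f V, IsAffineOpen U ∧ x.In U ∧ Lz.Graded φ y (regOn U)) ∧
      (∀ E : X.PrimeDiv, E.1.In (pre f V) → (∀ c, ord (φ c) E = 0) ∨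
        ∃ (F : Y.PrimeDiv) (μ : ℤ), ∀ c, ord (φ c) E = μ * ord c F) ∧
      Ly.Cox (m d) (all Y.X) := by
  intro d hd ε hε R hR
  obtain ⟨n, rfl⟩ : ∃ n, d = n + 1 := ⟨d - 1, by omega⟩
  obtain ⟨M, M1, H⟩ := h (2 * (m (n + 1) + 1)) n (∏ r ∈ R, r.den) ε
    (Finset.prod_pos fun r _ => r.den_pos) hε
  refine ⟨M, M1, fun X Z f ω B z a b c e s u
    ⟨u1, u2, W, zW, Y, φ, r, y, ch, pg, k, D, gen, cl⟩ => (has_iff f ω B M z).2 ?_⟩
  obtain ⟨x, hx⟩ := s.2.2.1.surj z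
  obtain ⟨_, -, -, -, ⟨ψ, rfl, ind⟩, -⟩ := ch x (show f x ∈ W from hx ▸ zW)
  let i3 : Algebra Y.o.K X.o.K := ψ.toRingHom.toAlgebra
  have i4 : IsScalarTower ℂ Y.o.K X.o.K := .of_algebraMap_eq fun c => (ψ.commutes c).symm
  obtain ⟨V, v0, hV, zV, ai, co⟩ := @sum_co X.o Y.o Z.o f z W r i3 i4 y s zW
    ⟨algebraicIndependent_iff.2 ind, fun x hx =>
      let ⟨U, a, b, c, e⟩ := ch x hx; ⟨U, a, b, c, e.2⟩⟩
  have xV : f x ∈ V := hx ▸ zV
  have pg' : ∀ P ∈ {P | ∃ E : X.o.PrimeDiv, E.1 ∈ pre f V ∧ pq E = P},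
      Trv (algebraMap Y.o.K X.o.K) P ∨ ∃ p ∈ pls (X := Y.o) ⊤, At P p := by
    rintro _ ⟨E, hE, rfl⟩
    have e : ∀ g : X.K, ord g E = (pq (X := X.o) E).ord g := pq_ord (X := X.o) E
    obtain z | ⟨F, μ, z⟩ := pg E (v0 hE)
    · refine .inl fun f => ?_
      by_cases f0 : f = 0
      · simp [f0]
      · exact (Pl.ord_nonneg_iff _ ((map_ne_zero _).2 f0)).1 ((e _).symm.trans (z f)).ge
    · exact (lies96 _ _ (pq (X := Y.o) F) μ fun c => (e _).symm.trans ((z c).trans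
        (congrArg _ (pq_ord (X := Y.o) F c)))).imp_right fun a => ⟨_, ⟨F, trivial, rfl⟩, a⟩
  have rg : ∀ a : Y.o.K, (∀ p ∈ pls (X := Y.o) ⊤, a ∈ p.ring) → ∀ x' : P289.Pt X.o.X,
      x' ∈ f ⁻¹ᵁ V → Stm.Var.RegAt (V := X.o) (algebraMap Y.o.K X.o.K a) x' :=
    fun a ha x' hx' => har X.o _ x' fun E hE => by
      rw [pq_ord]
      refine Pl.ord_nonneg_of_mem _ ?_
      obtain t | ⟨p, t, l⟩ := pg' _ ⟨E, hE.mem_open (f ⁻¹ᵁ V).isOpen hx', rfl⟩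
      exacts [t a, (l a).1 (ha p t)]
  have es : (fun m => sections (all Y.X) (comb D m)) =
      Sg.Sec (pls (X := Y.o) ⊤) (dvs (X := Y.o) D) :=
    funext fun m => Set.ext fun φ => (sec (X := Y.o) D m φ).symm
  have gen' : GradedGen (k + m (n + 1)) fun m => sections (all Y.X) (comb D m) := gen
  obtain ⟨γ, γ1, γ2, c', bs, σ, kk, bT⟩ := base (X := X.o) (Y := Y.o) D (es ▸ gen') (fun F => by
    obtain ⟨e, g, g0, w⟩ := cl F
    refine ⟨e, g, g0, fun E => Int.cast_injective (α := ℚ) (Eq.trans ?_ (w E trivial))⟩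
    by_cases t : F = E
    · subst t
      exact (congrArg _ Finsupp.single_eq_same).trans
        (Int.cast_one.trans Finsupp.single_eq_same.symm)
    · exact (congrArg _ (Finsupp.single_eq_of_ne' t)).trans
        (Int.cast_zero.trans (Finsupp.single_eq_of_ne' t).symm))
    (algebraMap Y.o.K X.o.K) x fun a ha => rg a ha x xV
  obtain ⟨U, hU, le, bw⟩ := Tq.bas48 (X := X.o) (Z := Z.o) s hV (x₀ := x) xV (rg γ γ1)
  have zU : z ∈ U := hx ▸ (bw x xV).2 γ2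
  obtain ⟨r1, r2, r3⟩ := @rat12 X.o Y.K _ _ _ i4 c' r _ y x kk.ok.ff xV ai co
  obtain ⟨k1, k2⟩ := @eqk60 X.o Y.K _ _ _ i4 c' r _ y x kk.ok.ff xV ai co
  have fm := @fam Y.o.K X.o.K _ _ _ _ i3 c' r bs y _ _ γ ((map_ne_zero _).1 γ2.1) bT r1 r2
    (r3 bs.s kk.ok.fr) (@inv12 X.o Y.K _ _ _ i4 c' r _ y x kk.ok.ff xV ai co)
    (@lau12 X.o Y.K _ _ _ i4 c' r _ y x kk.ok.ff xV ai co) k1 (k2 bs.s kk.ok.fr) kk.ok.can.1
    (@mis29 X.o Y.K _ _ _ i4 c' r _ y x kk.ok.ff xV ai co bs _ kk.ok) pg'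
  exact H42.sch (X := X.o) (Z := Z.o) M1 (fun v Λ Γ Γ' hK da T co lc nf =>
    @H Y.K X.K _ _ _ _ i3 i4 c' r v Λ Γ Γ' bs y σ kk
      (Nat.cast_injective (fm.ext.ff'.trdeg.symm.trans hK.trdeg)) da
      ((Set.ext fun P => (T P).trans ⟨fun ⟨E, i, j⟩ => ⟨⟨E, le i, j⟩,
          j ▸ (Lx.un_ord (pq_is E).dom γ2.1).1 ((bw _ (le i)).1 i)⟩,
        fun ⟨⟨E, i, j⟩, w⟩ => ⟨E, (bw _ i).2 ((Lx.un_ord (pq_is E).dom γ2.1).2 (j ▸ w)), j⟩⟩ :
        Cx.Tt n v Λ = Tz {P | ∃ E : X.o.PrimeDiv, E.1 ∈ pre f V ∧ pq E = P}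
          (algebraMap Y.o.K X.o.K γ)) ▸ fm)
      co lc nf) a b ((pair_iff _ _ ω B).1 c) (C3.den e) s
    ((fanoType_iff f ω).1 u1) ((nefOver_iff f _).1 u2) u hU zU

end Vale.Agent.P283R.Pln10

namespace Vale.Agent.P283R.Lz

open Sl Sl.Var

/-- orbit spaces whose Cox ring has at most `k + l` generators -/
theorem on_plain10 (M : ℕ → ℕ) : OnN fun d X _ f _ _ z => ∃ V, z.In V ∧
    ∃ (Y : Var) (φ : Y.K → X.K) (r : ℕ) (y : Fin r → X.K),
      (∀ x : Pt X.X, x.In (pre f V) →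
        ∃ U ≤ pre f V, IsAffineOpen U ∧ x.In U ∧ Graded φ y (regOn U)) ∧
      (∀ E : X.PrimeDiv, E.1.In (pre f V) → (∀ c, ord (φ c) E = 0) ∨
        ∃ (F : Y.PrimeDiv) (μ : ℤ), ∀ c, ord (φ c) E = μ * ord c F) ∧
      Ly.Cox (M d) (all Y.X) :=
  Pln10.on Tk.wt M

end Vale.Agent.P283R.Lz
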