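import Vale.Agent.P283R.Tk.Tor42
import Vale.Agent.P283R.Ck.Bld40
import Vale.Agent.P283R.Lz.Ws

/-!
# P283R, block TK: few generators besides the boundary give a section ring with few generators
-/

open Set CategoryTheory AlgebraicGeometry

noncomputable section

namespace Vale.Agent.P283R.Sl

open Vale.Agent.P287D Vale.Agent.P283M Cx Cq Vale.Agent.P283R.Gl Var

/-- the section ring of the boundary divisors -/
theorem FewGen.cox {l : ℕ} {Y : Var} (h : FewGen l Y) : Ly.Cox l (all Y.X) := by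
  classical
  obtain ⟨S, s, a, b, c⟩ := h
  obtain ⟨n, B, kk, hT, hS⟩ := Fk.bsk38 Y l S s a b c
  have inj := Pq.S10.pq_inj (X := Y.o)
  let e : Fin S.card → Y.PrimeDiv := fun i => S.equivFin.symm i
  have he : Function.Injective e := Subtype.val_injective.comp S.equivFin.symm.injective
  have hr : ∀ F ∈ S, ∃ i, e i = F := fun F v =>
    ⟨S.equivFin ⟨F, v⟩, congrArg Subtype.val (S.equivFin.symm_apply_apply _)⟩
  have cx := Ck.B40.cox (e := fun i => pq (X := Y.o) (e i)) kk.mb (inj.comp he) fun P =>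
    ⟨fun ⟨i, z⟩ => (hS P).2 ⟨_, (S.equivFin.symm i).2, z⟩, fun z =>
      let ⟨F, v, w⟩ := (hS P).1 z
      let ⟨i, k⟩ := hr F v
      ⟨i, (congrArg (pq (X := Y.o)) k).trans w⟩⟩
  have ed : ∀ (m : Fin S.card → ℤ) (E : Y.PrimeDiv), m ⬝ᵥ Wc.Dr (fun i => pq (X := Y.o) (e i))
      (pq (X := Y.o) E) = ∑ i, m i * Finsupp.single (e i) (1 : ℤ) E := fun m E =>
    Finset.sum_congr rfl fun i _ => congrArg _ (by
      rw [Finsupp.single_apply]
      exact if_congr (inj.eq_iff.trans eq_comm) rfl rfl)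
  refine ⟨S.card, fun i => .single (e i) 1, ?_, fun F => ?_⟩
  · obtain ⟨R, h1, -, -, h4⟩ := Sg.gg27 Y.K S.card B.T (Wc.Dr fun i => pq (X := Y.o) (e i))
    have g := h4 _ _ _ (Subalgebra.ext fun F => (Sf.S27.mem_iff _ _ F).trans (Iff.trans
      (forall_congr' fun m => ⟨fun z φ0 => (cx.sec _ _ φ0).1 z, fun z =>
        (eq_or_ne (F.coeff m) 0).elim (fun o => o ▸ zero_mem _) fun φ0 =>
          (cx.sec _ _ φ0).2 (z φ0)⟩) (h1 F).symm))
    rw [Fintype.card_fin, hT] at g
    refine (congrArg (GradedGen (S.card + l))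
      (funext fun m => Set.ext fun φ => forall_congr' fun _ => ?_)).mp g
    refine forall_mem_range.trans (forall_congr' fun E => ?_)
    have z := congrArg₂ (· + ·) (pq_ord (X := Y.o) E φ).symm (ed m E)
    exact ⟨fun x _ => x.trans_eq z, fun x => (x trivial).trans_eq z.symm⟩
  · obtain ⟨g, g0, k⟩ := a (.single F 1)
    refine ⟨fun i => Finsupp.single F (1 : ℤ) (e i) - ord g (e i), g, g0, fun E _ => ?_⟩
    have z : ord g E + ∑ i, (Finsupp.single F (1 : ℤ) (e i) - ord g (e i)) *
        Finsupp.single (e i) (1 : ℤ) E = Finsupp.single F (1 : ℤ) E := by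
      by_cases v : E ∈ S
      · obtain ⟨i, rfl⟩ := hr E v
        rw [Finset.sum_eq_single i (fun j _ t => by
          rw [Finsupp.single_eq_of_ne (he.ne t.symm), mul_zero]) (by simp)]
        simp
      · rw [k E v, Finset.sum_eq_zero fun i _ => by
          rw [Finsupp.single_eq_of_ne fun x : E = e i => v (x ▸ (S.equivFin.symm i).2), mul_zero],
          add_zero]
    rw [z]
    show Finsupp.single F (1 : ℚ) E = _
    simp only [Finsupp.single_apply]
    split_ifs <;> simp

end Vale.Agent.P283R.Sl
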