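import Vale.Agent.P283R.Tk.On38
import Vale.Agent.P283R.Ck.Old8
import Vale.Agent.P283R.Lz.Wy
import Vale.Agent.P283R.Lz.Wo
import Vale.Agent.P283R.Lz.Wg

/-!
# P283R, block TK: toric varieties have few generators besides the boundary
-/

open Set CategoryTheory AlgebraicGeometry

noncomputable section

namespace Vale.Agent.P283R.Sl

open Vale.Agent.P287D Vale.Agent.P283M Cx Cq Vale.Agent.P283R.Gl Var
open Vale.Agent.P283R.To (mon)

/-- more generators -/
theorem FewGen.mono {l l' : ℕ} {Y : Var} (h : FewGen l Y) (k : l ≤ l') : FewGen l' Y := by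
  obtain ⟨n, rfl⟩ := Nat.exists_eq_add_of_le k
  obtain ⟨S, s, a, b, c⟩ := h
  refine ⟨S, Fin.append s 1, a, fun j => ?_, fun g hg => Submodule.span_mono ?_ (c g hg)⟩
  · refine Fin.addCases (fun j => ?_) (fun j => ?_) j
    · simpa using b j
    · rw [Fin.append_right]
      exact ⟨one_ne_zero, fun F _ => ((pq_ord (X := Y.o) F 1).trans (by simp)).ge⟩
  · rintro _ ⟨⟨w, rfl⟩, e⟩
    exact ⟨⟨Fin.append w 0, by simp [Fin.prod_univ_add]⟩, e⟩

/-- a toric variety -/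
theorem tor_few {Y : Var} {c : ℕ} {s : Fin c → Y.K}
    (h : ∀ x : Pt Y.X, ∃ U, IsAffineOpen U ∧ x.In U ∧ Graded (algebraMap ℂ Y.K) s (regOn U)) :
    FewGen (c + c) Y := by
  classical
  obtain ⟨-, -, -, ⟨ψ, -, ind⟩, -⟩ := h (generic Y.X)
  obtain rfl := Subsingleton.elim (Algebra.ofId ℂ Y.K) ψ
  have ai : AlgebraicIndependent ℂ s := algebraicIndependent_iff.2 ind
  have ff : FF ℂ 0 := ⟨Fin.elim0, algebraicIndependent_empty_type,
    Module.Finite.of_restrictScalars_finite ℂ _ ℂ⟩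
  have r := fun (p : _) (H : Cq.ForS p) => @H Y.o ℂ _ _ _ (.of_algebraMap_eq fun _ => rfl) 0 c ⊤ s
    (generic Y.X) ff trivial ai fun x _ =>
    let ⟨U, a, b, k⟩ := h x
    ⟨U, le_top, a, b, k.2⟩
  have e : ∀ (E : Y.PrimeDiv) (g : Y.K), ord g E = (pq (X := Y.o) E).ord g :=
    fun E => pq_ord (X := Y.o) E
  have s0 := ai.ne_zero
  have eh : ∀ (φ : ℂ) u, hm s φ u = φ • mon s u := fun φ u => (Algebra.smul_def _ _).symm
  have fS : {E : Y.PrimeDiv | ¬ Hz ℂ s (pq (X := Y.o) E)}.Finite := by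
    refine (finite_iUnion fun j => ((r _ rat12).2.1 (s j)).preimage
      (Pq.S10.pq_inj (X := Y.o)).injOn).subset fun E a => by_contra fun n => a fun φ u φ0 => ?_
    refine ((congrArg _ (eh φ u)).trans (Pl.ord_smul (K := Y.K) (pq (X := Y.o) E) φ0 _)).trans
      ((To.ord_mon (K := Y.K) (pq (X := Y.o) E) s0 u).trans (Finset.sum_eq_zero fun j _ => ?_))
    exact mul_eq_zero_of_right _ (by_contra fun z => n (mem_iUnion.2 ⟨j, ⟨E, trivial, rfl⟩, z⟩))
  have nS : ∀ F ∉ fS.toFinset, Hz ℂ s (pq (X := Y.o) F) := fun F v =>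
    by_contra fun n => v (fS.mem_toFinset.2 n)
  refine ⟨fS.toFinset, Fin.append s s⁻¹, fun G => ?_, fun j => ?_, fun g hg => ?_⟩
  · obtain ⟨φ, φ0, k⟩ := (r _ eqk60).1 (G.mapDomain (pq (X := Y.o))) (Finsupp.hasFiniteSupport _)
    exact ⟨φ, φ0, fun F v => by
      exact (e _ _).trans ((k _ ⟨F, trivial, rfl⟩ (nS F v)).trans
        (Finsupp.mapDomain_apply (Pq.S10.pq_inj (X := Y.o)) G F))⟩
  · have z : ∀ j, ∀ F ∉ fS.toFinset, (pq (X := Y.o) F).ord (s j) = 0 := fun j F v => by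
      have := nS F v 1 (Pi.single j 1) one_ne_zero
      rwa [eh, one_smul, To.mon, Finset.prod_eq_single j (fun i _ t => by simp [t]) (by simp),
        Pi.single_eq_same, zpow_one] at this
    refine Fin.addCases (fun j => ?_) (fun j => ?_) j
    · rw [Fin.append_left]
      exact ⟨s0 j, fun F v => ((e _ _).trans (z j F v)).ge⟩
    · rw [Fin.append_right]
      exact ⟨inv_ne_zero (s0 j), fun F v => by simp [e, z j F v]⟩
  · rcases eq_or_ne g 0 with rfl | g0
    · exact zero_mem _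
    obtain ⟨ψ, rfl⟩ := r _ lau12 g g0 (by
      rintro _ ⟨F, -, rfl⟩ z
      exact (e F g) ▸ hg F fun v => fS.mem_toFinset.1 v z)
    refine Submodule.sum_mem _ fun u hu => ?_
    show hm s (ψ u) u ∈ _
    rw [eh]
    refine Submodule.smul_mem _ _ (Submodule.subset_span ⟨⟨Fin.append (fun j => (u j).toNat)
      fun j => (-u j).toNat, ?_⟩, fun F v => ?_⟩)
    · rw [Fin.prod_univ_add, ← Finset.prod_mul_distrib]
      refine Finset.prod_congr rfl fun j _ => ?_
      simp only [Fin.append_left, Fin.append_right, Pi.inv_apply]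
      rw [← zpow_natCast, ← zpow_natCast, inv_zpow', ← zpow_add₀ (s0 j), ← sub_eq_add_neg,
        Int.toNat_sub_toNat_neg]
    · have := r _ inv12 _ ⟨F, trivial, rfl⟩ (fS.mem_toFinset.1 v) ψ u hu
      rw [eh] at this
      exact (e _ _).trans_le ((this.trans_eq (Pl.ord_smul (K := Y.K) (pq (X := Y.o) F)
        (Finsupp.mem_support_iff.1 hu) _)).trans_eq (e _ _).symm)

end Vale.Agent.P283R.Sl

namespace Vale.Agent.P283R.Lz

open Sl Sl.Var

/-- the class of `TTor` is contained in the class of `TGen` -/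
theorem TTor.gen {l d : ℕ} {X : Var} {V : X.X.Opens} (h : TTor l V) {x : Pt X.X} (hx : x.In V)
    (hd : P289.dimension X.str = d) (k : 2 * d ≤ l) : TGen l V := by
  obtain ⟨Y, φ, r, y, a, b, ⟨c, s, t⟩ | ⟨n, D, g, e⟩⟩ := h
  · refine ⟨Y, φ, r, y, a, b, (tor_few t).mono ?_⟩
    obtain ⟨-, -, -, -, ⟨ψ, -, -⟩, -⟩ := a x hx
    obtain ⟨-, -, -, ⟨ψ₀, -, i⟩, -⟩ := t (generic Y.X)
    obtain rfl := Subsingleton.elim (Algebra.ofId ℂ Y.K) ψ₀
    have := ((algebraicIndependent_iff.2 i : AlgebraicIndependent ℂ s).map'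
      (f := ψ) ψ.injective).cardinalMk_le_trdeg.trans_eq (P283M.Br.ffd X.o d hd).trdeg
    rw [Cardinal.mk_fin, Nat.cast_le] at this
    omega
  · exact (Ck.oldBase8 ⟨Y, φ, r, n, y, D, a, b, g, e⟩).few38

theorem TVar.tor {l : ℕ} {X : Var} {V : X.X.Opens} (h : TVar l V) : TTor l V :=
  let ⟨Y, φ, r, y, a, b, c⟩ := h
  ⟨Y, φ, r, y, a, b, c.imp_left fun k => ⟨2, k⟩⟩

end Vale.Agent.P283R.Lz
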