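import Vale.Agent.P283R.Ck.St
import Vale.Agent.P283R.Uq.Lcx18

/-!
# P283R, block TK: few generators give many primes and few functions, the lattice part
-/

open Set

noncomputable section

namespace Vale.Agent.P283R.Tk.B20

open Vale.Agent.P287D Vale.Agent.P283M Vale.Agent.P283R.Cx Vale.Agent.P297Z
open Vale.Agent.P283R.To (mon mon_add mon_ne ord_mon)

variable {L : Type} [Field L] [Algebra ℂ L] {c k N l : ℕ}

theorem sup {a : Fin N → Fin k → ℤ} {G : Set (Fin N)} (h : Submodule.span ℤ (a '' G) = ⊤)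
    (e : Fin k → ℤ) : ∃ v : Fin N → ℤ, (∀ j ∉ G, v j = 0) ∧ ∑ j, v j • a j = e := by
  obtain ⟨v, v1, v2⟩ := (Finsupp.mem_span_image_iff_linearCombination ℤ).1
    (h.ge (Submodule.mem_top (x := e)))
  exact ⟨v, (Finsupp.mem_supported' ℤ v).1 v1, by
    rw [← v2, Finsupp.linearCombination_apply, Finsupp.sum_fintype _ _ (by simp)]⟩

theorem lat {a : Fin N → Fin k → ℤ} {G : Set (Fin N)} (h : Submodule.span ℤ (a '' G) = ⊤)
    (le : N ≤ k + l) : ∃ g : Fin (2 * l) → Fin N → ℤ,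
      (∀ i, (∀ j ∉ G, 0 ≤ g i j) ∧ ∑ j, g i j • a j = 0) ∧ ∀ u : Fin N → ℤ, ∑ j, u j • a j = 0 →
        (∀ j ∉ G, 0 ≤ u j) → u ∈ AddSubmonoid.closure (range g) := by
  classical
  choose v v1 v2 using sup h
  let B := {j // j ∉ G}
  let ψ : (Fin N → ℤ) →ₗ[ℤ] (Fin k → ℤ) × (B → ℤ) :=
    (Fintype.linearCombination ℤ a).prod (LinearMap.funLeft ℤ ℤ Subtype.val)
  let w : B → Fin N → ℤ := fun j => Pi.single j.1 1 - v (a j)
  have ev : ∀ u, ψ u = (∑ j, u j • a j, fun j => u j.1) := fun u => rfl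
  have hw : ∀ j, ψ (w j) = (0, Pi.single j 1) := fun j => by
    rw [map_sub, ev, ev, v2]
    refine Prod.ext (by simp [Pi.single_apply]) (funext fun i => ?_)
    simp only [Prod.snd_sub, Pi.sub_apply, v1 _ _ i.2, Pi.single_apply, sub_zero]
    exact if_congr Subtype.ext_iff.symm rfl rfl
  have hs : ∀ x : B → ℤ, ψ (∑ j, x j • w j) = (0, x) := fun x => by
    simp only [map_sum, map_smul, hw]
    refine Prod.ext (by simp [Prod.fst_sum]) (funext fun i => ?_)
    simp only [Prod.snd_sum, Prod.smul_snd, Finset.sum_apply, Pi.smul_apply, Pi.single_apply,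
      smul_eq_mul, mul_ite, mul_one, mul_zero]
    exact (Finset.sum_ite_eq _ _ _).trans (if_pos (Finset.mem_univ _))
  have sur : LinearMap.range ψ = ⊤ := eq_top_iff.2 fun x _ =>
    ⟨v x.1 + ∑ j, x.2 j • w j, by
      rw [map_add, hs, ev, v2]
      exact Prod.ext (add_zero _) (funext fun i => by simp [v1 _ _ i.2])⟩
  have c2 := (LinearMap.ker ψ).finrank_quotient_add_finrank
  rw [ψ.quotKerEquivRange.finrank_eq, sur, finrank_top] at c2
  simp only [Module.finrank_prod, Module.finrank_fintype_fun_eq_card, Fintype.card_fin] at c2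
  let b := Module.finBasis ℤ (LinearMap.ker ψ)
  let g : B ⊕ Fin _ ⊕ Fin _ → Fin N → ℤ :=
    Sum.elim w (Sum.elim (fun i => (b i).1) fun i => -(b i).1)
  obtain ⟨e⟩ : Nonempty ((B ⊕ Fin (Module.finrank ℤ (LinearMap.ker ψ)) ⊕
      Fin (Module.finrank ℤ (LinearMap.ker ψ))) ↪ Fin (2 * l)) :=
    Function.Embedding.nonempty_of_card_le (by
      simp only [Fintype.card_sum, Fintype.card_fin]
      omega)
  have ok : ∀ u (x : B → ℤ), 0 ≤ x → ψ u = (0, x) →
      (∀ j ∉ G, 0 ≤ u j) ∧ ∑ j, u j • a j = 0 := fun u x x0 z =>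
    ⟨fun j n => (x0 ⟨j, n⟩).trans_eq (congrFun (congrArg Prod.snd z) ⟨j, n⟩).symm,
      congrArg Prod.fst z⟩
  have mm : ∀ i, g i ∈ AddSubmonoid.closure (range (Function.extend e g 0)) := fun i =>
    AddSubmonoid.subset_closure ⟨e i, e.injective.extend_apply _ _ _⟩
  refine ⟨Function.extend e g 0, fun i => ?_, fun u u1 u2 => ?_⟩
  · by_cases z : ∃ x, e x = i
    · obtain ⟨x, rfl⟩ := z
      rw [e.injective.extend_apply]
      rcases x with j | i | i
      · exact ok _ _ (Pi.single_nonneg.2 zero_le_one) (hw j)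
      · exact ok _ 0 le_rfl (b i).2
      · exact ok _ 0 le_rfl (neg_mem (b i).2 : _ ∈ LinearMap.ker ψ)
    · rw [Function.extend_apply' _ _ _ z]
      simp
  · have k : u - ∑ j : B, u j.1 • w j ∈ LinearMap.ker ψ := by
      rw [LinearMap.mem_ker, map_sub, hs, ev, u1, sub_self]
    have r := congrArg Subtype.val (b.sum_repr ⟨_, k⟩)
    rw [← sub_add_cancel u (∑ j : B, u j.1 • w j)]
    refine add_mem ?_ (sum_mem fun j _ => ?_)
    · rw [← show _ = u - ∑ j : B, u j.1 • w j from r, Submodule.coe_sum]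
      refine sum_mem fun i _ => ?_
      obtain ⟨n, z | z⟩ := Int.eq_nat_or_neg (b.repr ⟨_, k⟩ i)
      · rw [z, Submodule.coe_smul, natCast_zsmul]
        exact nsmul_mem (mm (.inr (.inl i))) n
      · rw [z, Submodule.coe_smul, neg_smul, ← smul_neg, natCast_zsmul]
        exact nsmul_mem (mm (.inr (.inr i))) n
    · obtain ⟨n, z⟩ := Int.eq_ofNat_of_zero_le (u2 j.1 j.2)
      rw [z, natCast_zsmul]
      exact nsmul_mem (mm (.inl j)) n

/-- the divisor is empty or a reduced prime -/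
def Gd (T : Set (Pl L)) (D : Pl L → Fin k → ℤ) (φ : L) (e : Fin k → ℤ) : Prop :=
  ∀ p ∈ T, ∀ p' ∈ T, p.ord φ + e ⬝ᵥ D p ≠ 0 → p'.ord φ + e ⬝ᵥ D p' ≠ 0 →
    p = p' ∧ p.ord φ + e ⬝ᵥ D p = 1

theorem om {D : Pl L → Fin k → ℤ} {s : Fin N → L} {a : Fin N → Fin k → ℤ} (s0 : ∀ j, s j ≠ 0)
    (u : Fin N → ℤ) (p : Pl L) : p.ord (mon s u) + (∑ j, u j • a j) ⬝ᵥ D p =
      ∑ j, u j * (p.ord (s j) + a j ⬝ᵥ D p) := by
  rw [ord_mon p s0, sum_dotProduct, ← Finset.sum_add_distrib]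
  exact Finset.sum_congr rfl fun j _ => by rw [smul_dotProduct, smul_eq_mul, mul_add]

theorem mb {T : Set (Pl L)} {D : Pl L → Fin k → ℤ} {s : Fin N → L} {a : Fin N → Fin k → ℤ}
    (ff : FF L c) (cx : Cox T D s a) (ft : ∀ G : Pl L → ℤ, {p | p ∈ T ∧ G p ≠ 0}.Finite →
      ∃ m ψ, ψ ≠ 0 ∧ ∀ p ∈ T, G p = p.ord ψ + m ⬝ᵥ D p) (le : N ≤ k + l)
    (h : Submodule.span ℤ (a '' {j | Gd T D (s j) (a j)}) = ⊤) :
    ∃ (S : Finset (Pl L)) (σ : Fin (2 * l) → L), Ck.Mb c T S σ := by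
  classical
  obtain ⟨g, g1, g2⟩ := lat h le
  have nn : ∀ j, ∀ p ∈ T, 0 ≤ p.ord (s j) + a j ⬝ᵥ D p := fun j =>
    (cx.sec _ _ (cx.ne j)).1 (Uq.gen18 s a j)
  have fi : {p | p ∈ T ∧ ∃ j, Gd T D (s j) (a j) ∧ p.ord (s j) + a j ⬝ᵥ D p ≠ 0}.Finite :=
    (finite_iUnion fun j => cx.fin (s j) (a j)).subset fun p ⟨x, j, _, y⟩ =>
      mem_iUnion.2 ⟨j, x, y⟩
  have off : ∀ p ∈ T, p ∉ fi.toFinset → ∀ j, Gd T D (s j) (a j) →
      p.ord (s j) + a j ⬝ᵥ D p = 0 := fun p x y j z =>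
    by_contra fun n => y (fi.mem_toFinset.2 ⟨x, j, z, n⟩)
  refine ⟨fi.toFinset, fun i => mon s (g i), ff, fun p x => (fi.mem_toFinset.1 x).1,
    fun φ => by simpa using cx.fin φ 0, fun G f => ?_,
    fun i => ⟨mon_ne cx.ne _, fun p x y => ?_⟩, fun φ hφ => ?_⟩
  · obtain ⟨m, ψ, ψ0, e⟩ := ft G f
    obtain ⟨v, v1, rfl⟩ := sup h m
    refine ⟨ψ / mon s v, div_ne_zero ψ0 (mon_ne cx.ne _), fun p x y => ?_⟩
    have := om (D := D) (a := a) cx.ne v p
    rw [Finset.sum_eq_zero (f := fun j => v j * _) fun j _ => by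
      by_cases z : Gd T D (s j) (a j)
      · rw [off p x y j z, mul_zero]
      · rw [v1 j z, zero_mul]] at this
    rw [Pl.ord_div _ ψ0 (mon_ne cx.ne _), e p x]
    omega
  · have := om (D := D) (a := a) cx.ne (g i) p
    rw [(g1 i).2, zero_dotProduct, add_zero] at this
    rw [this]
    refine Finset.sum_nonneg fun j _ => ?_
    by_cases z : Gd T D (s j) (a j)
    · rw [off p x y j z, mul_zero]
    · exact mul_nonneg ((g1 i).1 j z) (nn j p x)
  · rcases eq_or_ne φ 0 with rfl | φ0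
    · exact zero_mem _
    choose hT J J1 J2 using fun p : fi.toFinset => fi.mem_toFinset.1 p.2
    let n : Fin N → ℤ := ∑ p : fi.toFinset, Pi.single (J p) (-p.1.ord φ)
    have n0 : ∀ j, ¬ Gd T D (s j) (a j) → n j = 0 := fun j z => by
      simp only [n, Finset.sum_apply]
      exact Finset.sum_eq_zero fun p _ => Pi.single_eq_of_ne (fun e : j = J p => z (e ▸ J1 p)) _
    have e1 : ∀ q, q.ord (mon s n) + (∑ j, n j • a j) ⬝ᵥ D q =
        ∑ p : fi.toFinset, -p.1.ord φ * (q.ord (s (J p)) + a (J p) ⬝ᵥ D q) := fun q => by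
      rw [om cx.ne]
      simp only [n, Finset.sum_apply, Finset.sum_mul]
      rw [Finset.sum_comm]
      exact Finset.sum_congr rfl fun p _ => by simp [Pi.single_apply]
    have e2 : ∀ q ∈ fi.toFinset, q.ord (mon s n) + (∑ j, n j • a j) ⬝ᵥ D q = -q.ord φ :=
      fun q x => by
        rw [e1, Finset.sum_eq_single ⟨q, x⟩ (fun p _ y => ?_) (by simp),
          (J1 ⟨q, x⟩ q (hT ⟨q, x⟩) q (hT ⟨q, x⟩) (J2 ⟨q, x⟩) (J2 ⟨q, x⟩)).2, mul_one]
        rw [not_not.1 fun z => y (Subtype.ext (J1 p p (hT p) q (hT ⟨q, x⟩) (J2 p) z).1), mul_zero]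
    have m0 := mon_ne cx.ne n
    have k : φ * mon s n ∈ Sp s a (∑ j, n j • a j) :=
      (cx.sec _ _ (mul_ne_zero φ0 m0)).2 fun q x => by
        rw [Pl.ord_mul _ φ0 m0, add_assoc]
        by_cases y : q ∈ fi.toFinset
        · rw [e2 q y, add_neg_cancel]
        · rw [e1, Finset.sum_eq_zero fun p _ => by rw [off q x y _ (J1 p), mul_zero], add_zero]
          exact hφ q x y
    have k' := Submodule.mem_map_of_mem (f := LinearMap.mulRight ℂ (mon s n)⁻¹) k
    rw [Sp, Submodule.map_span, LinearMap.mulRight_apply, mul_inv_cancel_right₀ m0] at k'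
    refine Submodule.span_mono ?_ k'
    rintro _ ⟨_, ⟨w, hw, rfl⟩, rfl⟩
    have hw : ∑ j, (w j : ℤ) • a j = ∑ j, n j • a j := (Tq.S35.dg_eq a w).symm.trans hw
    have e3 : LinearMap.mulRight ℂ (mon s n)⁻¹ (∏ j, s j ^ w j) = 
        mon s ((fun j => (w j : ℤ)) - n) := by
      rw [LinearMap.mulRight_apply, ← To.mon_nat, eq_comm, eq_mul_inv_iff_mul_eq₀ m0,
        ← mon_add cx.ne, sub_add_cancel]
    rw [e3]
    refine ⟨Submonoid.mem_closure_range_iff_of_fintype.1 ?_, fun q x => ?_⟩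
    · have i := g2 ((fun j => (w j : ℤ)) - n)
        (by simp only [Pi.sub_apply, sub_smul, Finset.sum_sub_distrib, hw, sub_self])
        fun j z => by simp [n0 j z]
      generalize (fun j => (w j : ℤ)) - n = u at i
      induction i using AddSubmonoid.closure_induction with
      | mem _ e =>
        obtain ⟨i, rfl⟩ := e
        exact Submonoid.subset_closure ⟨i, rfl⟩
      | zero =>
        rw [mon_zero]
        exact one_mem _
      | add _ _ _ _ x y =>
        rw [mon_add cx.ne]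
        exact mul_mem x y
    · have e4 := e2 q x
      have e5 := om (D := D) (a := a) cx.ne (fun j => w j) q
      have e6 : 0 ≤ ∑ j, (w j : ℤ) * (q.ord (s j) + a j ⬝ᵥ D q) := Finset.sum_nonneg fun j _ =>
        mul_nonneg (Int.natCast_nonneg _) (nn j q (fi.mem_toFinset.1 x).1)
      have e7 : q.ord (mon s ((fun j => (w j : ℤ)) - n) * mon s n) =
          q.ord (mon s ((fun j => (w j : ℤ)) - n)) + q.ord (mon s n) := by
        rw [Pl.ord_mul _ (mon_ne cx.ne _) m0]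
      rw [← mon_add cx.ne, sub_add_cancel] at e7
      rw [hw] at e5
      omega

end Vale.Agent.P283R.Tk.B20
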