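import Vale.Agent.P283R.Cq.Pgr67
import Vale.Agent.P283R.Cq.Cnr68
import Vale.Agent.P283R.Cq.Czr60

/-!
# P283R, block TK: the count with one prime on every page
-/

open Set

noncomputable section

namespace Vale.Agent.P283R.Tk.K68

open Vale.Agent.P287D Vale.Agent.P283M Cx Cy Cq Vale.Agent.P297Z
open Vale.Agent.P283R.To (mon)

variable {L K : Type} [Field L] [Algebra ℂ L] [Field K] [Algebra ℂ K] [Algebra L K]
  [IsScalarTower ℂ L K] {c ρ : ℕ} {b : Ba L c} {y : Fin ρ → K} {T : Set (Pl K)}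

/-- the count: the whole mass of the page `p` is put on the prime `s p` -/
theorem cnt {l d q : ℕ} {ε : ℝ} {ψ : (Fin ρ → ℤ) →₀ L} {κ : Pl K → ℤ} {Q : Pl K} {ζ : Pl K → ℝ}
    (ε0 : 0 < ε) (hq : 0 < q) (pk : Pk l d q ε b y T (lv y ψ) κ) (rp : Rep L y T Q ζ)
    (m : Pl L → ℕ) (m2 : ∀ p, p ∉ b.T → m p = 0) (s : Pl L → Pl K)
    (hs : ∀ p, m p ≠ 0 → s p ∈ T ∧ At (s p) p) (A : ℝ)
    (alt : ((∀ φ : L, φ ≠ 0 → ∑ᶠ p, (m p : ℤ) * p.ord φ = 0) ∧
        0 ≤ A + (∑ p ∈ b.S, m p * (b.e ⬝ᵥ b.D p) : ℤ)) ∨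
      ∃ (R : Pl L) (a : ℕ), 0 < a ∧ (∀ φ : L, φ ≠ 0 → ∑ᶠ p, (m p : ℤ) * p.ord φ = a * R.ord φ) ∧
        a * (1 + kap b.s R - R.ord b.h) ≤ A + (∑ p ∈ b.S, m p * (b.e ⬝ᵥ b.D p) : ℤ))
    (H : Finset (Pl L)) : ∑ p ∈ H, (m p : ℝ) * (1 - 1 / mu (s p) p) ≤ A := by
  classical
  have X := pk.fm
  have o := pk.ok
  obtain ⟨c1, c2, -⟩ := cz60 L K c ρ b.s y X.ext o.fr
  obtain ⟨μ, δ, h1, h2⟩ : ∃ (μ : Pl K → ℤ) (δ : Pl K → Fin b.k → ℤ),
      (∀ P p, At P p → μ P = mu P p ∧ δ P = b.D p) ∧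
        ∀ P, Trv (algebraMap L K) P → δ P = 0 :=
    ⟨fun P => if h : ∃ p : Pl L, At P p then mu P h.choose else 0,
      fun P => if h : ∃ p : Pl L, At P p then b.D h.choose else 0, fun P p a => by
        have e : ∃ p : Pl L, At P p := ⟨p, a⟩
        simp only [dif_pos e, e.choose_spec.uniq a, and_self], fun P a => dif_neg a.not_lies⟩
  have pT : ∀ P ∈ T, ∀ p, At P p → p ∈ b.T := fun P a p k => by
    obtain n | ⟨p', n, e⟩ := X.pg P a
    exacts [absurd n k.not_trv, e.uniq k ▸ n]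
  have fA : ∀ p : Pl L, {P | P ∈ T ∧ At P p}.Finite := fun p =>
    (X.fin (algebraMap L K p.t)).subset fun P a => ⟨a.1, a.2.e_pos.ne'⟩
  have fD : ∀ a : Fin b.k → ℤ, {P | P ∈ T ∧ μ P * (a ⬝ᵥ δ P) ≠ 0}.Finite := fun a =>
    (b.S.finite_toSet.biUnion fun p _ => fA p).subset fun P ⟨k, z⟩ => by
      obtain n | ⟨p, n, e⟩ := X.pg P k
      · simp [h2 P n] at z
      · exact mem_biUnion (show p ∈ b.S from by_contra fun j => by
          simp [(h1 P p e).2, o.sup p n j] at z) ⟨k, e⟩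
  have nz : ∀ P (p : Pl L), At P p → ¬ Hz L y P := fun P p a k => by
    have := k p.t 0 p.t_ne
    simp only [hm, mon, Pi.zero_apply, zpow_zero, Finset.prod_const_one, mul_one] at this
    exact a.e_pos.ne' this
  have fs : ∀ {η : Pl K → ℝ}, (∀ P, η P ≠ 0 → P ∈ T) → ∀ {F : Pl K → ℤ},
      {P | P ∈ T ∧ F P ≠ 0}.Finite → (Function.support fun P => η P * (F P : ℝ)).Finite :=
    fun h _ hF => hF.subset fun P z => ⟨h P (left_ne_zero_of_mul z),
      Int.cast_ne_zero.1 (right_ne_zero_of_mul z)⟩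
  have cz1 : ∀ P p, P ∈ T → At P p → mu P p * (1 + b.e ⬝ᵥ b.D p) - 1 ≤ cz b y P := fun P p a k => by
    have a1 := c2 P p k
    rw [o.can.2 p (pT P a p k), ← c1 P] at a1
    have a2 : mu P p * (1 + (p.ord b.h + b.e ⬝ᵥ b.D p)) ≤ ⌊lt b.s y P⌋ := by exact_mod_cast a1
    rw [cz, k.ord, ← mu]
    linarith
  obtain ⟨θ, θ1, θ2⟩ : ∃ θ : Pl K → ℚ, (∀ p, m p ≠ 0 → θ (s p) = m p / mu (s p) p) ∧
      ∀ P, θ P ≠ 0 → ∃ p, m p ≠ 0 ∧ s p = P :=
    ⟨fun P => if h : ∃ p, m p ≠ 0 ∧ s p = P then m h.choose / mu P h.choose else 0, fun p z => by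
      have e : ∃ p', m p' ≠ 0 ∧ s p' = s p := ⟨p, z, rfl⟩
      have a := (hs _ e.choose_spec.1).2
      rw [e.choose_spec.2] at a
      have : e.choose = p := a.uniq (hs p z).2
      simp only [dif_pos e, this], fun P z => by_contra fun n => z (dif_neg n)⟩
  have mp : ∀ p, m p ≠ 0 → (0 : ℝ) < mu (s p) p := fun p z => Int.cast_pos.2 (hs p z).2.e_pos
  obtain ⟨t, v, t0, hv⟩ := C67.den fun j => ∑ᶠ P, θ P * P.ord (y j)
  obtain ⟨η, hη⟩ : ∃ η : Pl K → ℝ, ∀ P, η P = t * θ P := ⟨_, fun _ => rfl⟩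
  have η4 : ∀ P, η P ≠ 0 → ∃ p, m p ≠ 0 ∧ s p = P := fun P z => θ2 P fun n => z (by simp [hη, n])
  have η5 : ∀ p, m p ≠ 0 → η (s p) = t * (m p / mu (s p) p) := fun p z => by
    rw [hη, θ1 p z]
    push_cast
    rfl
  have η0 : 0 ≤ η := fun P => by
    by_cases z : η P = 0
    · exact z.ge
    obtain ⟨p, k, rfl⟩ := η4 P z
    have := mp p k
    rw [η5 p k]
    positivity
  have η1 : ∀ P, η P ≠ 0 → ∃ p, P ∈ T ∧ At P p := fun P z => by
    obtain ⟨p, k, rfl⟩ := η4 P z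
    exact ⟨p, hs p k⟩
  have η2 : ∀ r, ∑ᶠ P, η P * (if P ∈ T ∧ At P r then μ P else 0 : ℤ) = t * m r := fun r => by
    have w : ∀ P, (m r = 0 ∨ P ≠ s r) → η P * (if P ∈ T ∧ At P r then μ P else 0 : ℤ) = 0 :=
      fun P n => by
        by_cases z : η P = 0
        · simp [z]
        obtain ⟨p, k, rfl⟩ := η4 P z
        rw [if_neg, Int.cast_zero, mul_zero]
        intro a
        obtain rfl := a.2.uniq (hs p k).2
        exact n.elim k fun j => j rfl
    by_cases z : m r = 0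
    · rw [finsum_eq_zero_of_forall_eq_zero fun P => w P (.inl z), z, Nat.cast_zero, mul_zero]
    · rw [finsum_eq_single _ (s r) fun P n => w P (.inr n), if_pos (hs r z), η5 r z,
        (h1 _ _ (hs r z).2).1, mul_assoc, div_mul_cancel₀ _ (mp r z).ne']
  have η3 : ∀ j, ∑ᶠ P, η P * P.ord (y j) = v j := fun j => by
    have a := congrArg (Rat.castHom ℝ) (hv j)
    have b := (Rat.castHom ℝ).toAddMonoidHom.map_finsum_of_injective Rat.cast_injective
      fun P => θ P * P.ord (y j)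
    simp only [hη, mul_assoc (t : ℝ)]
    rw [← mul_finsum]
    simp only [RingHom.toAddMonoidHom_eq_coe, AddMonoidHom.coe_coe, map_mul, map_natCast,
      map_intCast] at a b
    rw [← a, b]
    rfl
  have ηT : ∀ P, η P ≠ 0 → P ∈ T := fun P z => (η1 P z).elim fun _ a => a.1
  have pu := P67.push (A := fun P (p : Pl L) => P ∈ T ∧ At P p) (fun _ _ _ a k => a.2.uniq k.2) fA
    (fun P p a => pT P a.1 p a.2) (μ := μ) (t := t) m2 η1 fun r => by
      rw [← η2 r]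
      exact finsum_congr fun P => by
        by_cases a : P ∈ T ∧ At P r <;> simp only [a, if_true, if_false, and_self]
  have p1 : ∀ φ : L, ∑ᶠ P, η P * P.ord (algebraMap L K φ) =
      t * (∑ᶠ p, m p * p.ord φ : ℤ) := fun φ =>
    pu (fun p => p.ord φ) (by simpa using o.cox.fin φ 0) _ fun P p a => by
      rw [a.2.ord, (h1 P p a.2).1, mu]
  have p2 := pu (fun p => b.e ⬝ᵥ b.D p) (b.S.finite_toSet.subset fun p ⟨a, z⟩ =>
    by_contra fun n => z (by simp [o.sup p a n])) (fun P => μ P * (b.e ⬝ᵥ δ P))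
    fun P p a => by rw [(h1 P p a.2).2]
  rw [finsum_eq_sum_of_support_subset (fun p => (m p : ℤ) * (b.e ⬝ᵥ b.D p)) (s := b.S)
    fun p z => by_contra fun n => by
      by_cases a : p ∈ b.T
      · simp [o.sup p a n] at z
      · simp [m2 p a] at z] at p2
  obtain ⟨u, hu, k⟩ := cnr68 cz60 L K c ρ b y T l d q ε ψ κ Q ζ η v
    (t * (A + (∑ p ∈ b.S, m p * (b.e ⬝ᵥ b.D p) : ℤ))) ε0 pk rp η0
    (fun P z => (η1 P z).elim fun p a => ⟨a.1, nz P p a.2⟩) η3
    (alt.imp (fun a => ⟨fun φ φ0 => by simp [p1, a.1 φ φ0], mul_nonneg (Nat.cast_nonneg t) a.2⟩)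
      fun ⟨R, a, a0, a1, a2⟩ => ⟨R, t * a, mul_pos t0 a0, fun φ φ0 => by
        rw [p1, a1 φ φ0]
        push_cast
        ring, by
        rw [Nat.cast_mul, mul_assoc]
        exact mul_le_mul_of_nonneg_left a2 (Nat.cast_nonneg t)⟩)
  obtain ⟨Z, hZ⟩ : ∃ Z : Pl K → ℤ, ∀ P, Z P =
      P.ord (hm y (ψ u) u) + κ P - q * (μ P * (b.e ⬝ᵥ δ P)) := ⟨_, fun _ => rfl⟩
  have Z0 : ∀ P p, P ∈ T → At P p → q * (mu P p - 1) ≤ Z P := fun P p a j => by
    have := mul_le_mul_of_nonneg_left (cz1 P p a j) (Int.natCast_nonneg q)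
    rw [hZ, (h1 P p j).1, (h1 P p j).2]
    linarith [X.inv P a (nz P p j) ψ u (Finsupp.mem_support_iff.2 hu), pk.eff P a]
  have s1 := fs ηT (X.fin (hm y (ψ u) u))
  have s2 := fs ηT pk.fin
  have s3 := fs ηT (fD b.e)
  have e1 : ∀ P, η P * Z P = η P * P.ord (hm y (ψ u) u) + η P * κ P -
      q * (η P * (μ P * (b.e ⬝ᵥ δ P) : ℤ)) := fun P => by
    rw [hZ]
    push_cast
    ring
  have e2 : ∑ᶠ P, η P * Z P ≤ q * t * A := by
    simp only [e1]
    rw [finsum_sub_distrib ((s1.union s2).subset (Function.support_add _ _))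
      (s3.subset fun P z => right_ne_zero_of_mul z), finsum_add_distrib s1 s2, ← mul_finsum, p2]
    linarith
  have e3 := C67.le_fs (f := fun P => η P * Z P) (((s1.union s2).union s3).subset fun P z => by
      by_contra n
      simp only [mem_union, Function.mem_support, not_or, not_not] at n
      exact z ((e1 P).trans (by rw [n.1.1, n.1.2, n.2, mul_zero, add_zero, sub_zero])))
    (fun P => by
      by_cases z : η P = 0
      · simp [z]
      obtain ⟨p, a, j⟩ := η1 P z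
      exact mul_nonneg (η0 P) (Int.cast_nonneg_iff.2 ((mul_nonneg (Int.natCast_nonneg q)
        (sub_nonneg.2 j.e_pos)).trans (Z0 P p a j)))) ((H.filter fun p => m p ≠ 0).image s)
  rw [Finset.sum_image fun p i p' i' (j : s p = s p') => (hs p (Finset.mem_filter.1 i).2).2.uniq
    (by rw [j]; exact (hs p' (Finset.mem_filter.1 i').2).2)] at e3
  have t1 : (0 : ℝ) < q * t := mul_pos (Nat.cast_pos.2 hq) (Nat.cast_pos.2 t0)
  refine le_of_mul_le_mul_left (le_trans ?_ (e3.trans e2)) t1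
  rw [← Finset.sum_filter_of_ne (p := fun p => m p ≠ 0) fun p _ z =>
    Nat.cast_ne_zero.1 (left_ne_zero_of_mul z), Finset.mul_sum]
  refine Finset.sum_le_sum fun p i => ?_
  have z := (Finset.mem_filter.1 i).2
  have a1 : ((q * (mu (s p) p - 1) : ℤ) : ℝ) ≤ Z (s p) := Int.cast_le.2 (Z0 _ p (hs p z).1 (hs p z).2)
  refine le_trans (le_of_eq ?_) (mul_le_mul_of_nonneg_left a1 (η0 _))
  have := (mp p z).ne'
  rw [η5 p z]
  push_cast
  field_simp

end Vale.Agent.P283R.Tk.K68
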