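import Vale.Agent.P283R.Tk.St
import Vale.Agent.P283R.Tk.Cnt68

/-!
# P283R, block TK: the row COR
-/

noncomputable section

namespace Vale.Agent.P283R.Tk

/-- **COR** -/
theorem cor68 : COR := fun _ _ _ _ _ _ _ _ _ _ _ _ _ _ _ _ _ _ _ _ _ m B r H ε0 hq pk rp h ms =>
  K68.cnt ε0 hq pk rp m (fun p n => by_contra fun z => n (h p z).1) r (fun p z => (h p z).2) B
    (ms.imp (fun a => ⟨a.1, by exact_mod_cast a.2⟩) fun ⟨R, a, a0, a1, a2⟩ =>
      ⟨R, a, a0, a1, by simpa only [Int.cast_add] using a2⟩) H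

end Vale.Agent.P283R.Tk
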