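import Vale.Agent.P283R.Lz.Wtf
import Vale.Agent.P283R.Lz.On3y
import Vale.Agent.P283R.Tk.All
import Vale.Agent.P283R.Ck.Old8

/-!
# P283R: orbit spaces which are toric or have few Cox generators besides the boundary
-/

open CategoryTheory AlgebraicGeometry

namespace Vale.Agent.P283R.Lz

open Sl Sl.Var

/-- orbit spaces which are toric or have few Cox generators besides the boundary -/
theorem on_tf (M : ℕ → ℕ) : OnN fun d _ _ f _ _ z => ∃ V, z.In V ∧ TFew (M d) (pre f V) :=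
  ((on_ty M).or (on_tg M)).mono fun _ _ _ _ _ _ _ ⟨V, i, Y, φ, r, y, a, b, q⟩ =>
    q.imp (fun k => ⟨V, i, Y, φ, r, y, a, b, .inl k⟩) fun k => ⟨V, i, Y, φ, r, y, a, b, k⟩

/-- the word `TGen` is contained -/
theorem TGen.few {l : ℕ} {X : Var} {V : X.X.Opens} (h : TGen l V) : TFew l V :=
  let ⟨Y, φ, r, y, a, b, q⟩ := h
  ⟨Y, φ, r, y, a, b, .inr q⟩

/-- the word `TTor` is contained -/
theorem TTor.few {l : ℕ} {X : Var} {V : X.X.Opens} (h : TTor l V) : TFew l V :=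
  let ⟨Y, φ, r, y, a, b, q⟩ := h
  ⟨Y, φ, r, y, a, b, q.imp_right fun ⟨k, D, g, h⟩ =>
    let ⟨S, s, _, p1, p2, p3, _⟩ := Ck.planar8 Y l k D g h
    ⟨S, s, p1, p2, p3⟩⟩

end Vale.Agent.P283R.Lz
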