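import Vale.Agent.P283R.Tk.St
import Vale.Agent.P283R.Ty.Hr53

/-!
# P283R, block TK: the row `FIR`
-/

open Set

noncomputable section

namespace Vale.Agent.P283R.Tk

open Vale.Agent.P287D Vale.Agent.P283M Vale.Agent.P297Z Cx Cy Cq Ck

open Classical in
/-- **FIR** -/
theorem fir53 : FIR := fun zm dec orm box C l d q ε hq hε => by
  obtain ⟨m, m2, H⟩ := box (2 ^ (d + l + 1 + C)) l d q ε hq hε
  refine ⟨2 * m, by omega, fun L K _ _ _ _ _ _ c ρ b y T s ψ κ Q ξ ξ' I D J a st vx cJ se => ?_⟩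
  obtain ⟨n₀, pk⟩ := st.pk
  have fm := pk.fm
  have dim := pk.dim
  have g0 := pk.g0
  obtain ⟨fR, ⟨f, ef⟩, -⟩ := car13 L K c ρ b y T b.S fm
  let N := I.filter fun p => p ∉ b.S ∧ ∃ P ∈ T, At P p
  have hN : Np b T I N := fun p => Finset.mem_filter
  have NT : ∀ p ∈ N, p ∈ b.T := fun p e => by
    obtain ⟨-, -, P, hP, k⟩ := (hN p).1 e
    obtain x | ⟨p', x, k'⟩ := fm.pg P hP
    exacts [absurd x k.not_trv, k'.uniq k ▸ x]
  have JN : J ⊆ N := fun p e => by
    obtain ⟨-, n, P, x, e, k⟩ := se.hJ p e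
    refine (hN p).2 ⟨by_contra fun z => ?_, n, P, x, e⟩
    have := (st.od.od.od P x p z e).1
    omega
  have fP : ∀ p : Pl L, {P | P ∈ T ∧ At P p}.Finite := fun p =>
    (fm.fin (algebraMap L K p.t)).subset fun P x => ⟨x.1, x.2.e_pos.ne'⟩
  have oM := fun v u i n => orm L K c ρ b y T l s d q ε ψ κ Q ξ I a N f v u i n st hN ef
  let Ln : Pl K → Fin ρ ⊕ Fin l ⊕ Unit ⊕ J → ℤ := fun P => Sum.elim (fun j => P.ord (y j))
    (Sum.elim (fun j => P.ord (algebraMap L K (s j)))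
      (Sum.elim (fun _ => P.ord (algebraMap L K f)) fun p => -wd b s p (a p) P))
  let xx : (Fin ρ → ℤ) → (Fin l → ℤ) → ℤ → (Pl L → ℤ) → Fin ρ ⊕ Fin l ⊕ Unit ⊕ J → ℤ :=
    fun v u i n => Sum.elim v (Sum.elim u (Sum.elim (fun _ => i) fun p => n p))
  let LJ : J × Pl K → Fin ρ ⊕ Fin l ⊕ Unit ⊕ J → ℤ := fun z => Sum.elim (fun j => z.2.ord (y j))
    (Sum.elim 0 (Sum.elim 0 (Pi.single z.1 (mu z.2 z.1.1))))
  let LZ : Fin l → Fin ρ ⊕ Fin l ⊕ Unit ⊕ J → ℤ := fun j => Sum.elim 0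
    (Sum.elim (Pi.single j 1) (Sum.elim 0 fun p => -(a p j : ℤ)))
  have om : ∀ v u i (n : Pl L → ℤ) (P : Pl K), P.ord (mo b s y f a N v u i n) =
      xx v u i n ⬝ᵥ Ln P - ∑ p ∈ N \ J, n p * wd b s p (a p) P := fun v u i n P => by
    rw [(oM v u i n).2.1, ← Finset.sum_sdiff JN, ← Finset.sum_coe_sort J]
    simp only [xx, Ln, dotProduct, Fintype.sum_sum_type, Sum.elim_inl, Sum.elim_inr, mul_neg,
      Finset.sum_neg_distrib, Finset.univ_unique, Finset.sum_singleton]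
    ring
  have oJ : ∀ v u i (n : Pl L → ℤ) (z : J × Pl K), xx v u i n ⬝ᵥ LJ z =
      mu z.2 z.1.1 * n z.1 + ∑ j, v j * z.2.ord (y j) := fun v u i n z => by
    simp only [xx, LJ, sumElim_dotProduct_sumElim, dotProduct_zero, dotProduct_single, zero_add]
    rw [dotProduct, add_comm, mul_comm]
  have oZ : ∀ v u i (n : Pl L → ℤ) j, xx v u i n ⬝ᵥ LZ j =
      u j - ∑ p ∈ N, n p * a p j + ∑ p ∈ N \ J, n p * a p j := fun v u i n j => by
    simp only [xx, LZ, sumElim_dotProduct_sumElim, dotProduct_zero, dotProduct_single, zero_add]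
    rw [← Finset.sum_sdiff JN, ← Finset.sum_coe_sort J]
    simp only [dotProduct, mul_neg, Finset.sum_neg_distrib]
    ring
  have dY : ∀ v u i (n : Pl L → ℤ) (P : Pl K), xx v u i n ⬝ᵥ Sum.elim (fun j => P.ord (y j)) 0 =
      ∑ j, v j * P.ord (y j) := fun v u i n P => by
    simp [xx, dotProduct, Fintype.sum_sum_type]
  let SJ : Finset (J × Pl K) := Finset.univ.biUnion fun p : J => (fP p).toFinset.image (p, ·)
  have hSJ : ∀ z, z ∈ SJ ↔ z.2 ∈ T ∧ At z.2 z.1.1 := fun ⟨p, P⟩ => by simp [SJ]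
  let Om := Finset.insertNone (fR.toFinset.disjSum (SJ.disjSum (Finset.univ.filter (Zr b s T))))
  let W : Pl L → Option (Pl K ⊕ J × Pl K ⊕ Fin l) → ℕ := fun p o =>
    o.elim (-wd b s p (a p) Q).toNat (Sum.elim (fun P => (wd b s p (a p) P).toNat)
      (Sum.elim 0 (a p)))
  have w1 : ∀ P ∈ Kt y T b.S, ∀ p ∈ N \ J, (W p (some (.inl P)) : ℤ) = wd b s p (a p) P :=
    fun P x p e =>
      have e' := (Finset.mem_sdiff.1 e).1
      Int.toNat_of_nonneg ((zm L K c ρ b y T l s Q ξ p (NT p e') ((hN p).1 e').2.1 st.k0 fm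
        st.rep).2.2.1 _ (se.su p (NT p e') ((hN p).1 e').2.1) P x)
  have w2 : ∀ p ∈ N \ J, (W p none : ℤ) = -wd b s p (a p) Q := fun p e =>
    have e' := Finset.mem_sdiff.1 e
    Int.toNat_of_nonneg (neg_nonneg.2 (se.c0 p (NT p e'.1) ((hN p).1 e'.1).2.1 e'.2))
  have s1 : ∀ (n : Pl L → ℤ), ∀ P ∈ Kt y T b.S, ∑ p ∈ N \ J, n p * W p (some (.inl P)) =
      ∑ p ∈ N \ J, n p * wd b s p (a p) P := fun n P x =>
    Finset.sum_congr rfl fun p e => by rw [w1 P x p e]
  have s2 : ∀ (n : Pl L → ℤ), ∑ p ∈ N \ J, n p * W p none =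
      -∑ p ∈ N \ J, n p * wd b s p (a p) Q := fun n => by
    rw [← Finset.sum_neg_distrib]
    exact Finset.sum_congr rfl fun p e => by rw [w2 p e, mul_neg]
  have m1 : ∀ P, some (.inl P) ∈ Om ↔ P ∈ Kt y T b.S := fun P => by simp [Om]
  have m3 : ∀ z, some (.inr (.inl z)) ∈ Om ↔ z.2 ∈ T ∧ At z.2 z.1.1 := fun z => by
    simp only [Om, Finset.some_mem_insertNone, Finset.inr_mem_disjSum, Finset.inl_mem_disjSum, hSJ]
  have m4 : ∀ j, some (.inr (.inr j)) ∈ Om ↔ Zr b s T j := fun j => by simp [Om]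
  let Pi : Pl L → Finset (Pl L × Pl K) := fun p => (fP p).toFinset.image fun P => (p, P)
  have hPi : ∀ p, ∀ z ∈ Pi p, ∃ P, (P ∈ T ∧ At P p) ∧ (p, P) = z := fun p z x => by
    simpa [Pi] using x
  have hP' : ∀ p, ∀ P ∈ T, At P p → (p, P) ∈ Pi p := fun p P x e =>
    Finset.mem_image_of_mem _ ((fP p).mem_toFinset.2 ⟨x, e⟩)
  have mp : ∀ (P : Pl K) (p : Pl L), At P p → ((mu P p).toNat : ℤ) = mu P p := fun P p x =>
    Int.toNat_of_nonneg x.e_pos.le
  obtain ⟨x, n, h1, h2⟩ := Ty.H53.hr Om (N \ J) Pi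
    (fun p e => let ⟨_, _, P, x, k⟩ := (hN p).1 (Finset.mem_sdiff.1 e).1; ⟨_, hP' p P x k⟩)
    (fun z => (mu z.2 z.1).toNat)
    (fun p _ z x => by
      obtain ⟨P, e, rfl⟩ := hPi p z x
      have : 0 < mu P p := e.2.e_pos
      dsimp only
      omega)
    (fun z => m * κ z.2) (fun z => Sum.elim (fun j => z.2.ord (y j)) 0)
    (fun o => o.elim (-Ln Q) (Sum.elim Ln (Sum.elim LJ LZ)))
    (fun o => o.elim (1 - (q * m * (cz b y Q + 1) - m * Q.ord (lv y ψ)))
      (Sum.elim (fun P => m * κ P) (Sum.elim (fun z => m * κ z.2) 0))) W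
    (fun o x => by
      have hv : ∀ p ∈ (N \ J).filter fun p => ∃ z ∈ Pi p, 3 ≤ (mu z.2 z.1).toNat,
          Hv b T p ∧ p ∉ J := fun p e => by
        obtain ⟨e, z, k, k'⟩ := Finset.mem_filter.1 e
        obtain ⟨P, f, rfl⟩ := hPi p z k
        have e' := Finset.mem_sdiff.1 e
        refine ⟨⟨NT p e'.1, ((hN p).1 e'.1).2.1, P, f.1, f.2, ?_⟩, e'.2⟩
        dsimp only at k'
        omega
      rcases o with _ | P | z | j
      · refine (Finset.sum_eq_zero fun p e => ?_).trans_le zero_le_one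
        rw [← Nat.cast_inj (R := ℤ), w2 p (Finset.mem_filter.1 e).1, se.hc p (hv p e).1 (hv p e).2]
        rfl
      · rw [← Nat.cast_le (α := ℤ), Nat.cast_sum, Nat.cast_one, Finset.sum_congr rfl fun p e =>
          w1 P ((m1 P).1 x) p (Finset.mem_filter.1 e).1]
        exact se.hw P ((m1 P).1 x) _ hv
      · exact (Finset.sum_eq_zero fun p e => rfl).trans_le zero_le_one
      · exact (Finset.sum_eq_zero fun p e =>
          se.hz p (hv p e).1 (hv p e).2 j ((m4 j).1 x)).trans_le zero_le_one)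
    fun E hE cE => by
      have ct : (Finset.eraseNone E).toLeft.card ≤ 2 ^ (d + l + 1 + C) := by
        have c4 : Fintype.card (Fin ρ ⊕ Fin l ⊕ Unit ⊕ J) ≤ d + l + 1 + C := by
          simp only [Fintype.card_sum, Fintype.card_fin, Fintype.card_coe, Fintype.card_unique]
          omega
        exact Finset.card_toLeft_le.trans ((Finset.card_eraseNone_le E).trans
          (cE.trans (Nat.pow_le_pow_right two_pos c4)))
      obtain ⟨v, u, i, n, k1, k2, k3, k4⟩ := dec L K c ρ b y T l s d q ε ψ κ Q ξ I a N f m _ st hN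
        ef sdiff_subset (H L K c ρ b y T s ψ κ Q ξ ξ' I D _ st vx ct)
      refine ⟨xx v u i n, n, fun p e z x => ?_, fun o x => ?_⟩
      · obtain ⟨P, f, rfl⟩ := hPi p z x
        rw [dY, mp P p f.2]
        exact k1 p (Finset.mem_sdiff.1 e).1 P f.1 f.2
      rcases o with _ | P | z | j
      · rw [Pl.ord_mul _ (pow_ne_zero _ g0) (oM v u i n).1, Pl.ord_pow, om] at k4
        rw [s2, Option.elim, Option.elim, dotProduct_neg]
        omega
      · have x' := (m1 P).1 (hE x)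
        have := k3 P ⟨x', fun k => k.2 (.inr (Finset.mem_toLeft.2 (Finset.mem_eraseNone.2 x)))⟩
        rw [om] at this
        rw [s1 n P x']
        show m * κ P + _ ≤ _ ⬝ᵥ Ln P
        omega
      · have x' := (m3 z).1 (hE x)
        have := k1 z.1 (JN z.1.2) z.2 x'.1 x'.2
        show m * κ z.2 + ∑ p ∈ N \ J, n p * (0 : ℕ) ≤ _ ⬝ᵥ LJ z
        rw [oJ]
        simpa using this
      · have := k2 j
        show 0 + ∑ p ∈ N \ J, n p * a p j ≤ _ ⬝ᵥ LZ j
        rw [oZ]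
        omega
  let n' : Pl L → ℤ := fun p => if h : p ∈ J then x (.inr (.inr (.inr ⟨p, h⟩))) else n p
  have en : ∀ p ∈ N \ J, n' p = n p := fun p e => dif_neg (Finset.mem_sdiff.1 e).2
  have es : ∀ w : Pl L → ℤ, ∑ p ∈ N \ J, n' p * w p = ∑ p ∈ N \ J, n p * w p := fun w =>
    Finset.sum_congr rfl fun p e => by rw [en p e]
  obtain ⟨v, u, i, ex⟩ : ∃ v u i, x = xx v u i n' :=
    ⟨fun j => x (.inl j), fun j => x (.inr (.inl j)), x (.inr (.inr (.inl ()))), funext fun o => by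
      rcases o with _ | _ | _ | p
      exacts [rfl, rfl, rfl, (dif_pos p.2 : n' p = _).symm]⟩
  rw [ex] at h1 h2
  refine ⟨_, (oM v u i n').1, fun P hP => ?_, ?_⟩
  · by_cases k : P ∈ Kt y T b.S
    · have := h2 _ ((m1 P).2 k)
      rw [s1 n P k] at this
      change 2 * (m * κ P) + _ ≤ _ ⬝ᵥ Ln P at this
      rw [om, es]
      push_cast
      linarith
    refine (oM v u i n').2.2 (2 * m) (fun p e P hP k => ?_) (fun j k => ?_) P hP k
    · by_cases z : p ∈ J
      · have := h2 _ ((m3 (⟨p, z⟩, P)).2 ⟨hP, k⟩)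
        change 2 * (m * κ P) + ∑ p ∈ N \ J, n p * (0 : ℕ) ≤ _ ⬝ᵥ LJ _ at this
        rw [oJ] at this
        simpa [mul_assoc] using this
      · have e' := Finset.mem_sdiff.2 ⟨e, z⟩
        have := h1 p e' _ (hP' p P hP k)
        rw [dY, mp P p k] at this
        rw [en p e']
        push_cast
        linarith
    · have := h2 _ ((m4 j).2 k)
      change 2 * 0 + ∑ p ∈ N \ J, n p * a p j ≤ _ ⬝ᵥ LZ j at this
      rw [oZ, es] at this
      omega
  · have := h2 _ (Finset.none_mem_insertNone)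
    rw [s2, Option.elim, Option.elim, dotProduct_neg] at this
    rw [Pl.ord_mul _ (pow_ne_zero _ g0) (oM v u i n').1, Pl.ord_pow, om, es]
    push_cast
    linarith

end Vale.Agent.P283R.Tk
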