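import Vale.Agent.P283R.Cq.Gpr36
import Vale.Agent.P283R.Tq.Fc55
import Vale.Agent.P283R.Tk.Wre16

/-!
# P283R, block TK: a weighted Rees place over a point of the Cox space of the base
-/

open Set

noncomputable section

namespace Vale.Agent.P283R.Tk.G30

open Vale.Agent.P287D Vale.Agent.P283M Vale.Agent.P297Z Cx Cy Cq Cq.G36
open Vale.Agent.P283R.To (mon)

/-- weighted Rees valuations -/
def WL : Prop := ∀ (F : Type) [Field F] [Algebra ℂ F] (n N : ℕ) (S : Subalgebra ℂ F) (p : Ideal S)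
  (t : Fin N → S) (w : Fin N → ℕ) (y : Fin (n + 1) → F) (h : F), Aff (n + 1) S →
    IsIntegrallyClosed S → p.IsMaximal → S = Algebra.adjoin ℂ (range fun i => (t i : F)) →
    (∀ i, t i ∈ p) → (∀ i, 0 < w i) → Frm y → h ≠ 0 → (∀ R, PDat S p R → ld y 1 h R ≤ 1) →
    ∃ (R : Pl F) (e M : ℕ), 0 < e ∧ 0 < M ∧ Cen S p R ∧
      (∀ i, (t i : F) ≠ 0 → (e * w i : ℤ) ≤ M * R.ord (t i : F)) ∧
      M * ld y 1 h R ≤ e * ∑ i, (w i : ℝ)

/-- **WL** -/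
theorem wl : WL := fun _ _ _ _ _ _ _ t w _ _ A nr hp hS ht w0 hy h0 bd =>
  W16.wre_ld A nr hp (fun i => (t i : _)) hS
    (fun _ ⟨i, e⟩ => (Subtype.ext e : t i = _) ▸ ht i) w w0 hy one_pos h0 bd

variable {L K : Type} [Field L] [Algebra ℂ L] [Field K] [Algebra ℂ K] [Algebra L K]
  [IsScalarTower ℂ L K] {c l : ℕ}

/-- the order of a section at the place with the masses `m` -/
def ms (b : Ba L c) (m : Pl L → ℕ) (φ : L) (δ : Fin b.k → ℤ) : ℤ :=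
  ∑ᶠ p, (m p : ℤ) * (p.ord φ + δ ⬝ᵥ b.D p)

/-- **GPW** -/
theorem gpw {b : Ba L c} (ok : b.Ok l) (Q : Pl K) (x : Fin b.k → ℝ) {Em : Set (Pl L)}
    (hx : ∀ j, 0 ≤ (Q.ord (algebraMap L K (b.σ j)) : ℝ) + pa (b.a j) x) (fE : Em.Finite)
    (hE : ∀ p ∈ Em, p ∈ b.T ∧ (Q.ord (algebraMap L K (b.lam p)) : ℝ) + pa (b.dg p) x = 0)
    (w : Fin b.N → ℕ) (w0 : ∀ j, 0 < w j) :
    ∃ (m : Pl L → ℕ) (e M : ℕ), 0 < e ∧ 0 < M ∧ (∀ p ∈ Em, m p = 0) ∧ (∀ p, p ∉ b.T → m p = 0) ∧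
      (∀ p ∈ b.T, ms b m (b.lam p) (b.dg p) = m p) ∧
      (c ≠ 0 → ∀ j, 0 < (Q.ord (algebraMap L K (b.σ j)) : ℝ) + pa (b.a j) x →
        (e * w j : ℤ) ≤ M * ms b m (b.σ j) (b.a j)) ∧
      (∀ φ ψ δ δ', φ ≠ 0 → ψ ≠ 0 → ms b m (φ * ψ) (δ + δ') = ms b m φ δ + ms b m ψ δ') ∧
      (∀ δ, ∀ φ ∈ Sp b.σ b.a δ, φ ≠ 0 → 0 ≤ ms b m φ δ) ∧
      (∀ (A : Set L) δ, ∀ φ ∈ Submodule.span ℂ A, φ ≠ 0 →
        ∃ ψ ∈ A, ψ ≠ 0 ∧ ms b m ψ δ ≤ ms b m φ δ) ∧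
      (((∀ φ : L, φ ≠ 0 → ∑ᶠ p, (m p : ℤ) * p.ord φ = 0) ∧
          0 ≤ (e * ∑ j, (w j : ℤ)) + M * ∑ p ∈ b.S, m p * (b.e ⬝ᵥ b.D p)) ∨
        ∃ (R : Pl L) (a : ℕ), 0 < a ∧ (∀ φ : L, φ ≠ 0 → ∑ᶠ p, (m p : ℤ) * p.ord φ = a * R.ord φ) ∧
          M * (a * (1 + kap b.s R - R.ord b.h)) ≤
            ((e * ∑ j, (w j : ℤ)) + M * ∑ p ∈ b.S, m p * (b.e ⬝ᵥ b.D p) : ℤ)) := by
  classical
  obtain ⟨F, _, _, _, _, t, X⟩ := Cx.ext L c b.k ok.ff
  have t0 := X.ind.ne_zero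
  have A := Cx.aff L F c b.k b.s t X ok.fr _ _ _ _ _ ok.cox
  by_cases z : c + b.k = 0
  · obtain rfl : c = 0 := by omega
    refine ⟨0, 1, 1, one_pos, one_pos, fun _ _ => rfl, fun _ _ => rfl,
      fun p => (Bm.no_pl ok.ff p).elim, fun u => (u rfl).elim, fun _ _ _ _ _ _ => by simp [ms],
      fun _ _ _ _ => by simp [ms], fun A δ φ u v => ?_, .inl ⟨fun _ _ => by simp, ?_⟩⟩
    · by_contra n
      refine v (show φ ∈ (⊥ : Submodule ℂ L) from Submodule.span_le.2 (fun ψ r => ?_) u)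
      exact by_contra fun s => n ⟨ψ, r, s, by simp [ms]⟩
    · simpa using Finset.sum_nonneg fun j _ => Int.natCast_nonneg (w j)
  obtain ⟨n, hn⟩ := Nat.exists_eq_succ_of_ne_zero z
  have ls : ∀ p ∈ b.T, hm t (b.lam p) (b.dg p) ∈ Rg b.σ b.a t := fun p u =>
    mem_Rg t0 ((ok.cox.sec _ _ (ok.l0 p)).2 fun p' v => by
      rw [ok.lam p u p' v]
      split_ifs <;> omega)
  have := fE.fintype
  have i0 : ∀ {φ : L}, φ ≠ 0 → algebraMap L K φ ≠ 0 := fun h => (map_ne_zero _).2 h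
  obtain ⟨m, mx, m1, m2⟩ := pt X.ind A.fg (fun φ e => (Q.ord (algebraMap L K φ) : ℝ) + pa e x)
    (fun φ ψ e e' u v => by
      simp only [map_mul, Pl.ord_mul _ (i0 u) (i0 v), pa, Pi.add_apply, Int.cast_add, add_mul,
        Finset.sum_add_distrib]
      ring)
    (fun φ ψ e u v s h h' => by
      have := Pl.min_ord_le_add Q.toPlace (i0 u) (i0 v) (map_add (algebraMap L K) φ ψ ▸ i0 s)
      rw [← map_add, min_le_iff] at this
      rcases this with r | r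
      · exact h.trans_le (add_le_add_left (Int.cast_le.2 r) _)
      · exact h'.trans_le (add_le_add_left (Int.cast_le.2 r) _))
    (fun r => by
      rw [← IsScalarTower.algebraMap_apply, Pl.ord_const]
      simp [pa]) hx (ι := Em) Finset.univ
    (fun p => ⟨_, ls p (hE p p.2).1⟩) fun p _ => ⟨_, _, ok.l0 p, rfl, (hE p p.2).2⟩
  have h0 := ok.can.1
  have ed : ∀ R : Pl F, ld (zt b.s t) 1 (hm t b.h (b.e + 1)) R =
      lt b.s t R - R.ord (hm t b.h b.e) := fun R => by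
    simp only [ld, lt, ord_hm t0 R h0, Pi.add_apply, Pi.one_apply, add_mul, one_mul,
      Finset.sum_add_distrib]
    push_cast
    ring
  let g : Fin b.N → Rg b.σ b.a t := fun j => ⟨_, Algebra.subset_adjoin ⟨j, rfl⟩⟩
  choose v hv using Eg.res_max A m
  have wl' : ∀ d (y : Fin d → F), d = n + 1 → Aff d (Rg b.σ b.a t) → Frm y → ∀ h, h ≠ 0 →
      (∀ R, PDat _ m R → ld y 1 h R ≤ 1) → ∃ (R : Pl F) (e M : ℕ), 0 < e ∧ 0 < M ∧ Cen _ m R ∧
      (∀ i, ((g i - algebraMap ℂ _ (v (g i)) : Rg b.σ b.a t) : F) ≠ 0 →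
        (e * w i : ℤ) ≤ M * R.ord ((g i - algebraMap ℂ _ (v (g i)) : Rg b.σ b.a t) : F)) ∧
      M * ld y 1 h R ≤ e * ∑ i, (w i : ℝ) := by
    rintro _ y rfl A' hy h h0 bd
    refine wl F n b.N _ m (fun i => g i - algebraMap ℂ _ (v (g i))) w y h A'
      (Cx.nor L F c b.k b.s t X ok.fr _ _ _ _ _ ok.cox) mx (le_antisymm (Algebra.adjoin_le ?_)
        (Algebra.adjoin_le (by rintro _ ⟨i, rfl⟩; exact Subtype.property _))) (fun i => hv _) w0 hy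
        h0 bd
    rintro _ ⟨i, rfl⟩
    have := add_mem (Algebra.subset_adjoin (R := ℂ) (s := range fun i =>
      ((g i - algebraMap ℂ _ (v (g i)) : Rg b.σ b.a t) : F)) ⟨i, rfl⟩)
      (Subalgebra.algebraMap_mem _ (v (g i)))
    simpa [g] using this
  obtain ⟨R, e, M, e0, M0, cn, ge, bd⟩ := wl' _ (zt b.s t) hn A (zt_frm X ok.fr) _
    (hm_ne t0 h0 (b.e + 1)) fun R ⟨q, _, u⟩ => by
      rw [ed]
      rcases Cx.pdv L F c b.k b.s t X ok.fr _ _ _ _ _ ok.cox R ⟨q, u⟩ with ⟨E, v, g⟩ | g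
      · rw [g.lt, g.ord _ _ h0, ok.can.2 E v]
        push_cast
        linarith
      · rw [Cx.kah L F c b.k b.s t X ok.fr _ _ _ _ _ ok.cox R ⟨q, u⟩ g, g _ _ h0]
        simp
  have hR : ∀ z ∈ Rg b.σ b.a t, z ∈ R.ring := fun z u => (cn ⟨z, u⟩).1
  obtain ⟨μ, μ0, μ1⟩ : ∃ μ : Pl L → ℕ, (∀ p ∉ b.T, μ p = 0) ∧
      ∀ p ∈ b.T, (μ p : ℤ) = R.ord (hm t (b.lam p) (b.dg p)) :=
    ⟨fun p => if p ∈ b.T then (R.ord (hm t (b.lam p) (b.dg p))).toNat else 0, fun p u => if_neg u,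
      fun p u => by
        simp only [if_pos u]
        exact Int.toNat_of_nonneg (Pl.ord_nonneg_of_mem _ (hR _ (ls p u)))⟩
  have em : ∀ φ, φ ≠ 0 → ∀ δ, ms b μ φ δ = R.ord (hm t φ δ) := fun φ u δ =>
    mass t0 ok.cox ok.l0 ok.lam hR (fun p => μ p)
      (fun p u => by simp only [μ0 p u, Nat.cast_zero]) μ1 u δ
  have s1 : ∀ φ : L, φ ≠ 0 → ∑ᶠ p, (μ p : ℤ) * p.ord φ = R.ord (algebraMap L F φ) :=
    fun φ u => by simpa only [ms, zero_dotProduct, add_zero, hm_deg0] using em φ u 0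
  have s2 : R.ord (hm t b.h b.e) =
      R.ord (algebraMap L F b.h) + ∑ p ∈ b.S, μ p * (b.e ⬝ᵥ b.D p) := by
    have := em 1 one_ne_zero b.e
    simp only [ms, Pl.ord_one, zero_add] at this
    rw [finsum_eq_sum_of_support_subset _ (s := b.S) fun p u => by_contra fun v => by
      by_cases r : p ∈ b.T
      · exact right_ne_zero_of_mul u (by rw [ok.sup p r v, dotProduct_zero])
      · exact left_ne_zero_of_mul u (by rw [μ0 p r, Nat.cast_zero])] at this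
    rw [this, ord_hm t0 R h0, ord_hm t0 R one_ne_zero, map_one, Pl.ord_one, zero_add]
  have bd' : M * (lt b.s t R - R.ord (algebraMap L F b.h)) ≤
      ((e * ∑ j, (w j : ℤ)) + M * ∑ p ∈ b.S, μ p * (b.e ⬝ᵥ b.D p) : ℤ) := by
    rw [ed, s2] at bd
    push_cast at bd ⊢
    linarith
  refine ⟨μ, e, M, e0, M0, fun p u => ?_, μ0, fun p u => (em _ (ok.l0 p) _).trans (μ1 p u).symm,
    fun _ j u => ?_, fun φ ψ δ δ' u v => ?_, fun δ φ u v => ?_, fun B δ φ u v => ?_, ?_⟩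
  · have := Gav.ord_zero (hR _ (ls p (hE p u).1))
      (mt (cn ⟨_, ls p (hE p u).1⟩).2.2 (m1 ⟨p, u⟩ (Finset.mem_univ _)))
    exact_mod_cast (μ1 p (hE p u).1).trans this
  · have g1 : g j ∈ m := m2 _ _ _ rfl u
    have v0 : v (g j) = 0 := by_contra fun n => mx.ne_top (m.eq_top_of_isUnit_mem
      (by simpa using sub_mem g1 (hv (g j))) ((IsUnit.mk0 _ n).map (algebraMap ℂ _)))
    have := ge j
    rw [v0, map_zero, sub_zero] at this
    rw [em _ (ok.cox.ne j)]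
    exact this (hm_ne t0 (ok.cox.ne j) _)
  · rw [em _ (mul_ne_zero u v), em _ u, em _ v, hm_mul t0,
      Pl.ord_mul _ (hm_ne t0 u _) (hm_ne t0 v _)]
  · rw [em _ v]
    exact Pl.ord_nonneg_of_mem _ (hR _ (mem_Rg t0 u))
  · by_contra cn
    have j0 : ∀ {ψ : L}, ψ ≠ 0 → algebraMap L F ψ ≠ 0 := fun h => (map_ne_zero _).2 h
    have : Submodule.span ℂ B ≤ (R.sub (-(R.ord (algebraMap L F φ) + 1))).comap
        (IsScalarTower.toAlgHom ℂ L F).toLinearMap := Submodule.span_le.2 fun ψ r => by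
      rcases eq_or_ne ψ 0 with s | s
      · exact s ▸ zero_mem _
      have h1 := not_le.1 fun k => cn ⟨ψ, r, s, k⟩
      rw [em _ v, em _ s, ord_hm t0 R v, ord_hm t0 R s] at h1
      have h2 : (R.ord (algebraMap L F φ) : ℝ) + 1 ≤ R.ord (algebraMap L F ψ) := by
        exact_mod_cast (by omega : R.ord (algebraMap L F φ) + 1 ≤ R.ord (algebraMap L F ψ))
      exact .inr (show 0 ≤ (R.ord (algebraMap L F ψ) : ℝ) + _ by linarith)
    have k : 0 ≤ (R.ord (algebraMap L F φ) : ℝ) + _ := (this u).resolve_left (j0 v)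
    linarith
  rcases Cx.dwn L F c b.k b.s t X ok.fr R with ⟨u, v⟩ | ⟨P, u, v⟩
  · refine .inl ⟨fun φ r => (s1 φ r).trans (Z60.of_trv u φ), ?_⟩
    rw [Z60.of_trv u, Int.cast_zero, sub_zero] at bd'
    exact_mod_cast (mul_nonneg (Nat.cast_nonneg M) v).trans bd'
  · have p0 := Int.toNat_of_nonneg u.e_pos.le
    refine .inr ⟨P, (R.ord (algebraMap L F P.t)).toNat, by have := u.e_pos; omega,
      fun φ r => by rw [s1 φ r, p0, u.ord],
      le_trans (mul_le_mul_of_nonneg_left ?_ (Nat.cast_nonneg M)) bd'⟩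
    rw [← Int.cast_natCast, p0, u.ord b.h]
    push_cast
    linarith

end Vale.Agent.P283R.Tk.G30
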