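import Vale.Agent.P283R.Cq.Gpr36
import Vale.Agent.P283R.Tk.Wre16

/-!
# P283R, block TK: a weighted Rees place over a point of the Cox space of the base
-/

open Set

noncomputable section

namespace Vale.Agent.P283R.Tk

open Vale.Agent.P287D Vale.Agent.P283M Vale.Agent.P297Z Cx Cy Cq Cq.G36
open Vale.Agent.P283R.To (mon)

/-- the weighted Rees place -/
def G36.WRL : Prop := ∀ (F : Type) [Field F] [Algebra ℂ F] (n N : ℕ) (S : Subalgebra ℂ F)
  (p : Ideal S) (t : Fin N → F) (w : Fin N → ℕ) (y : Fin (n + 1) → F) (h : F), Aff (n + 1) S →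
    IsIntegrallyClosed S → p.IsMaximal → S = Algebra.adjoin ℂ (range t) →
    (∀ a : S, (a : F) ∈ range t → a ∈ p) → (∀ i, 0 < w i) → Frm y → h ≠ 0 →
    (∀ R, PDat S p R → ld y 1 h R ≤ 1) → ∃ (R : Pl F) (e M : ℕ), 0 < e ∧ 0 < M ∧ Cen S p R ∧
      (∀ i, t i ≠ 0 → (e * w i : ℤ) ≤ M * R.ord (t i)) ∧ M * ld y 1 h R ≤ (e * ∑ i, w i : ℕ)

/-- **GPW**: a weighted place over a point of the Cox space of the base -/
def G36.GPW : Prop := ForA fun L K _ _ _ _ _ _ _ b _ _ => ∀ (l : ℕ) (Q : Pl K) (x : Fin b.k → ℝ)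
  (Em : Set (Pl L)) (w : Fin b.N → ℕ), b.Ok l →
    (∀ j, 0 ≤ (Q.ord (algebraMap L K (b.σ j)) : ℝ) + pa (b.a j) x) →
    Em.Finite → (∀ p ∈ Em, p ∈ b.T ∧ (Q.ord (algebraMap L K (b.lam p)) : ℝ) + pa (b.dg p) x = 0) →
    (∀ j, 0 < w j) →
    ∃ (m : Pl L → ℕ) (e : ℕ), 0 < e ∧ (∀ p ∈ Em, m p = 0) ∧ (∀ p, p ∉ b.T → m p = 0) ∧
      (∀ j, b.σ j ≠ 0 → 0 < (Q.ord (algebraMap L K (b.σ j)) : ℝ) + pa (b.a j) x →
        (e * w j : ℤ) ≤ ∑ᶠ p, m p * (p.ord (b.σ j) + b.a j ⬝ᵥ b.D p)) ∧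
      (((∀ φ : L, φ ≠ 0 → ∑ᶠ p, (m p : ℤ) * p.ord φ = 0) ∧
          0 ≤ (e * ∑ j, w j : ℤ) + ∑ p ∈ b.S, m p * (b.e ⬝ᵥ b.D p)) ∨
        ∃ (R : Pl L) (a : ℕ), 0 < a ∧ (∀ φ : L, φ ≠ 0 → ∑ᶠ p, (m p : ℤ) * p.ord φ = a * R.ord φ) ∧
          a * (1 + kap b.s R - R.ord b.h) ≤
            ((e * ∑ j, w j : ℤ) + ∑ p ∈ b.S, m p * (b.e ⬝ᵥ b.D p) : ℤ))

open G36

theorem G36.gpw_of (wr : WRL) : GPW := by
  intro L K _ _ _ _ _ _ c _ b _ _ l Q x Em w ok hx fE hE w0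
  classical
  obtain ⟨F, _, _, _, _, t, X⟩ := Cx.ext L c b.k ok.ff
  have t0 := X.ind.ne_zero
  have A := Cx.aff L F c b.k b.s t X ok.fr _ _ _ _ _ ok.cox
  have ls : ∀ p ∈ b.T, hm t (b.lam p) (b.dg p) ∈ Rg b.σ b.a t := fun p u =>
    mem_Rg t0 ((ok.cox.sec _ _ (ok.l0 p)).2 fun p' v => by
      rw [ok.lam p u p' v]
      split_ifs <;> omega)
  have := fE.fintype
  have i0 : ∀ {φ : L}, φ ≠ 0 → algebraMap L K φ ≠ 0 := fun h => (map_ne_zero _).2 h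
  obtain ⟨m, mx, m1, m2⟩ := pt X.ind A.fg (fun φ e => (Q.ord (algebraMap L K φ) : ℝ) + pa e x)
    (fun φ ψ e e' u v => by
      simp only [map_mul, Pl.ord_mul _ (i0 u) (i0 v), pa, Pi.add_apply, Int.cast_add, add_mul,
        Finset.sum_add_distrib]
      ring)
    (fun φ ψ e u v s h h' => by
      have := Pl.min_ord_le_add Q.toPlace (i0 u) (i0 v) (map_add (algebraMap L K) φ ψ ▸ i0 s)
      rw [← map_add, min_le_iff] at this
      rcases this with r | r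
      · exact h.trans_le (add_le_add_left (Int.cast_le.2 r) _)
      · exact h'.trans_le (add_le_add_left (Int.cast_le.2 r) _))
    (fun r => by
      rw [← IsScalarTower.algebraMap_apply, Pl.ord_const]
      simp [pa]) hx (ι := Em) Finset.univ
    (fun p => ⟨_, ls p (hE p p.2).1⟩) fun p _ => ⟨_, _, ok.l0 p, rfl, (hE p p.2).2⟩
  have h0 := ok.can.1
  have ed : ∀ R : Pl F, ld (zt b.s t) 1 (hm t b.h (b.e + 1)) R =
      lt b.s t R - R.ord (hm t b.h b.e) := fun R => by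
    simp only [ld, lt, ord_hm t0 R h0, Pi.add_apply, Pi.one_apply, add_mul, one_mul,
      Finset.sum_add_distrib]
    push_cast
    ring
  let g : Fin b.N → Rg b.σ b.a t := fun j => ⟨_, Algebra.subset_adjoin ⟨j, rfl⟩⟩
  have : m.IsMaximal := mx
  choose r hr using fun j => Eg.res_max A m (g j)
  obtain ⟨r', r1, r2⟩ : ∃ r' : Fin b.N → ℂ, (∀ j, g j - algebraMap ℂ _ (r' j) ∈ m) ∧
      ∀ j, g j ∈ m → r' j = 0 :=
    ⟨fun j => if g j ∈ m then 0 else r j, fun j => by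
      by_cases u : g j ∈ m
      · simpa only [if_pos u, map_zero, sub_zero] using u
      · simpa only [if_neg u] using hr j, fun j u => if_pos u⟩
  by_cases z : c + b.k = 0
  · obtain rfl : c = 0 := by omega
    obtain k0 : b.k = 0 := by omega
    refine ⟨0, 1, one_pos, fun _ _ => rfl, fun _ _ => rfl, fun j n u => ?_,
      .inl ⟨fun _ _ => by simp, by simp [Finset.sum_nonneg]⟩⟩
    have : IsEmpty (Fin b.k) := ⟨fun i => by have := i.2; omega⟩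
    obtain ⟨s, hs⟩ := Pb.cst_sur ok.ff (b.σ j)
    rw [← hs, ← IsScalarTower.algebraMap_apply, Pl.ord_const] at u
    simp [pa] at u
  have wr' : ∀ d, d ≠ 0 → ∀ (y : Fin d → F) (h : F), Aff d (Rg b.σ b.a t) → Frm y → h ≠ 0 →
      (∀ R, PDat (Rg b.σ b.a t) m R → ld y 1 h R ≤ 1) → ∃ (R : Pl F) (e M : ℕ), 0 < e ∧ 0 < M ∧
        Cen (Rg b.σ b.a t) m R ∧ (∀ i, (g i : F) - algebraMap ℂ F (r' i) ≠ 0 →
          (e * w i : ℤ) ≤ M * R.ord ((g i : F) - algebraMap ℂ F (r' i))) ∧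
        M * ld y 1 h R ≤ (e * ∑ i, w i : ℕ) := fun d d0 y h A hy h0 bd => by
    obtain ⟨n, rfl⟩ := Nat.exists_eq_succ_of_ne_zero d0
    refine wr F n b.N _ m (fun i => (g i : F) - algebraMap ℂ F (r' i)) w y h A
      (Cx.nor L F c b.k b.s t X ok.fr _ _ _ _ _ ok.cox) mx (le_antisymm (Algebra.adjoin_le ?_)
        (Algebra.adjoin_le ?_)) ?_ w0 hy h0 bd
    · rintro _ ⟨j, rfl⟩
      have := add_mem (Algebra.subset_adjoin (R := ℂ) (mem_range_self (f := fun i =>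
        (g i : F) - algebraMap ℂ F (r' i)) j)) (Subalgebra.algebraMap_mem _ (r' j))
      rwa [sub_add_cancel] at this
    · rintro _ ⟨j, rfl⟩
      exact sub_mem (g j).2 (Subalgebra.algebraMap_mem _ _)
    · rintro a ⟨j, u⟩
      obtain rfl : g j - algebraMap ℂ _ (r' j) = a := Subtype.ext u
      exact r1 j
  obtain ⟨R, e, M, e0, M0, cn, ge, bd⟩ := wr' _ z _ _ A
    (zt_frm X ok.fr) (hm_ne t0 h0 (b.e + 1)) fun R ⟨q, _, u⟩ => by
      rw [ed]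
      rcases Cx.pdv L F c b.k b.s t X ok.fr _ _ _ _ _ ok.cox R ⟨q, u⟩ with ⟨E, v, g⟩ | g
      · rw [g.lt, g.ord _ _ h0, ok.can.2 E v]
        push_cast
        linarith
      · rw [Cx.kah L F c b.k b.s t X ok.fr _ _ _ _ _ ok.cox R ⟨q, u⟩ g, g _ _ h0]
        simp
  have hR : ∀ z ∈ Rg b.σ b.a t, z ∈ R.ring := fun z u => (cn ⟨z, u⟩).1
  obtain ⟨μ, μ0, μ1⟩ : ∃ μ : Pl L → ℕ, (∀ p ∉ b.T, μ p = 0) ∧
      ∀ p ∈ b.T, (μ p : ℤ) = R.ord (hm t (b.lam p) (b.dg p)) :=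
    ⟨fun p => if p ∈ b.T then (R.ord (hm t (b.lam p) (b.dg p))).toNat else 0, fun p u => if_neg u,
      fun p u => by
        simp only [if_pos u]
        exact Int.toNat_of_nonneg (Pl.ord_nonneg_of_mem _ (hR _ (ls p u)))⟩
  have ms := fun φ (u : φ ≠ 0) δ => mass t0 ok.cox ok.l0 ok.lam hR (fun p => μ p)
    (fun p u => by simp only [μ0 p u, Nat.cast_zero]) μ1 u δ
  have s1 : ∀ φ : L, φ ≠ 0 → ∑ᶠ p, (μ p : ℤ) * p.ord φ = R.ord (algebraMap L F φ) :=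
    fun φ u => by simpa only [zero_dotProduct, add_zero, hm_deg0] using ms φ u 0
  have s2 : R.ord (hm t b.h b.e) =
      R.ord (algebraMap L F b.h) + ∑ p ∈ b.S, μ p * (b.e ⬝ᵥ b.D p) := by
    have := ms 1 one_ne_zero b.e
    simp only [Pl.ord_one, zero_add] at this
    rw [finsum_eq_sum_of_support_subset _ (s := b.S) fun p u => by_contra fun v => by
      by_cases r : p ∈ b.T
      · exact right_ne_zero_of_mul u (by rw [ok.sup p r v, dotProduct_zero])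
      · exact left_ne_zero_of_mul u (by rw [μ0 p r, Nat.cast_zero])] at this
    rw [this, ord_hm t0 R h0, ord_hm t0 R one_ne_zero, map_one, Pl.ord_one, zero_add]
  have bd' : M * (lt b.s t R - R.ord (algebraMap L F b.h)) ≤
      ((e * ∑ j, w j : ℤ) + ∑ p ∈ b.S, (M * μ p : ℕ) * (b.e ⬝ᵥ b.D p) : ℤ) := by
    rw [ed, s2] at bd
    push_cast at bd ⊢
    simp only [mul_assoc, ← Finset.mul_sum]
    linarith
  have sc : ∀ f : Pl L → ℤ, ∑ᶠ p, ((M * μ p : ℕ) : ℤ) * f p = M * ∑ᶠ p, (μ p : ℤ) * f p :=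
    fun f => by
      rw [mul_finsum]
      simp only [Nat.cast_mul, mul_assoc]
  refine ⟨fun p => M * μ p, e, e0, fun p u => ?_, fun p u => by simp only [μ0 p u, mul_zero],
    fun j n v => ?_, ?_⟩
  · have := Gav.ord_zero (hR _ (ls p (hE p u).1))
      (mt (cn ⟨_, ls p (hE p u).1⟩).2.2 (m1 ⟨p, u⟩ (Finset.mem_univ _)))
    have : μ p = 0 := by exact_mod_cast (μ1 p (hE p u).1).trans this
    simp only [this, mul_zero]
  · have := ge j
    rw [r2 j (m2 (g j) _ _ rfl v), map_zero, sub_zero] at this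
    rw [sc, ms _ n]
    exact this (hm_ne t0 n _)
  have M1 : (0 : ℝ) < M := Nat.cast_pos.2 M0
  rcases Cx.dwn L F c b.k b.s t X ok.fr R with ⟨u, v⟩ | ⟨P, u, v⟩
  · refine .inl ⟨fun φ r => by rw [sc, s1 φ r, Z60.of_trv u φ, mul_zero], ?_⟩
    rw [Z60.of_trv u, Int.cast_zero, sub_zero] at bd'
    exact_mod_cast (mul_nonneg M1.le v).trans bd'
  · have p0 := Int.toNat_of_nonneg u.e_pos.le
    refine .inr ⟨P, M * (R.ord (algebraMap L F P.t)).toNat, Nat.mul_pos M0 (by have := u.e_pos; omega),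
      fun φ r => by rw [sc, s1 φ r, Nat.cast_mul, p0, u.ord, mul_assoc], le_trans ?_ bd'⟩
    rw [Nat.cast_mul, mul_assoc]
    refine mul_le_mul_of_nonneg_left ?_ M1.le
    rw [← Int.cast_natCast, p0, u.ord b.h]
    push_cast
    linarith

/-- **GPW** -/
theorem gpw36 : GPW := gpw_of fun _ _ _ _ _ _ _ t w _ _ A N hp hS ht w0 hy h0 bd =>
  by simpa only [Nat.cast_mul, Nat.cast_sum] using W16.wre_ld A N hp t hS ht w w0 hy one_pos h0 bd

end Vale.Agent.P283R.Tk
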