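import Vale.Agent.P283R.Tk.St
import Vale.Agent.P283R.Tk.Cnt52
import Vale.Agent.P283R.Cq.Gta68

/-!
# P283R, block TK: the row LPR
-/

open Set

noncomputable section

namespace Vale.Agent.P283R.Tk

open Vale.Agent.P287D Vale.Agent.P283M Cx Cy Vale.Agent.P297Z Cq Ck
open C52

/-- **LPR** -/
theorem lpr52 : LPR := by
  intro wgp wx cor L K _ _ _ _ _ _ c ρ b y T l s d q ε ψ κ Q ξ I H A S ω ν st hH hS hν
  classical
  obtain ⟨n, pk⟩ := st.pk
  have X := pk.fm
  have o := pk.ok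
  have mb := st.k0.mb
  have s0 : ∀ j, s j ≠ 0 := fun j => (mb.s0 j).1
  obtain ⟨x, hx⟩ := wx L K c ρ b y T n Q ξ o X st.rep
  obtain ⟨C, hC⟩ := wgp L K c ρ b y T n Q x {p | p ∈ b.T ∧ ¬ ∃ P ∈ T, At P p} o
    (fun j => (hx _ _ (o.cox.ne j) ((o.cox.sec _ _ (o.cox.ne j)).1 (An.gen_sp j))).1) X.mis
    fun p hp => ⟨hp.1, (hx _ _ (o.l0 p) fun p' v => by
      rw [o.lam p hp.1 p' v]
      split_ifs <;> omega).2.2 fun P p' z a => by
        have t := (st.rep.sup P z).1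
        rw [o.lam p hp.1 p' (pT X P t p' a), if_neg fun k : p' = p => hp.2 ⟨P, t, k ▸ a⟩]⟩
  have dS : ∀ F ∈ b.S, ∀ p ∈ b.T, b.dg F ⬝ᵥ b.D p = if p = F then 1 else 0 := fun F h p t => by
    have := o.lam F (mb.sub h) p t
    rwa [st.k0.one F h, Pl.ord_one, zero_add] at this
  obtain ⟨δ, hδ⟩ : ∃ δ : Fin l → Fin b.k → ℤ, ∀ j, ∀ p ∈ b.T,
      p.ord (s j) + δ j ⬝ᵥ b.D p = if p ∈ b.S then 0 else p.ord (s j) :=
    ⟨fun j => ∑ F ∈ b.S, (-F.ord (s j)) • b.dg F, fun j p t => by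
      rw [sum_dotProduct, Finset.sum_congr rfl fun F h => by
        rw [smul_dotProduct, dS F h p t, smul_eq_mul, mul_ite, mul_one, mul_zero],
        Finset.sum_ite_eq]
      split_ifs <;> simp⟩
  obtain ⟨w, hw⟩ : ∃ w : Pl L → ℕ, ∀ F, (w F : ℤ) = ∑ P ∈ S, if At P F then ω P * mu P F else 0 :=
    ⟨fun F => ∑ P ∈ S, if At P F then ω P * (mu P F).toNat else 0, fun F => by
      push_cast
      exact Finset.sum_congr rfl fun P _ => by
        split_ifs with h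
        · rw [Int.toNat_of_nonneg (show 0 ≤ mu P F from h.e_pos.le)]
        · rfl⟩
  have ps : ∀ P ∈ T, ∀ p ∈ I, At P p → ξ P ≠ 0 := fun P t p i a =>
    (st.pos P ⟨t, nz P p a, fun p' j k => j (a.uniq k ▸ i)⟩).ne'
  let W : b.S ⊕ Fin l → ℕ := Sum.elim (fun F => w F) ν
  let φ : b.S ⊕ Fin l → L := Sum.elim (fun _ => 1) s
  let Δ : b.S ⊕ Fin l → Fin b.k → ℤ := Sum.elim (fun F => b.dg F) δ
  have φ0 : ∀ i, φ i ≠ 0 := fun i => i.casesOn (fun _ => one_ne_zero) s0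
  have φ1 : ∀ i, ∀ p ∈ b.T, 0 ≤ p.ord (φ i) + Δ i ⬝ᵥ b.D p := fun i p t => by
    obtain F | j := i
    · simp only [φ, Δ, Sum.elim_inl, dS F F.2 p t, Pl.ord_one]
      split_ifs <;> omega
    · simp only [φ, Δ, Sum.elim_inr, hδ j p t]
      split_ifs with h
      exacts [le_rfl, (mb.s0 j).2 p t h]
  obtain ⟨m, e, e0, m1, m2, m3, m4⟩ := hC {i // W i ≠ 0} (fun i => φ i) (fun i => Δ i)
    (fun i => (3 * C + 1) * W i) fun ⟨i, hi⟩ => ⟨φ0 i, φ1 i,
      (hx _ _ (φ0 i) (φ1 i)).1.lt_of_ne' fun z => by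
        have k := (hx _ _ (φ0 i) (φ1 i)).2.1 z
        obtain F | j := i
        · obtain ⟨P, t, a⟩ : ∃ P ∈ S, At P (F : Pl L) := by_contra fun n => hi (by
            have := hw F
            rw [Finset.sum_eq_zero fun P t => if_neg fun a => n ⟨P, t, a⟩] at this
            exact_mod_cast this)
          have := k P F (ps P (hS P t).1 F (st.od.od.co F.2) a) a
          simp [φ, Δ, dS F F.2 F (mb.sub F.2)] at this
        · obtain ⟨P, t, p, n, a, z⟩ := hν j hi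
          obtain ⟨j', hj⟩ := st.k0.sg j
          have := k P p (ps P t p (by_contra fun i => z (hj ▸ st.od.s0 j' p (pT X P t p a) i)) a) a
          simp only [φ, Δ, Sum.elim_inr, hδ j p (pT X P t p a), if_neg n] at this
          exact z this⟩
  obtain ⟨k, hk⟩ : ∃ k : ℤ, k = e * (3 * C + 1) := ⟨_, rfl⟩
  have k0 : 0 < k := by
    rw [hk]
    positivity
  have m5 : ∀ i, k * W i ≤ ∑ᶠ p, (m p : ℤ) * (p.ord (φ i) + Δ i ⬝ᵥ b.D p) := fun i => by
    by_cases z : W i = 0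
    · rw [z, Nat.cast_zero, mul_zero]
      refine finsum_nonneg fun p => ?_
      by_cases t : p ∈ b.T
      · exact mul_nonneg (Int.natCast_nonneg _) (φ1 i p t)
      · simp [m2 p t]
    · have := m3 ⟨i, z⟩
      push_cast at this
      rwa [← mul_assoc, ← hk] at this
  have mF : ∀ F ∈ b.S, k * w F ≤ m F := fun F h => by
    have := m5 (.inl ⟨F, h⟩)
    rw [finsum_eq_single _ F fun p n => by
      by_cases t : p ∈ b.T
      · simp [φ, Δ, dS F h p t, n]
      · simp [m2 p t]] at this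
    simpa [φ, Δ, W, dS F h F (mb.sub h)] using this
  have sp : ∀ g : L, ∑ᶠ p, (m p : ℤ) * p.ord g = ∑ F ∈ b.S, m F * F.ord g +
      ∑ᶠ p, (m p : ℤ) * if p ∈ b.S then 0 else p.ord g := fun g => by
    rw [← finsum_mem_coe_finset, finsum_mem_def, ← finsum_add_distrib
      (b.S.finite_toSet.subset support_indicator_subset) ((mb.fin g).subset fun p z =>
        ⟨by_contra fun t => z (by simp [m2 p t]), fun t => z (by simp [t])⟩)]
    refine finsum_congr fun p => ?_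
    by_cases h : p ∈ b.S <;> simp [h]
  have mj : ∀ j, k * ν j + ∑ F ∈ b.S, m F * F.ord (s j) ≤ ∑ᶠ p, (m p : ℤ) * p.ord (s j) :=
    fun j => by
      have := m5 (.inr j)
      rw [finsum_congr (g := fun p => (m p : ℤ) * if p ∈ b.S then 0 else p.ord (s j)) fun p => by
        by_cases t : p ∈ b.T
        · simp only [φ, Δ, Sum.elim_inr, hδ j p t]
        · simp [m2 p t]] at this
      rw [sp, add_comm]
      exact add_le_add_right this _
  have tr : ∀ (g : Pl L → ℤ) (G : Pl K → ℤ), (∀ P F, At P F → G P = mu P F * g F) →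
      (∀ P, Trv (algebraMap L K) P → G P = 0) →
      ∑ P ∈ S, ω P * G P = ∑ F ∈ b.S, w F * g F := fun g G h h' => by
    simp only [hw, Finset.sum_mul]
    rw [Finset.sum_comm]
    refine Finset.sum_congr rfl fun P t => ?_
    obtain a | ⟨F, -, a⟩ := X.pg P (hS P t).1
    · rw [h' P a, mul_zero, Finset.sum_eq_zero fun F _ => by
        rw [if_neg fun z : At P F => z.not_trv a, zero_mul]]
    · rw [Finset.sum_eq_single_of_mem F (by_contra fun n => (hS P t).2.2 F n a) fun F' _ n => by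
        rw [if_neg fun z : At P F' => n (z.uniq a), zero_mul], if_pos a, h P F a, mul_assoc]
  have : ∀ p, ∃ a : Fin l → ℕ, p ∈ H → a ∈ A p ∧
      k * (∑ P ∈ S, ω P * wd b s p a P + ∑ j, (ν j * a j : ℤ)) ≤ m p := fun p => by
    by_cases hp : p ∈ H
    swap
    · exact ⟨0, fun z => absurd z hp⟩
    obtain ⟨⟨t, n, -⟩, su, ex⟩ := hH p hp
    obtain ⟨a, ha, v⟩ : ∃ a ∈ A p, ∑ j, a j * ∑ᶠ p', (m p' : ℤ) * p'.ord (s j) ≤
        ∑ᶠ p', (m p' : ℤ) * p'.ord (b.lam p) := by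
      obtain ⟨z, -⟩ | ⟨R, a, -, z, -⟩ := m4
      · obtain ⟨_, ⟨a, ha, rfl⟩, -⟩ := G68.ex_span p ex (o.l0 p)
        exact ⟨a, ha, by simp [z _ (s0 _), z _ (o.l0 p)]⟩
      · obtain ⟨_, ⟨u, hu, rfl⟩, -, v⟩ := G68.ex_span R ex (o.l0 p)
        refine ⟨u, hu, ?_⟩
        rw [Pl.ord_prod _ _ fun j _ => pow_ne_zero _ (s0 j)] at v
        simp only [Pl.ord_pow] at v
        simp only [z _ (s0 _), z _ (o.l0 p), mul_left_comm _ (a : ℤ), ← Finset.mul_sum]
        exact mul_le_mul_of_nonneg_left v (Int.natCast_nonneg a)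
    refine ⟨a, fun _ => ⟨ha, ?_⟩⟩
    rw [sp (b.lam p), finsum_eq_single _ p fun p' z => by
      by_cases t' : p' ∈ b.T
      · by_cases h : p' ∈ b.S
        · simp [h]
        · have := o.lam p t p' t'
          rw [o.sup p' t' h, dotProduct_zero, add_zero, if_neg z] at this
          simp [this]
      · simp [m2 p' t'], if_neg n] at v
    have l1 := o.lam p t p t
    rw [o.sup p t n, dotProduct_zero, add_zero, if_pos rfl] at l1
    rw [l1, mul_one] at v
    rw [tr (fun F => ∑ j, a j * F.ord (s j) - F.ord (b.lam p)) (wd b s p a)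
      (fun P F h => by
        rw [wd, h.ord (b.lam p), mu, mul_sub, Finset.mul_sum]
        exact congrArg (· - _) (Finset.sum_congr rfl fun j _ => by rw [h.ord (s j), mul_left_comm]))
      fun P h => by simp [wd, h.ord]]
    have i1 : k * ∑ F ∈ b.S, w F * (∑ j, a j * F.ord (s j) - F.ord (b.lam p)) ≤
        ∑ F ∈ b.S, m F * (∑ j, a j * F.ord (s j) - F.ord (b.lam p)) := by
      rw [Finset.mul_sum]
      exact Finset.sum_le_sum fun F h => by
        rw [← mul_assoc]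
        exact mul_le_mul_of_nonneg_right (mF F h) (sub_nonneg.2 (su a ha F h))
    have i2 : ∑ j, (a j : ℤ) * (k * ν j + ∑ F ∈ b.S, m F * F.ord (s j)) ≤ _ :=
      Finset.sum_le_sum fun j _ => mul_le_mul_of_nonneg_left (mj j) (Int.natCast_nonneg _)
    have i3 : ∑ j, (a j : ℤ) * (k * ν j + ∑ F ∈ b.S, m F * F.ord (s j)) =
        k * ∑ j, (ν j * a j : ℤ) + ∑ F ∈ b.S, m F * ∑ j, a j * F.ord (s j) := by
      simp only [mul_add, Finset.sum_add_distrib, Finset.mul_sum]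
      rw [Finset.sum_comm]
      congr 1
      · exact Finset.sum_congr rfl fun _ _ => by ring
      · exact Finset.sum_congr rfl fun _ _ => Finset.sum_congr rfl fun _ _ => by ring
    simp only [mul_sub, Finset.sum_sub_distrib] at i1 ⊢
    linarith
  choose a ha using this
  refine ⟨a, fun p h => (ha p h).1, ?_⟩
  have : ∀ p : Pl L, ∃ R : Pl K, (∃ P ∈ T, At P p) →
      R ∈ T ∧ At R p ∧ ∀ P ∈ T, At P p → mu P p ≤ mu R p := fun p => by
    by_cases h : ∃ P ∈ T, At P p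
    · obtain ⟨R, r1, r2⟩ := exists_max_image _ (fun P => mu P p) (fA X p) h
      exact ⟨R, fun _ => ⟨r1.1, r1.2, fun P t a => r2 P ⟨t, a⟩⟩⟩
    · exact ⟨Q, fun z => absurd z h⟩
  choose r hr using this
  have ne : ∀ p, m p ≠ 0 → p ∈ b.T ∧ ∃ P ∈ T, At P p := fun p z =>
    have t : p ∈ b.T := by_contra fun n => z (m2 p n)
    ⟨t, by_contra fun n => z (m1 p ⟨t, n⟩)⟩
  have co := cor L K c ρ b y T n d q ε ψ κ Q ξ m _ r (H ∪ b.S) st.e0 st.q0 pk st.rep
    (fun p z => ⟨(ne p z).1, (hr p (ne p z).2).1, (hr p (ne p z).2).2.1⟩) m4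
  rw [Finset.sum_union (Finset.disjoint_left.2 fun p h => (hH p h).1.2.1)] at co
  have c1 : (2 : ℝ) * ∑ p ∈ H, (m p : ℝ) ≤ 3 * ∑ p ∈ H, (m p : ℝ) * (1 - 1 / mu (r p) p) := by
    rw [Finset.mul_sum, Finset.mul_sum]
    refine Finset.sum_le_sum fun p h => ?_
    obtain ⟨-, -, P, t, u, v⟩ := (hH p h).1
    have : (3 : ℝ) ≤ mu (r p) p := by exact_mod_cast v.trans ((hr p ⟨P, t, u⟩).2.2 P t u)
    have := one_div_le_one_div_of_le (by norm_num) this
    nlinarith [Nat.cast_nonneg (α := ℝ) (m p)]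
  obtain ⟨N, hN⟩ : ∃ N : Pl L → ℤ, ∀ F, N F = ∑ P ∈ S, if At P F then (ω P : ℤ) else 0 :=
    ⟨_, fun _ => rfl⟩
  have N0 : ∀ F, 0 ≤ N F := fun F => hN F ▸ Finset.sum_nonneg fun P _ => by positivity
  have c2 : ∑ F ∈ b.S, N F ≤ ∑ P ∈ S, (ω P : ℤ) := by
    simp only [hN]
    rw [Finset.sum_comm]
    refine Finset.sum_le_sum fun P _ => ?_
    by_cases h : ∃ F ∈ b.S, At P F
    · obtain ⟨F, h, a⟩ := h
      rw [Finset.sum_eq_single_of_mem F h fun F' _ n => if_neg fun z : At P F' => n (z.uniq a),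
        if_pos a]
    · rw [Finset.sum_eq_zero fun F t => if_neg fun z => h ⟨F, t, z⟩]
      positivity
  have k1 : (0 : ℝ) < k := Int.cast_pos.2 k0
  have c3 : ∑ F ∈ b.S, (k : ℝ) * (w F - N F) ≤ ∑ F ∈ b.S, (m F : ℝ) * (1 - 1 / mu (r F) F) := by
    refine Finset.sum_le_sum fun F h => ?_
    have n0 : (0 : ℝ) ≤ N F := Int.cast_nonneg (N0 F)
    have f1 : (k : ℝ) * w F ≤ m F := by exact_mod_cast mF F h
    by_cases z : m F = 0
    · rw [z, Nat.cast_zero] at f1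
      rw [z, Nat.cast_zero, zero_mul]
      nlinarith
    obtain ⟨r1, r2, r3⟩ := hr F (ne F z).2
    have μ1 : (1 : ℝ) ≤ mu (r F) F := by exact_mod_cast (show 0 < mu (r F) F from r2.e_pos)
    have f2 : (w F : ℝ) ≤ N F * mu (r F) F := by
      have : (w F : ℤ) ≤ N F * mu (r F) F := by
        rw [hw, hN, Finset.sum_mul]
        refine Finset.sum_le_sum fun P t => ?_
        split_ifs with a
        · exact mul_le_mul_of_nonneg_left (r3 P (hS P t).1 a) (Int.natCast_nonneg _)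
        · rw [zero_mul]
      exact_mod_cast this
    have f3 : 1 / (mu (r F) F : ℝ) ≤ 1 := (div_le_one (by linarith)).2 μ1
    have f4 : (w F : ℝ) * (1 / mu (r F) F) ≤ N F := by
      rwa [mul_one_div, div_le_iff₀ (by linarith)]
    nlinarith [mul_le_mul_of_nonneg_right f1 (sub_nonneg.2 f3), mul_le_mul_of_nonneg_left f4 k1.le]
  have c4 : ∑ i : {i // W i ≠ 0}, (3 * C + 1) * W i =
      (3 * C + 1) * (∑ F ∈ b.S, w F + ∑ j, ν j) := by
    rw [← Finset.mul_sum, ← Finset.sum_subtype (Finset.univ.filter (W · ≠ 0)) (by simp) W,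
      Finset.sum_filter_ne_zero, Fintype.sum_sum_type, ← Finset.sum_coe_sort b.S]
    rfl
  rw [c4] at co
  have c5 : k * ∑ p ∈ H, (∑ P ∈ S, ω P * wd b s p (a p) P + ∑ j, (ν j * a p j : ℤ)) ≤
      ∑ p ∈ H, (m p : ℤ) := by
    rw [Finset.mul_sum]
    exact Finset.sum_le_sum fun p h => (ha p h).2
  have c6 : 2 * ∑ p ∈ H, (m p : ℤ) ≤ 3 * (C * e + k * (∑ P ∈ S, (ω P : ℤ) + ∑ j, (ν j : ℤ))) := by
    have c7 : ∑ F ∈ b.S, (N F : ℝ) ≤ ∑ P ∈ S, (ω P : ℝ) := by exact_mod_cast c2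
    have hk' : (k : ℝ) = e * (3 * C + 1) := by exact_mod_cast hk
    rw [← Finset.mul_sum, Finset.sum_sub_distrib] at c3
    have : (2 : ℝ) * ∑ p ∈ H, (m p : ℝ) ≤
        3 * (C * e + k * (∑ P ∈ S, (ω P : ℝ) + ∑ j, (ν j : ℝ))) := by
      push_cast at co
      have := mul_le_mul_of_nonneg_left c7 k1.le
      rw [add_mul, mul_right_comm, mul_comm _ (e : ℝ), mul_comm (3 * _ + 1 : ℝ), ← hk'] at co
      nlinarith
    exact_mod_cast this
  generalize ∑ p ∈ H, (∑ P ∈ S, ω P * wd b s p (a p) P + ∑ j, (ν j * a p j : ℤ)) = u at c5 ⊢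
  generalize ∑ P ∈ S, (ω P : ℤ) + ∑ j, (ν j : ℤ) = v at c6 ⊢
  by_contra! h
  have e1 : (0 : ℤ) < e := Int.natCast_pos.2 e0
  nlinarith [mul_le_mul_of_nonneg_left (show 3 * v + 1 ≤ 2 * u from h) k0.le]

end Vale.Agent.P283R.Tk
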