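import Vale.Agent.P283R.Tk.St
import Vale.Agent.P283R.Ck.Bld40
import Vale.Agent.P283R.Ck.Ons90
import Vale.Agent.P283R.Cq.Base20

/-!
# P283R, block TK: the row ONR
-/

open Set CategoryTheory AlgebraicGeometry

noncomputable section

namespace Vale.Agent.P283R.Tk

namespace O31

open Vale.Agent.P287D Vale.Agent.P283R.Cx Vale.Agent.P297Z Cq Ck
open Vale.Agent.P283M.Stm Vale.Agent.P283M.Stm.Var Vale.Agent.P283M Vale.Agent.P283M.Br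
open Vale.Agent.P283R.Gl Vale.Agent.P283R.Sg.T20

theorem base {X : Var} {l : ℕ} (S : Finset X.PrimeDiv) (s : Fin l → X.K)
    (h1 : ∀ G : X.PrimeDiv →₀ ℤ, ∃ g, g ≠ 0 ∧ ∀ F ∉ S, ord g F = G F)
    (h2 : ∀ j, s j ≠ 0 ∧ ∀ F ∉ S, 0 ≤ ord (s j) F)
    (h3 : ∀ g, (∀ F ∉ S, 0 ≤ ord g F) → g ∈ Submodule.span ℂ
      {x | (∃ w : Fin l → ℕ, x = ∏ j, s j ^ w j) ∧ ∀ F ∈ S, ord g F ≤ ord x F}) :
    ∃ (c : ℕ) (b : Ba X.K c), K0 b s ∧ b.T = range pq := by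
  classical
  obtain ⟨c, hK⟩ := Md.exists_ff X
  obtain ⟨y, hy, -⟩ := id hK
  have mS : ∀ E, pq E ∈ S.image pq ↔ E ∈ S := fun E => pq_inj.mem_finset_image
  have mb : Mb c (range pq) (S.image pq) s := by
    refine ⟨hK, fun p a => ?_, fun φ => ((fin X φ).image pq).subset ?_, fun G f => ?_,
      fun j => ⟨(h2 j).1, ?_⟩, fun g hg => Submodule.span_mono ?_ (h3 g fun F c =>
        (pq_ord F g).symm ▸ hg _ ⟨F, rfl⟩ fun a => c ((mS F).1 a))⟩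
    · obtain ⟨E, -, rfl⟩ := Finset.mem_image.1 a
      exact ⟨E, rfl⟩
    · rintro _ ⟨⟨E, rfl⟩, a⟩
      exact ⟨E, fun e => a ((pq_ord E φ).symm.trans e), rfl⟩
    · obtain ⟨g, g0, e⟩ := h1 (Finsupp.ofSupportFinite (fun E => G (pq E))
        ((f.preimage pq_inj.injOn).subset fun E a => ⟨⟨E, rfl⟩, a⟩))
      refine ⟨g, g0, ?_⟩
      rintro _ ⟨E, rfl⟩ a
      exact (pq_ord E g).symm.trans (e E fun b => a ((mS E).2 b))
    · rintro _ ⟨E, rfl⟩ a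
      exact pq_ord E (s j) ▸ (h2 j).2 E fun b => a ((mS E).2 b)
    · rintro x ⟨a, b⟩
      refine ⟨a, fun p w => ?_⟩
      obtain ⟨E, e, rfl⟩ := Finset.mem_image.1 w
      rw [← pq_ord, ← pq_ord]
      exact b E e
  choose z hz using Cb.kap_int y
  obtain ⟨j, j0, ej⟩ := mb.pri z (((Cq.B20.kfin hK hy).image pq).subset (by
    rintro _ ⟨⟨E, rfl⟩, a⟩
    refine ⟨E, fun b => a ?_, rfl⟩
    rw [hz] at b
    exact_mod_cast b))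
  choose lam l0 hl using fun p => mb.pri (fun p' => if p' = p then 1 else 0)
    ((finite_singleton p).subset fun p' a => by_contra fun b => a.2 (if_neg b))
  obtain ⟨b, ok, eT, eS, -, -, el, -, sg⟩ := bld40 X.K c l _ _ s y j
    (fun p => if p ∈ S.image pq then 1 else lam p) mb (Cb.fr_of hK hy) j0
    (fun p a b => by rw [hz, ej p a b])
    (fun p => by
      split_ifs
      exacts [one_ne_zero, l0 p])
    (fun p a => if_pos a) fun p _ a p' b b' => by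
      rw [if_neg a, hl p p' b b']
  refine ⟨c, b, ⟨eS ▸ ok, eT ▸ eS ▸ mb, fun p a => ?_, sg⟩, eT⟩
  rw [el]
  exact if_pos (eS ▸ a)

end O31

namespace O31

open Vale.Agent.P287D Vale.Agent.P283M Cx Cy Cq Ck

/-- the theorem on the tier -/
theorem wtt (pq : PQT) (l n q : ℕ) (ε : ℝ) (q0 : 0 < q) (e0 : 0 < ε) : ∃ M : ℕ, 1 ≤ M ∧
    ∀ (L K : Type) [Field L] [Algebra ℂ L] [Field K] [Algebra ℂ K] [Algebra L K]
    [IsScalarTower ℂ L K] (c ρ : ℕ) (u : Finset K) (Λ Γ Γ' : BD K) (b : Ba L c) (y : Fin ρ → K)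
    (s : Fin l → L), K0 b s → c + ρ = n + 1 → Dat n u Λ Γ Γ' → Fm b y (Tt n u Λ) →
    (∀ R ∈ Tt n u Λ, dsc (n + 1) Γ R ≤ 0 ∧ ∃ m : ℤ, q * dsc (n + 1) Γ R = m) →
    (∀ R, Ov u R → ε ≤ 1 + dsc (n + 1) Γ R) → NefO n K u (-Γ) → Cpl n M u Λ Γ := by
  obtain ⟨m, m2, H⟩ := pq l (n + 1) q ε q0 e0
  refine ⟨q * m, Nat.mul_pos q0 (by omega), ?_⟩
  intro L K _ _ _ _ _ _ c ρ u Λ Γ Γ' b y s kk hn a fm hi lc nf
  obtain ⟨g, κ, lk, pk⟩ := cdr42 cz60 (Wc.avr95 Wc.cox36 Wc.loc24) n K u Λ Γ Γ' a L _ q c ρ ε b y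
    q0 e0 kk.ok hn fm hi lc nf
  exact Wc.bkr64 Wc.cox36 n K u Λ Γ Γ' a q m _ g κ q0 m2 lk fun Q o =>
    H L K c ρ b y _ s _ g κ Q kk pk fun x x0 hx => Wc.ovq22 n K u Λ Γ Γ' a Q x o x0 hx

end O31

open Vale.Agent.P287D Vale.Agent.P283M Vale.Agent.P297Z Cx Cy Cq Ck
open Vale.Agent.P283M.Br Vale.Agent.P283R.Gl
open Sl Sl.Var

/-- **ONR** -/
theorem onr31 : ONR := by
  intro pq m d hd ε hε R hR
  obtain ⟨n, rfl⟩ : ∃ n, d = n + 1 := ⟨d - 1, by omega⟩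
  obtain ⟨M, M1, H⟩ := O31.wtt pq (m (n + 1)) n (∏ r ∈ R, r.den) ε
    (Finset.prod_pos fun r _ => r.den_pos) hε
  refine ⟨M, M1, fun X Z f ω B z a b c e s u ⟨u1, u2, W, zW, Y, φ, r, y, ch, pg, S, σ, h1, h2, h3⟩ =>
    (has_iff f ω B M z).2 ?_⟩
  obtain ⟨x, hx⟩ := s.2.2.1.surj z
  obtain ⟨_, -, -, -, ⟨ψ, rfl, ind⟩, -⟩ := ch x (show f x ∈ W from hx ▸ zW)
  obtain ⟨c', bs, kk, bT⟩ := O31.base (X := Y.o) S σ h1 h2 h3
  let i3 : Algebra Y.o.K X.o.K := ψ.toRingHom.toAlgebra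
  have i4 : IsScalarTower ℂ Y.o.K X.o.K := .of_algebraMap_eq fun c => (ψ.commutes c).symm
  obtain ⟨V, v0, hV, zV, co⟩ := @sum_co X.o Y.o Z.o f z W r i3 i4 y s zW
    ⟨algebraicIndependent_iff.2 ind, fun x hx =>
      let ⟨U, a, b, c, e⟩ := ch x hx; ⟨U, a, b, c, e.2⟩⟩
  have fm := O90.fam (W := pre f V) (x := x) (show f x ∈ V from hx ▸ zV) ψ co
    (fun E e => pg E (v0 e)) kk.ok bT
  exact H42.sch (X := X.o) (Z := Z.o) M1 (fun v Λ Γ Γ' hK da T co lc nf =>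
    @H Y.K X.K _ _ _ _ i3 i4 c' r v Λ Γ Γ' bs y σ kk
      (Nat.cast_injective (fm.ext.ff'.trdeg.symm.trans hK.trdeg)) da
      ((Set.ext T : Cx.Tt n v Λ = {P | ∃ E : X.o.PrimeDiv, E.1 ∈ pre f V ∧ Gl.pq E = P}) ▸ fm)
      co lc nf) a b ((pair_iff _ _ ω B).1 c) (C3.den e) s
    ((fanoType_iff f ω).1 u1) ((nefOver_iff f _).1 u2) u hV zV

end Vale.Agent.P283R.Tk
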