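import Vale.Agent.P283R.Tk.St
import Vale.Agent.P283R.Tk.Spl45

/-!
# P283R, block TK: the orders of the monomial sections
-/

open Set

noncomputable section

namespace Vale.Agent.P283R.Tk

open Vale.Agent.P287D Vale.Agent.P283M Vale.Agent.P297Z Cx Cy Cq Ck
open Vale.Agent.P283R.To (mon)

/-- **ORM** -/
theorem orm60 : ORM := by
  classical
  intro L K _ _ _ _ _ _ c ρ b y T l s d q ε ψ κ Q ξ I a N f v u i n st np hf
  obtain ⟨n₀, pk⟩ := st.pk
  have fm := pk.fm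
  have ok := st.k0.ok
  have mb := st.k0.mb
  have y0 := fm.ext.ind.ne_zero
  have s0 : ∀ j, s j ≠ 0 := fun j => (mb.s0 j).1
  have f0 := S45.f_ne ok hf
  have i0 : ∀ {z : L}, z ≠ 0 → algebraMap L K z ≠ 0 := fun h => (map_ne_zero _).2 h
  have p0 : ∀ p, ∏ j, s j ^ a p j ≠ 0 := fun p =>
    Finset.prod_ne_zero_iff.2 fun j _ => pow_ne_zero _ (s0 j)
  have z1 : ∀ p, b.lam p / ∏ j, s j ^ a p j ≠ 0 := fun p => div_ne_zero (ok.l0 p) (p0 p)
  have z2 : ∏ p ∈ N, (b.lam p / ∏ j, s j ^ a p j) ^ n p ≠ 0 :=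
    Finset.prod_ne_zero_iff.2 fun p _ => zpow_ne_zero _ (z1 p)
  have z3 : mon s u * f ^ i ≠ 0 := mul_ne_zero (To.mon_ne s0 u) (zpow_ne_zero _ f0)
  have z4 := mul_ne_zero z3 z2
  have pT : ∀ P ∈ T, ∀ p, At P p → p ∈ b.T := fun P h p e =>
    let ⟨_, k, e'⟩ := (fm.pg P h).resolve_left e.not_trv
    e'.uniq e ▸ k
  have o : ∀ P : Pl K, P.ord (mo b s y f a N v u i n) = ∑ j, v j * P.ord (y j) +
      ∑ j, u j * P.ord (algebraMap L K (s j)) + i * P.ord (algebraMap L K f) -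
        ∑ p ∈ N, n p * wd b s p (a p) P := fun P => by
    have e : ∀ p ∈ N, P.ord (algebraMap L K ((b.lam p / ∏ j, s j ^ a p j) ^ n p)) =
        -(n p * wd b s p (a p) P) := fun p _ => by
      rw [map_zpow₀, Pl.ord_zpow, map_div₀, Pl.ord_div _ (i0 (ok.l0 p)) (i0 (p0 p)), map_prod,
        Pl.ord_prod _ _ fun j _ => i0 (pow_ne_zero _ (s0 j)), wd]
      simp only [map_pow, Pl.ord_pow]
      ring
    have e2 : algebraMap L K (mon s u) = mon (fun j => algebraMap L K (s j)) u := by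
      simp only [mon, map_prod, map_zpow₀]
    rw [mo, ord_hm y0 P z4, map_mul, Pl.ord_mul _ (i0 z3) (i0 z2), map_mul,
      Pl.ord_mul _ (i0 (To.mon_ne s0 u)) (i0 (zpow_ne_zero _ f0)), e2,
      To.ord_mon P fun j => i0 (s0 j), map_zpow₀, Pl.ord_zpow, map_prod,
      Pl.ord_prod _ _ fun p _ => i0 (zpow_ne_zero _ (z1 p)), Finset.sum_congr rfl e,
      Finset.sum_neg_distrib]
    ring
  refine ⟨mul_ne_zero (i0 z4) (To.mon_ne y0 v), o, fun m h1 h2 P hP k => ?_⟩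
  by_cases t : Hz L y P
  · rw [mo, t _ v z4, (pk.reg P hP t).2, mul_zero]
  obtain ⟨p, z, e⟩ : ∃ p ∉ b.S, At P p := by
    by_contra x
    exact k ⟨hP, t, fun p z e => x ⟨p, z, e⟩⟩
  have hp := pT P hP p e
  have eo : ∀ x : L, P.ord (algebraMap L K x) = mu P p * p.ord x := e.ord
  have e1 : ∑ p' ∈ N, n p' * wd b s p' (a p') P =
      ∑ j, (∑ p' ∈ N, n p' * (a p' j : ℤ)) * P.ord (algebraMap L K (s j)) -
        mu P p * if p ∈ N then n p else 0 := by
    rw [← Finset.sum_ite_eq, Finset.mul_sum]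
    simp only [Finset.sum_mul]
    rw [Finset.sum_comm, ← Finset.sum_sub_distrib]
    refine Finset.sum_congr rfl fun p' h' => ?_
    obtain ⟨P', k1, k2⟩ := ((np p').1 h').2.2
    rw [wd, mul_sub, Finset.mul_sum, eo (b.lam p'), S45.ord_lam ok (pT P' k1 p' k2) hp z]
    simp only [mul_assoc]
    split_ifs <;> ring
  have e2 : ∑ j, (∑ p' ∈ N, n p' * (a p' j : ℤ)) * P.ord (algebraMap L K (s j)) ≤
      ∑ j, u j * P.ord (algebraMap L K (s j)) := Finset.sum_le_sum fun j _ => by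
    by_cases x : p.ord (s j) = 0
    · rw [eo, x, mul_zero, mul_zero, mul_zero]
    · exact mul_le_mul_of_nonneg_right (h2 j ⟨P, hP, p, z, e, x⟩)
        (eo _ ▸ mul_nonneg e.e_pos.le ((mb.s0 j).2 p hp z))
  rw [o, e1, eo f, S45.ord_f ok hf hp z, if_pos ⟨P, hP, e⟩]
  by_cases x : p ∈ N
  · have := h1 p x P hP e
    rw [if_pos x]
    linarith
  · have pI : p ∉ I := fun w => x ((np p).2 ⟨w, z, P, hP, e⟩)
    rw [if_neg x, (st.od.od.od P hP p pI e).2.2,
      Finset.sum_eq_zero fun j _ => by rw [st.od.y0 P hP p pI e j (y0 j), mul_zero]]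
    linarith

end Vale.Agent.P283R.Tk
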