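import Vale.Agent.P283R.Tk.All
import Vale.Agent.P283R.Tk.Brb20

/-!
# P283R, block TK: at most `k + l` generators of the ring of sections of `k` divisors, the tier
-/

open Set

noncomputable section

namespace Vale.Agent.P283R.Tk.P28

open Vale.Agent.P287D Vale.Agent.P283M Vale.Agent.P297Z Cx Cy Cq
open Vale.Agent.P283R.To (mon)
open Wc (Sec Lk)
open Uq (Tz)

variable {L K : Type} [Field L] [Algebra ℂ L] [Field K] [Algebra ℂ K] [Algebra L K]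
  [IsScalarTower ℂ L K] {c ρ l n : ℕ} {b : Ba L c} {y : Fin ρ → K} {T : Set (Pl K)}

omit [Algebra ℂ K] [IsScalarTower ℂ L K] in
/-- the base after a localisation -/
theorem reb {γ : L} {S : Finset (Pl L)} {s : Fin l → L} (ok : b.Ok n)
    (mb : Ck.Mb c (Tz b.T γ) S s) : ∃ b' : Ba L c, K0 b' s ∧ b'.T = Tz b.T γ ∧ b'.s = b.s := by
  classical
  obtain ⟨j, j0, ej⟩ := mb.pri (fun p => p.ord b.h + b.e ⬝ᵥ b.D p)
    ((ok.cox.fin b.h b.e).subset fun p a => ⟨a.1.1, a.2⟩)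
  choose lam l0 hl using fun p => mb.pri (fun p' => if p' = p then 1 else 0)
    ((finite_singleton p).subset fun p' a => by_contra fun b => a.2 (if_neg b))
  obtain ⟨b', o, eT, eS, es, -, el, -, sg⟩ := Ck.bld40 L c l _ _ s b.s j
    (fun p => if p ∈ S then 1 else lam p) mb ok.fr j0
    (fun p a z => by rw [ok.can.2 p a.1, ej p a z, Int.cast_add])
    (fun p => by
      split_ifs
      exacts [one_ne_zero, l0 p])
    (fun p a => if_pos a) fun p _ a p' b b' => by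
      rw [if_neg a, hl p p' b b']
  refine ⟨b', ⟨eS ▸ o, eT ▸ eS ▸ mb, fun p a => ?_, sg⟩, eT, es⟩
  rw [el]
  exact if_pos (eS ▸ a)

/-- the localisation at a place -/
theorem loq (ok : b.Ok n) (le : b.N ≤ b.k + l) (fm : Fm b y T)
    (ft : ∀ G : Pl L → ℤ, {p | p ∈ b.T ∧ G p ≠ 0}.Finite →
      ∃ m ψ, ψ ≠ 0 ∧ ∀ p ∈ b.T, G p = p.ord ψ + m ⬝ᵥ b.D p) (Q : Pl K)
    (ov : ∀ a : K, a ≠ 0 → (∀ P ∈ T, 0 ≤ P.ord a) → 0 ≤ Q.ord a) :
    ∃ γ : L, γ ≠ 0 ∧ (∀ P ∈ T, 0 ≤ P.ord (algebraMap L K γ)) ∧ Q.ord (algebraMap L K γ) = 0 ∧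
      ∃ (S : Finset (Pl L)) (s : Fin (2 * (l + 1)) → L), Ck.Mb c (Tz b.T γ) S s := by
  obtain ⟨A, hA⟩ : ∃ A : Subalgebra ℂ L, ∀ x, x ∈ A ↔ ∀ p ∈ b.T, x ∈ p.ring :=
    ⟨{ carrier := {x | ∀ p ∈ b.T, x ∈ p.ring}
       mul_mem' := fun u v p a => mul_mem (u p a) (v p a)
       add_mem' := fun u v p a => add_mem (u p a) (v p a)
       algebraMap_mem' := fun r p _ => p.con r }, fun _ => Iff.rfl⟩
  have up : ∀ x ∈ A, ∀ P ∈ T, 0 ≤ P.ord (algebraMap L K x) := fun x hx P a => by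
    obtain z | ⟨p, z, e⟩ := fm.pg P a
    · exact (z.ord x).ge
    · exact e.ord x ▸ mul_nonneg e.e_pos.le (Pl.ord_nonneg_of_mem _ ((hA x).1 hx p z))
  obtain ⟨m, m1, m2⟩ := Oner.exists_cen (A.map (IsScalarTower.toAlgHom ℂ L K)) Q (by
    rintro _ ⟨x, hx, rfl⟩
    by_cases z : x = 0
    · rw [z]
      exact (map_zero (IsScalarTower.toAlgHom ℂ L K)).symm ▸ zero_mem _
    · exact Cb.mem_ord (ov _ ((map_ne_zero (algebraMap L K)).2 z) (up x hx)))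
  obtain ⟨γ, g, h⟩ := B20.loc (A := A)
    (m := m.comap ((IsScalarTower.toAlgHom ℂ L K).subalgebraMap A)) ok.ff ok.cox ft (fun x => by
      by_cases z : x = 0
      · exact z ▸ iff_of_true (zero_mem _) (zero_mem _)
      · rw [ok.cox.sec 0 x z, hA]
        simp only [zero_dotProduct, add_zero]
        exact ⟨fun u p a => Pl.ord_nonneg_of_mem _ (u p a), fun u p a => Cb.mem_ord (u p a)⟩)
    (m.comap_isPrime _) le
  obtain ⟨g1, g2⟩ := id g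
  exact ⟨γ, B20.nz0 g, up γ g1, Hr.cen_ord
    (t := (IsScalarTower.toAlgHom ℂ L K).subalgebraMap A ⟨γ, g1⟩) m2
    fun z => g2 (Ideal.mem_comap.2 z), h⟩

/-- the theorem on the tier -/
theorem wt (l n q : ℕ) (ε : ℝ) (q0 : 0 < q) (e0 : 0 < ε) : ∃ M : ℕ, 1 ≤ M ∧
    ∀ (L K : Type) [Field L] [Algebra ℂ L] [Field K] [Algebra ℂ K] [Algebra L K]
      [IsScalarTower ℂ L K] (c ρ N : ℕ) (u : Finset K) (Λ Γ Γ' : BD K) (b : Ba L c) (y : Fin ρ → K),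
      b.Ok N → b.N ≤ b.k + l → (∀ G : Pl L → ℤ, {p | p ∈ b.T ∧ G p ≠ 0}.Finite →
        ∃ m ψ, ψ ≠ 0 ∧ ∀ p ∈ b.T, G p = p.ord ψ + m ⬝ᵥ b.D p) → c + ρ = n + 1 →
      Dat n u Λ Γ Γ' → Fm b y (Tt n u Λ) →
      (∀ R ∈ Tt n u Λ, dsc (n + 1) Γ R ≤ 0 ∧ ∃ m : ℤ, q * dsc (n + 1) Γ R = m) →
      (∀ R, Ov u R → ε ≤ 1 + dsc (n + 1) Γ R) → NefO n K u (-Γ) → Cpl n M u Λ Γ := by
  obtain ⟨m, m2, H⟩ := Tk.pq (2 * (l + 1)) (n + 1) q ε q0 e0
  refine ⟨q * m, Nat.mul_pos q0 (by omega), ?_⟩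
  intro L K _ _ _ _ _ _ c ρ N u Λ Γ Γ' b y ok le ft hn a fm hi lc nf
  have avt := Wc.avr95 Wc.cox36 Wc.loc24 n K u Λ Γ Γ' a q ε
  obtain ⟨g, κ, lk, pk⟩ := cdr42 cz60 (Wc.avr95 Wc.cox36 Wc.loc24) n K u Λ Γ Γ' a L _ q c ρ ε b y
    q0 e0 ok hn fm hi lc nf
  refine Wc.bkr64 Wc.cox36 n K u Λ Γ Γ' a q m _ g κ q0 m2 lk fun Q o => ?_
  have ov := fun x x0 hx => Wc.ovq22 n K u Λ Γ Γ' a Q x o x0 hx
  generalize Tt n u Λ = T at *
  obtain ⟨γ, γ0, g1, g2, S, s, mb⟩ := loq ok le fm ft Q ov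
  obtain ⟨b', kk, eT, es⟩ := reb ok mb
  have G0 : algebraMap L K γ ≠ 0 := (map_ne_zero _).2 γ0
  obtain ⟨X, hX⟩ : ∃ X : Set (Pl K), ∀ P, P ∈ X ↔ P ∈ T ∧ P.ord (algebraMap L K γ) ≠ 0 :=
    ⟨{P | _}, fun _ => Iff.rfl⟩
  have Xf : X.Finite := (fm.fin _).subset fun P => (hX P).1
  have hz : ∀ (P : Pl K) (φ : L), φ ≠ 0 → Hz L y P → P.ord (algebraMap L K φ) = 0 :=
    fun P φ φ0 z => by simpa [hm, mon] using z φ 0 φ0
  have p1 := drp47 L K c ρ b y T _ _ q ε g κ X pk Xf fun P x z => ((hX P).1 x).2 (hz P γ γ0 z)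
  have h0 := ok.can.1
  have h1 := kk.ok.can.1
  obtain ⟨j, hj⟩ : ∃ j, j = algebraMap L K (b.h / b'.h) := ⟨_, rfl⟩
  have j0 : j ≠ 0 := hj ▸ (map_ne_zero _).2 (div_ne_zero h0 h1)
  have ez : ∀ P, cz b' y P = cz b y P + P.ord j := fun P => by
    rw [cz, cz, es, hj, map_div₀, Pl.ord_div _ ((map_ne_zero _).2 h0) ((map_ne_zero _).2 h1)]
    ring
  have eg : ∀ P : Pl K, P.ord (g * j ^ q) = P.ord g + q * P.ord j := fun P => by
    rw [Pl.ord_mul _ lk.g0 (pow_ne_zero _ j0), Pl.ord_pow]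
  have jz : ∀ P, Hz L y P → P.ord j = 0 := fun P z => hj ▸ hz P _ (div_ne_zero h0 h1) z
  have fc : {P | P ∈ T ∧ cz b' y P ≠ 0}.Finite :=
    (fm.finc.union (fm.fin j)).subset fun P x => by_contra fun w => x.2 (by
      simp only [mem_union, mem_ofPred_eq, x.1, true_and, not_or, not_not] at w
      rw [ez, w.1, w.2, add_zero])
  have lk' : Lk n q Γ (cz b' y) T (g * j ^ q) κ := by
    obtain ⟨i, i0, e⟩ := lk.cn
    refine ⟨⟨i / j, div_ne_zero i0 j0, fun P => ?_⟩, fc, lk.fk, mul_ne_zero lk.g0 (pow_ne_zero _ j0),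
      fun P x => ?_⟩
    · rw [e, ez, Pl.ord_div _ i0 j0]
      push_cast
      ring
    · rw [lk.eq P x, ez, eg]
      push_cast
      ring
  have av := avt _ _ κ q0 e0 lk' (fun R x => (hi R x).1) lc nf
  have F := p1.fm
  have X0 : ∀ P ∈ X, 0 < P.ord (algebraMap L K γ) := fun P x =>
    (g1 P ((hX P).1 x).1).lt_of_ne' ((hX P).1 x).2
  obtain ⟨φ, φ0, k1, k2⟩ := H L K c ρ b' y (T \ X) s _ (g * j ^ q) κ Q kk
    ⟨kk.ok, hn, ⟨F.ext, F.fin, fc.subset fun P x => ⟨x.1.1, x.2⟩, F.inv, F.lau, F.eqn,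
      fun P x z => by rw [ez, F.kt P x z, jz P z, add_zero],
      F.mis.subset fun p x => ⟨(eT ▸ x.1 : p ∈ Tz b.T γ).1, x.2⟩, fun P x =>
        (F.pg P x).imp_right fun ⟨p, v, w⟩ => ⟨p, eT ▸ ⟨v, by
          have := not_not.1 fun z => x.2 ((hX P).2 ⟨x.1, z⟩)
          rw [w.ord] at this
          exact (mul_eq_zero.1 this).resolve_left w.e_pos.ne'⟩, w⟩⟩, lk'.g0,
      fun P x z => by
        rw [eg, jz P z, mul_zero, add_zero]
        exact p1.reg P x z, p1.fin, fun P x => by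
        have := p1.eff P x
        rw [ez, eg]
        linarith, fun R ξ r => by
        have := p1.hw R ξ r
        rw [ez, eg]
        push_cast
        linarith, fun a h₀ X' k e t a0 h0 f' ie => by
        rw [Set.sdiff_sdiff]
        exact av a h₀ (X ∪ X') k e t a0 h0 (Xf.union f') ie⟩
    fun x x0 hx => by
      obtain ⟨N, hN⟩ := (Xf.image fun P => -P.ord x).bddAbove
      have := ov (x * algebraMap L K γ ^ N.toNat) (mul_ne_zero x0 (pow_ne_zero _ G0)) fun P v => by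
        rw [Pl.ord_mul _ x0 (pow_ne_zero _ G0), Pl.ord_pow]
        by_cases w : P ∈ X
        · have a1 := hN (mem_image_of_mem _ w)
          have a2 := X0 P w
          have a3 := Int.self_le_toNat N
          have a4 := Int.natCast_nonneg N.toNat
          nlinarith
        · exact add_nonneg (hx P ⟨v, w⟩) (mul_nonneg (Int.natCast_nonneg _) (g1 P v))
      rwa [Pl.ord_mul _ x0 (pow_ne_zero _ G0), Pl.ord_pow, g2, mul_zero, add_zero] at this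
  refine (Wc.rpr65 K q _ _ T _ κ Q lk.g0).1 X _ Xf G0 g1 X0 g2 ⟨φ, φ0, k1, ?_⟩
  rw [Pl.ord_mul _ (pow_ne_zero _ lk'.g0) φ0, Pl.ord_pow, eg, ez] at k2
  rw [Pl.ord_mul _ (pow_ne_zero _ lk.g0) φ0, Pl.ord_pow]
  linarith

end Vale.Agent.P283R.Tk.P28
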