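import Vale.Agent.P283R.Tk.Pl28
import Vale.Agent.P283R.Lz.Wx28

/-!
# P283R, block TK: at most `k + l` generators of the ring of sections of `k` divisors
-/

open Set CategoryTheory AlgebraicGeometry

noncomputable section

namespace Vale.Agent.P283R.Tk.P28

open Vale.Agent.P287D Vale.Agent.P283M Vale.Agent.P297Z Cx Cy Cq Sg

section

open Vale.Agent.P283M.Stm Vale.Agent.P283M.Stm.Var Vale.Agent.P283M.Br
open Vale.Agent.P283R.Gl Vale.Agent.P283R.Sg.T20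

/-- the base -/
theorem base {X : Var} {l k : ℕ} (D : Fin k → X.PrimeDiv →₀ ℤ)
    (g : Sl.GradedGen l (Sec (pls (X := X) ⊤) (dvs D)))
    (h : ∀ F : X.PrimeDiv, ∃ (m : Fin k → ℤ) (φ : X.K), φ ≠ 0 ∧
      ∀ E, Finsupp.single F (1 : ℤ) E = ord φ E + ∑ i, m i * D i E) :
    ∃ (c N : ℕ) (b : Ba X.K c), b.Ok N ∧ b.T = range Gl.pq ∧ b.N = l ∧ b.k = k ∧
      ∀ G : Pl X.K → ℤ, {p | p ∈ b.T ∧ G p ≠ 0}.Finite →
        ∃ m ψ, ψ ≠ 0 ∧ ∀ p ∈ b.T, G p = p.ord ψ + m ⬝ᵥ b.D p := by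
  classical
  obtain ⟨c, hK⟩ := Md.exists_ff X
  obtain ⟨y, hy, -⟩ := id hK
  choose u v v0 hv using h
  have ft : ∀ G : Pl X.K → ℤ, {P | P ∈ pls (X := X) ⊤ ∧ G P ≠ 0}.Finite → ∃ m ψ, ψ ≠ 0 ∧
      ∀ P ∈ pls (X := X) ⊤, G P = P.ord ψ + m ⬝ᵥ dvs D P := fun G f => by
    have f' : {E : X.PrimeDiv | G (Gl.pq E) ≠ 0}.Finite :=
      (f.preimage pq_inj.injOn).subset fun E a => ⟨⟨E, trivial, rfl⟩, a⟩
    refine ⟨∑ F ∈ f'.toFinset, G (Gl.pq F) • u F, ∏ F ∈ f'.toFinset, v F ^ G (Gl.pq F),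
      Finset.prod_ne_zero_iff.2 fun F _ => zpow_ne_zero _ (v0 F), ?_⟩
    rintro _ ⟨E, -, rfl⟩
    rw [Pl.ord_prod _ _ fun F _ => zpow_ne_zero _ (v0 F), sum_dotProduct, ← Finset.sum_add_distrib,
      Finset.sum_congr rfl (g := fun F => G (Gl.pq F) * Finsupp.single F (1 : ℤ) E) fun F _ => by
        rw [Pl.ord_zpow, smul_dotProduct, smul_eq_mul, dot, ← pq_ord, hv, mul_add],
      Finset.sum_eq_single E (fun F _ n => by rw [Finsupp.single_eq_of_ne n.symm, mul_zero])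
        fun n => by rw [not_not.1 fun z => n (f'.mem_toFinset.2 z), zero_mul],
      Finsupp.single_eq_same, mul_one]
  let S := Finset.univ.biUnion fun i => (D i).support
  have sz : ∀ E ∉ S, ∀ i, D i E = 0 := fun E n i => by_contra fun z =>
    n (Finset.mem_biUnion.2 ⟨i, Finset.mem_univ i, Finsupp.mem_support_iff.2 z⟩)
  obtain ⟨σ, a, cx⟩ := B20.cox (fun φ m => fn ((fin X φ).union S.finite_toSet) fun E a =>
    by_contra fun b => a (by
      rw [mem_union, not_or] at b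
      rw [dot, Finset.sum_eq_zero fun i _ => by rw [sz E b.2 i, mul_zero], ← pq_ord,
        not_not.1 b.1, add_zero])) ft g
  choose z hz using Cb.kap_int y
  obtain ⟨e, j, j0, ej⟩ := ft z (fn (B20.kfin hK hy) fun E a b => a (by
    rw [hz] at b
    exact_mod_cast b))
  choose dg lam l0 hl using fun p => ft (fun p' => if p' = p then 1 else 0)
    ((finite_singleton p).subset fun p' a => by_contra fun b => a.2 (if_neg b))
  refine ⟨c, l + (S.image Gl.pq).card, ⟨k, l, pls ⊤, dvs D, σ, a, y, j, e, lam, dg, S.image Gl.pq⟩,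
    ⟨hK, Cb.fr_of hK hy, cx, ⟨j0, fun P p => ?_⟩, l0, fun p _ p' b => (hl p p' b).symm, ?_,
      Nat.le_add_right _ _, Nat.le_add_left _ _⟩,
    Set.ext fun P => ⟨fun ⟨E, _, e⟩ => ⟨E, e⟩, fun ⟨E, e⟩ => ⟨E, trivial, e⟩⟩, rfl, rfl, ft⟩
  · rw [hz, ej P p, Int.cast_add]
  · rintro _ ⟨E, -, rfl⟩ b
    funext i
    exact (Cox.up_eq _ (pq_is E).dom).trans (sz E (fun w => b (Finset.mem_image_of_mem _ w)) i)

end

end Vale.Agent.P283R.Tk.P28

namespace Vale.Agent.P283R.Lz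

open Vale.Agent.P287D Vale.Agent.P283M Vale.Agent.P297Z Cx Cy Cq
open Vale.Agent.P283M.Br Vale.Agent.P283R.Gl Sl Sl.Var

/-- orbit spaces with few Cox generators -/
theorem on_tx (m : ℕ → ℕ) : OnN fun d _ _ f _ _ z => ∃ V, z.In V ∧ TCox (m d) (pre f V) := by
  intro d hd ε hε R hR
  obtain ⟨n, rfl⟩ : ∃ n, d = n + 1 := ⟨d - 1, by omega⟩
  obtain ⟨M, M1, H⟩ := Tk.P28.wt (m (n + 1)) n (∏ r ∈ R, r.den) ε
    (Finset.prod_pos fun r _ => r.den_pos) hε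
  refine ⟨M, M1, fun X Z f ω B z a b c e s u
    ⟨u1, u2, W, zW, Y, φ, r, y, ch, pg, k, D, p1, p2⟩ => (has_iff f ω B M z).2 ?_⟩
  obtain ⟨x, hx⟩ := s.2.2.1.surj z
  obtain ⟨_, -, -, -, ⟨ψ, rfl, ind⟩, -⟩ := ch x (show f x ∈ W from hx ▸ zW)
  obtain ⟨c', N, bs, ok, bT, e1, e2, ft⟩ := Tk.P28.base (X := Y.o) (l := k + m (n + 1)) D
    ((congrArg (GradedGen _) (funext fun m => Set.ext fun φ =>
      Sg.T20.sec (X := Y.o) (W := ⊤) D m φ)).mpr p1)
    fun F => let ⟨m, φ, φ0, e⟩ := p2 F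
      ⟨m, φ, φ0, fun E => Int.cast_injective (α := ℚ) (.trans (by
        by_cases w : F = E
        · subst w
          exact (congrArg _ Finsupp.single_eq_same).trans (Finsupp.single_eq_same (b := 1)).symm
        · exact (congrArg _ (Finsupp.single_eq_of_ne' w)).trans
            (Finsupp.single_eq_of_ne' (b := 1) w).symm) (e E trivial))⟩
  let i3 : Algebra Y.o.K X.o.K := ψ.toRingHom.toAlgebra
  have i4 : IsScalarTower ℂ Y.o.K X.o.K := .of_algebraMap_eq fun c => (ψ.commutes c).symm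
  obtain ⟨V, v0, hV, zV, co⟩ := @sum_co X.o Y.o Z.o f z W r i3 i4 y s zW
    ⟨algebraicIndependent_iff.2 ind, fun x hx =>
      let ⟨U, a, b, c, e⟩ := ch x hx; ⟨U, a, b, c, e.2⟩⟩
  have fm := Ck.O90.fam (W := pre f V) (x := x) (show f x ∈ V from hx ▸ zV) ψ co
    (fun E e => pg E (v0 e)) ok bT
  exact H42.sch (X := X.o) (Z := Z.o) M1 (fun v Λ Γ Γ' hK da T co lc nf =>
    @H Y.K X.K _ _ _ _ i3 i4 c' r N v Λ Γ Γ' bs y ok (by omega) ft
      (Nat.cast_injective (fm.ext.ff'.trdeg.symm.trans hK.trdeg)) da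
      ((Set.ext T : Cx.Tt n v Λ = {P | ∃ E : X.o.PrimeDiv, E.1 ∈ pre f V ∧ Gl.pq E = P}) ▸ fm)
      co lc nf) a b ((pair_iff _ _ ω B).1 c) (C3.den e) s
    ((fanoType_iff f ω).1 u1) ((nefOver_iff f _).1 u2) u hV zV

end Vale.Agent.P283R.Lz
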