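import Vale.Agent.P283R.Tk.St

/-!
# P283R, block TK: the reduction to the state
-/

open Set

noncomputable section

namespace Vale.Agent.P283R.Tk

open Vale.Agent.P287D Vale.Agent.P283M Cx Cy Cq Ck

/-- **PQR** -/
theorem pqr75 : PQR := by
  intro sel fin l d q ε hq hε
  obtain ⟨C, hC⟩ := sel l d
  obtain ⟨m, m2, H⟩ := fin C l d q ε hq hε
  refine ⟨m, m2, ?_⟩
  intro L K _ _ _ _ _ _ c ρ b y T s n g κ Q kk pk ov
  obtain ⟨G, I, rfl, o⟩ := orr24 cz60 L K c ρ b y T n d q ε g κ pk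
  obtain ⟨X, χ, ξ, Xf, XK, χ0, χT, χX, χQ, rep, pos⟩ :=
    gt85 L K c ρ b y T n G κ I Q pk.ok pk.fm o ov
  have st : St d q ε b s y (T \ X) G κ Q ξ I := ⟨hε, hq, kk,
    ⟨n, drp47 L K c ρ b y T n d q ε _ κ X pk Xf fun P h => (XK h).2.1⟩,
    ⟨fun p hb hp => let ⟨P, a, e⟩ := o.ex p hb hp; ⟨P, ⟨a, fun h => (XK h).2.2 p hp e⟩, e⟩,
      ⟨o.od.co, fun P h => o.od.od P h.1⟩, fun P h => o.y0 P h.1, fun P h => o.g0 P h.1, o.s0⟩,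
    rep, pos⟩
  obtain ⟨ξ', D, J, a, vx, cJ, se⟩ := hC L K c ρ b y _ s q ε G κ Q ξ I st
  exact (Wc.rpr65 K q _ _ T _ κ Q pk.g0).1 X χ Xf χ0 χT χX χQ
    (H L K c ρ b y _ s G κ Q ξ ξ' I D J a st vx cJ se)

end Vale.Agent.P283R.Tk
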