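import Vale.Agent.P283R.Tk.St
import Vale.Agent.P283R.Ck.Bld40

/-!
# P283R, block TK: the row RS1
-/

open Set

noncomputable section

namespace Vale.Agent.P283R.Tk

open Vale.Agent.P287D Vale.Agent.P283M Cx Cy Cq Ck

theorem rs31 : RS1 := by
  intro L _ _ c l b s Δ kk sub
  have i1 : ∀ p ∈ b.T \ (↑b.S \ ↑Δ), p ∉ Δ → p ∉ b.S := fun p a n z => a.2 ⟨z, n⟩
  have i2 : ∀ p ∈ b.T, p ∉ b.S → p ∈ b.T \ (↑b.S \ ↑Δ) := fun p a n => ⟨a, fun z => n z.1⟩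
  have mb : Mb c (b.T \ (↑b.S \ ↑Δ)) Δ s :=
    ⟨kk.mb.ff, fun p hp => ⟨kk.mb.sub (sub hp), fun z => z.2 hp⟩,
      fun φ => (kk.mb.fin φ).subset fun p hp => ⟨hp.1.1, hp.2⟩, fun G hG => by
        obtain ⟨g, g0, h⟩ := kk.mb.pri G ((hG.union b.S.finite_toSet).subset fun p hp =>
          (em (p ∈ b.S)).symm.imp (fun n => ⟨i2 p hp.1 n, hp.2⟩) id)
        exact ⟨g, g0, fun p a n => h p a.1 (i1 p a n)⟩,
      fun j => ⟨(kk.mb.s0 j).1, fun p a n => (kk.mb.s0 j).2 p a.1 (i1 p a n)⟩, fun g hg =>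
        Submodule.span_mono (fun x hx => And.intro hx.1 fun p hp => hx.2 p (sub hp))
          (kk.mb.mono g fun p a n => hg p (i2 p a n) fun z => n (sub z))⟩
  obtain ⟨b', a1, a2, a3, a4, a5, a6, a7, -⟩ := bld40 L c l _ Δ s b.s b.h b.lam mb kk.ok.fr
    kk.ok.can.1 (fun p a n => by
      have := kk.ok.can.2 p a.1
      rwa [kk.ok.sup p a.1 (i1 p a n), dotProduct_zero, Int.cast_zero, add_zero] at this)
    kk.ok.l0 (fun p hp => kk.one p (sub hp)) fun p a _ p' a' n' => by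
      have := kk.ok.lam p a.1 p' a'.1
      rwa [kk.ok.sup p' a'.1 (i1 p' a' n'), dotProduct_zero, add_zero] at this
  exact ⟨b', a1, a2, a3, a4, a5, a6, a7⟩

end Vale.Agent.P283R.Tk
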