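import Vale.Agent.P283R.Tk.St
import Vale.Agent.P283R.Ck.Bld40

/-!
# P283R, block TK: the smaller base; the reduction to the state
-/

open Set

noncomputable section

namespace Vale.Agent.P283R.Tk

open Vale.Agent.P287D Vale.Agent.P283M Cx Cy Cq Ck

/-- **RS1** -/
theorem rs163 : RS1 := by
  classical
  intro L _ _ c l b s Δ kk sub
  have mb := kk.mb
  have ok := kk.ok
  have off : ∀ p ∈ b.T \ (↑b.S \ ↑Δ), p ∉ Δ → p ∈ b.T ∧ p ∉ b.S := fun p h n =>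
    ⟨h.1, fun z => h.2 ⟨z, n⟩⟩
  obtain ⟨b', h1, h2, h3, h4, h5, h6, h7, -⟩ := bld40 L c l (b.T \ (↑b.S \ ↑Δ)) Δ s b.s b.h b.lam
    ⟨mb.ff, fun p hp => ⟨mb.sub (sub hp), fun z => z.2 hp⟩,
      fun φ => (mb.fin φ).subset fun p h => ⟨h.1.1, h.2⟩, fun G hG => by
        obtain ⟨g, g0, hg⟩ := mb.pri G ((hG.union b.S.finite_toSet).subset fun p h => by
          by_cases z : p ∈ b.S
          · exact .inr z
          · exact .inl ⟨⟨h.1, fun w => z w.1⟩, h.2⟩)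
        exact ⟨g, g0, fun p hp n => hg p (off p hp n).1 (off p hp n).2⟩,
      fun j => ⟨(mb.s0 j).1, fun p hp n => (mb.s0 j).2 p (off p hp n).1 (off p hp n).2⟩,
      fun g hg => by
        refine Submodule.span_mono ?_
          (mb.mono g fun p hp n => hg p ⟨hp, fun w => n w.1⟩ fun w => n (sub w))
        exact fun x hx => ⟨hx.1, fun p hp => hx.2 p (sub hp)⟩⟩
    ok.fr ok.can.1 (fun p hp n => by
      have h := ok.can.2 p (off p hp n).1
      rw [ok.sup p (off p hp n).1 (off p hp n).2] at h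
      simpa using h) ok.l0 (fun p hp => kk.one p (sub hp)) (fun p hp n p' hp' n' => by
      have h := ok.lam p (off p hp n).1 p' (off p' hp' n').1
      rwa [ok.sup p' (off p' hp' n').1 (off p' hp' n').2, dotProduct_zero, add_zero] at h)
  exact ⟨b', h1, h2, h3, h4, h5, h6, h7⟩

/-- **PQR** -/
theorem pqr63 : PQR := by
  intro sel fin l d q ε hq hε
  obtain ⟨C, hC⟩ := sel l d
  obtain ⟨m, m2, H⟩ := fin C l d q ε hq hε
  refine ⟨m, m2, fun L K _ _ _ _ _ _ c ρ b y T s n g κ Q k0 pk ov => ?_⟩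
  obtain ⟨G, I, rfl, o⟩ := orr24 cz60 L K c ρ b y T n d q ε g κ pk
  obtain ⟨X, χ, ξ, Xf, XK, χ0, χT, χX, χQ, rep, pos⟩ := gt85 L K c ρ b y T n G κ I Q pk.ok pk.fm o ov
  have st : St d q ε b s y (T \ X) G κ Q ξ I := ⟨hε, hq, k0,
    ⟨n, drp47 L K c ρ b y T n d q ε _ κ X pk Xf fun P h => (XK h).2.1⟩,
    ⟨fun p hb hp => let ⟨P, a, e⟩ := o.ex p hb hp; ⟨P, ⟨a, fun h => (XK h).2.2 p hp e⟩, e⟩,
      ⟨o.od.co, fun P h => o.od.od P h.1⟩, fun P h => o.y0 P h.1, fun P h => o.g0 P h.1, o.s0⟩,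
    rep, pos⟩
  obtain ⟨ξ', D, J, a, vx, cJ, se⟩ := hC L K c ρ b y _ s q ε G κ Q ξ I st
  exact (Wc.rpr65 K q _ _ T _ κ Q pk.g0).1 X χ Xf χ0 χT χX χQ
    (H L K c ρ b y _ s G κ Q ξ ξ' I D J a st vx cJ se)

end Vale.Agent.P283R.Tk
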