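import Vale.Agent.P283R.Tk.Wgr36
import Vale.Agent.P283R.Tk.Wre16

/-!
# P283R, block TK: the rows WRE and WGP
-/

open Set

noncomputable section

namespace Vale.Agent.P283R.Tk

open Vale.Agent.P287D Vale.Agent.P283M Vale.Agent.P297Z T3

/-- **WRE** -/
theorem wre36 : WRE := by
  intro F _ _ n S p A hp
  classical
  obtain ⟨v, e, hv⟩ := S79.coo A p
  refine ⟨n + 1, fun ι _ z ω hz => ?_⟩
  let ε := Fintype.equivFin (v ⊕ ι)
  let t : v ⊕ ι → F := Sum.elim (↑) fun i => z i
  let w : v ⊕ ι → ℕ := Sum.elim 0 ω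
  have tS : ∀ i, t i ∈ S := by
    rintro (a | i)
    exacts [e ▸ Algebra.subset_adjoin a.2, (z i).2]
  obtain ⟨R, e', M, σ, e0, M0, c, g, inj, xi, k1, k2⟩ := W16.wre A hp (t ∘ ε.symm)
    (le_antisymm (e.ge.trans (Algebra.adjoin_mono fun a ha => ⟨ε (.inl ⟨a, ha⟩), by simp [t]⟩))
      (Algebra.adjoin_le (by rintro _ ⟨i, rfl⟩; exact tS _)))
    (fun a ⟨i, u⟩ => by
      rcases h : ε.symm i with b | j
      · refine hv a ?_
        rw [← u, Function.comp_apply, h]
        exact b.2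
      · rw [Function.comp_apply, h] at u
        exact (Subtype.ext u : z j = a) ▸ hz j)
    (fun i => w (ε.symm i) + 1) fun _ => Nat.succ_pos _
  refine ⟨R, M, e', (t ∘ ε.symm) ∘ σ, M0, e0, c, fun i i0 => ?_, fun i => tS _, xi, ?_⟩
  · have := g (ε (.inr i)) (by simpa [t] using i0)
    simp only [Function.comp_apply, Equiv.symm_apply_apply, t, w, Sum.elim_inr] at this
    push_cast at this
    have : (0 : ℤ) ≤ e' := Int.natCast_nonneg _
    linarith
  · have s1 : ∑ i, w (ε.symm (σ i)) ≤ ∑ i, ω i := by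
      have := Finset.sum_le_sum_of_subset (f := w)
        (Finset.subset_univ (Finset.univ.image (ε.symm ∘ σ)))
      rw [Finset.sum_image fun _ _ _ _ h => (ε.symm.injective.comp inj) h, Fintype.sum_sum_type]
        at this
      simpa [w] using this
    have s2 : (M : ℤ) * ∑ i, R.ord ((t ∘ ε.symm) (σ i)) ≤ (n + 1 + ∑ i, ω i : ℕ) * e' := by
      rw [Finset.mul_sum, ← Finset.sum_congr rfl fun i _ => k1 i, ← Finset.mul_sum, mul_comm]
      refine mul_le_mul_of_nonneg_right ?_ (Int.natCast_nonneg _)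
      rw [← Nat.cast_sum, Finset.sum_add_distrib]
      simp only [Finset.sum_const, Finset.card_univ, Fintype.card_fin, smul_eq_mul, mul_one]
      exact_mod_cast (by omega : ∑ i, w (ε.symm (σ i)) + (n + 1) ≤ n + 1 + ∑ i, ω i)
    rw [k2]
    exact_mod_cast s2

/-- **WGP** -/
theorem wgp36 : WGP := wgr36 wre36

end Vale.Agent.P283R.Tk
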