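import Vale.Agent.P283R.Cq.Gpr36
import Vale.Agent.P283R.Tk.St

/-!
# P283R, block TK: the weighted place over a point of the Cox space of the base
-/

open Set

noncomputable section

namespace Vale.Agent.P283R.Tk

open Vale.Agent.P287D Vale.Agent.P283M Vale.Agent.P297Z Cx Cy Cq Cq.G36
open Vale.Agent.P283R.To (mon)

/-- **WGR** -/
theorem wgr30 : WGR := by
  intro wr L K _ _ _ _ _ _ c _ b _ _ l Q x Em ok hx fE hE
  classical
  obtain ⟨F, _, _, _, _, t, X⟩ := Cx.ext L c b.k ok.ff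
  have t0 := X.ind.ne_zero
  have A := Cx.aff L F c b.k b.s t X ok.fr _ _ _ _ _ ok.cox
  have ls : ∀ p ∈ b.T, hm t (b.lam p) (b.dg p) ∈ Rg b.σ b.a t := fun p u =>
    mem_Rg t0 ((ok.cox.sec _ _ (ok.l0 p)).2 fun p' v => by
      rw [ok.lam p u p' v]
      split_ifs <;> omega)
  have := fE.fintype
  have i0 : ∀ {φ : L}, φ ≠ 0 → algebraMap L K φ ≠ 0 := fun h => (map_ne_zero _).2 h
  obtain ⟨m, mx, m1, m2⟩ := pt X.ind A.fg (fun φ e => (Q.ord (algebraMap L K φ) : ℝ) + pa e x)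
    (fun φ ψ e e' u v => by
      simp only [map_mul, Pl.ord_mul _ (i0 u) (i0 v), pa, Pi.add_apply, Int.cast_add, add_mul,
        Finset.sum_add_distrib]
      ring)
    (fun φ ψ e u v s h h' => by
      have := Pl.min_ord_le_add Q.toPlace (i0 u) (i0 v) (map_add (algebraMap L K) φ ψ ▸ i0 s)
      rw [← map_add, min_le_iff] at this
      rcases this with r | r
      · exact h.trans_le (add_le_add_left (Int.cast_le.2 r) _)
      · exact h'.trans_le (add_le_add_left (Int.cast_le.2 r) _))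
    (fun r => by
      rw [← IsScalarTower.algebraMap_apply, Pl.ord_const]
      simp [pa]) hx (ι := Em) Finset.univ
    (fun p => ⟨_, ls p (hE p p.2).1⟩) fun p _ => ⟨_, _, ok.l0 p, rfl, (hE p p.2).2⟩
  have h0 := ok.can.1
  have ed : ∀ R : Pl F, ld (zt b.s t) 1 (hm t b.h (b.e + 1)) R =
      lt b.s t R - R.ord (hm t b.h b.e) := fun R => by
    simp only [ld, lt, ord_hm t0 R h0, Pi.add_apply, Pi.one_apply, add_mul, one_mul,
      Finset.sum_add_distrib]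
    push_cast
    ring
  by_cases z : c + b.k = 0
  · obtain rfl : c = 0 := by omega
    obtain k0 : b.k = 0 := by omega
    refine ⟨0, fun ι _ φ δ ω hφ => ⟨0, 1, one_pos, fun _ _ => rfl, fun _ _ => rfl, fun j => ?_,
      .inl ⟨fun _ _ => by simp, by simp [Finset.sum_nonneg]⟩⟩⟩
    have : IsEmpty (Fin b.k) := ⟨fun i => by have := i.2; omega⟩
    obtain ⟨s, hs⟩ := Pb.cst_sur ok.ff (φ j)
    have u := (hφ j).2.2
    rw [← hs, ← IsScalarTower.algebraMap_apply, Pl.ord_const] at u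
    simp [pa] at u
  have wr' : ∀ d, d ≠ 0 → ∀ (y : Fin d → F) (h : F), Aff d (Rg b.σ b.a t) → Frm y → h ≠ 0 →
      (∀ R, PDat (Rg b.σ b.a t) m R → ld y 1 h R ≤ 1) → ∃ C : ℕ, ∀ (ι : Type) [Fintype ι]
        (z : ι → Rg b.σ b.a t) (ω : ι → ℕ), (∀ i, z i ∈ m) → ∃ (R : Pl F) (M e : ℕ), 0 < M ∧
        0 < e ∧ Cen (Rg b.σ b.a t) m R ∧
        (∀ i, (z i : F) ≠ 0 → (e * ω i : ℤ) ≤ M * R.ord (z i : F)) ∧
        M * ld y 1 h R ≤ (C + ∑ i, ω i : ℕ) * e := fun d d0 y h A hy h0 bd => by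
    obtain ⟨n, rfl⟩ := Nat.exists_eq_succ_of_ne_zero d0
    obtain ⟨C, hC⟩ := wr F n _ m A mx
    refine ⟨C, fun ι _ z ω hz => ?_⟩
    obtain ⟨R, M, e, x, M0, e0, cn, ge, xS, xi, le⟩ := hC ι z ω hz
    refine ⟨R, M, e, M0, e0, cn, ge, le_trans (mul_le_mul_of_nonneg_left (Wd.secb45 _ 1 F _ m y x h
      one_pos A (Cx.nor L F c b.k b.s t X ok.fr _ _ _ _ _ ok.cox) mx.isPrime hy xS xi h0 bd R cn)
      (Nat.cast_nonneg M)) ?_⟩
    exact_mod_cast le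
  obtain ⟨C, hC⟩ := wr' _ z _ _ A
    (zt_frm X ok.fr) (hm_ne t0 h0 (b.e + 1)) fun R ⟨q, _, u⟩ => by
      rw [ed]
      rcases Cx.pdv L F c b.k b.s t X ok.fr _ _ _ _ _ ok.cox R ⟨q, u⟩ with ⟨E, v, g⟩ | g
      · rw [g.lt, g.ord _ _ h0, ok.can.2 E v]
        push_cast
        linarith
      · rw [Cx.kah L F c b.k b.s t X ok.fr _ _ _ _ _ ok.cox R ⟨q, u⟩ g, g _ _ h0]
        simp
  refine ⟨C, fun ι _ φ δ ω hφ => ?_⟩
  obtain ⟨R, M, e, M0, e0, cn, ge, bd⟩ := hC ι (fun i => ⟨hm t (φ i) (δ i),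
    mem_Rg t0 ((ok.cox.sec _ _ (hφ i).1).2 (hφ i).2.1)⟩) ω fun i => m2 _ _ _ rfl (hφ i).2.2
  have hR : ∀ z ∈ Rg b.σ b.a t, z ∈ R.ring := fun z u => (cn ⟨z, u⟩).1
  obtain ⟨μ, μ0, μ1⟩ : ∃ μ : Pl L → ℕ, (∀ p ∉ b.T, μ p = 0) ∧
      ∀ p ∈ b.T, (μ p : ℤ) = R.ord (hm t (b.lam p) (b.dg p)) :=
    ⟨fun p => if p ∈ b.T then (R.ord (hm t (b.lam p) (b.dg p))).toNat else 0, fun p u => if_neg u,
      fun p u => by
        simp only [if_pos u]
        exact Int.toNat_of_nonneg (Pl.ord_nonneg_of_mem _ (hR _ (ls p u)))⟩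
  have ms := fun φ (u : φ ≠ 0) δ => mass t0 ok.cox ok.l0 ok.lam hR (fun p => μ p)
    (fun p u => by simp only [μ0 p u, Nat.cast_zero]) μ1 u δ
  have s1 : ∀ φ : L, φ ≠ 0 → ∑ᶠ p, (μ p : ℤ) * p.ord φ = R.ord (algebraMap L F φ) :=
    fun φ u => by simpa only [zero_dotProduct, add_zero, hm_deg0] using ms φ u 0
  have s2 : R.ord (hm t b.h b.e) =
      R.ord (algebraMap L F b.h) + ∑ p ∈ b.S, μ p * (b.e ⬝ᵥ b.D p) := by
    have := ms 1 one_ne_zero b.e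
    simp only [Pl.ord_one, zero_add] at this
    rw [finsum_eq_sum_of_support_subset _ (s := b.S) fun p u => by_contra fun v => by
      by_cases r : p ∈ b.T
      · exact right_ne_zero_of_mul u (by rw [ok.sup p r v, dotProduct_zero])
      · exact left_ne_zero_of_mul u (by rw [μ0 p r, Nat.cast_zero])] at this
    rw [this, ord_hm t0 R h0, ord_hm t0 R one_ne_zero, map_one, Pl.ord_one, zero_add]
  have bd' : M * (lt b.s t R - R.ord (algebraMap L F b.h)) ≤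
      (((C + ∑ i, ω i : ℕ) * e : ℤ) + ∑ p ∈ b.S, (M * μ p : ℕ) * (b.e ⬝ᵥ b.D p) : ℤ) := by
    rw [ed, s2] at bd
    push_cast at bd ⊢
    simp only [mul_assoc, ← Finset.mul_sum]
    linarith
  have sc : ∀ f : Pl L → ℤ, ∑ᶠ p, ((M * μ p : ℕ) : ℤ) * f p = M * ∑ᶠ p, (μ p : ℤ) * f p :=
    fun f => by
      rw [mul_finsum]
      simp only [Nat.cast_mul, mul_assoc]
  refine ⟨fun p => M * μ p, e, e0, fun p u => ?_, fun p u => by simp only [μ0 p u, mul_zero],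
    fun j => ?_, ?_⟩
  · have := Gav.ord_zero (hR _ (ls p (hE p u).1))
      (mt (cn ⟨_, ls p (hE p u).1⟩).2.2 (m1 ⟨p, u⟩ (Finset.mem_univ _)))
    have : μ p = 0 := by exact_mod_cast (μ1 p (hE p u).1).trans this
    simp only [this, mul_zero]
  · rw [sc, ms _ (hφ j).1]
    exact ge j (hm_ne t0 (hφ j).1 _)
  have M1 : (0 : ℝ) < M := Nat.cast_pos.2 M0
  rcases Cx.dwn L F c b.k b.s t X ok.fr R with ⟨u, v⟩ | ⟨P, u, v⟩
  · refine .inl ⟨fun φ r => by rw [sc, s1 φ r, Z60.of_trv u φ, mul_zero], ?_⟩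
    rw [Z60.of_trv u, Int.cast_zero, sub_zero] at bd'
    exact_mod_cast (mul_nonneg M1.le v).trans bd'
  · have p0 := Int.toNat_of_nonneg u.e_pos.le
    refine .inr ⟨P, M * (R.ord (algebraMap L F P.t)).toNat, Nat.mul_pos M0 (by have := u.e_pos; omega),
      fun φ r => by rw [sc, s1 φ r, Nat.cast_mul, p0, u.ord, mul_assoc], le_trans ?_ bd'⟩
    rw [Nat.cast_mul, mul_assoc]
    refine mul_le_mul_of_nonneg_left ?_ M1.le
    rw [← Int.cast_natCast, p0, u.ord b.h]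
    push_cast
    linarith

end Vale.Agent.P283R.Tk
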