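import Vale.Agent.P283R.Tk.St
import Vale.Agent.P283R.Tk.Spl45
import Vale.Agent.P283R.Ck.Bld40

/-!
# P283R, block TK: pages of mass zero (row ZM)
-/

open Set

noncomputable section

namespace Vale.Agent.P283R.Tk

open Vale.Agent.P287D Vale.Agent.P283M Vale.Agent.P297Z Cx Cy Cq Ck
open Vale.Agent.P283R.To (mon)

namespace Z40

variable {L K : Type} [Field L] [Algebra ℂ L] [Field K] [Algebra ℂ K] [Algebra L K] {c l ρ : ℕ}
  {b : Ba L c} {s : Fin l → L} {p : Pl L}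

omit [Algebra ℂ L] in
theorem ord_up (s0 : ∀ j, s j ≠ 0) (P : Pl K) (a : Fin l → ℕ) :
    P.ord (algebraMap L K (∏ j, s j ^ a j)) = ∑ j, (a j : ℤ) * P.ord (algebraMap L K (s j)) := by
  rw [← B40.ord_mon (s := fun j => algebraMap L K (s j)) fun j => (map_ne_zero _).2 (s0 j)]
  simp only [map_prod, map_pow]

/-- the defect over a page -/
theorem wd_at {P : Pl K} {F : Pl L} (h : At P F) (a : Fin l → ℕ) :
    wd b s p a P = mu P F * (∑ j, (a j : ℤ) * F.ord (s j) - F.ord (b.lam p)) := by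
  simp only [wd, h.ord (s _), h.ord (b.lam p), mu, mul_sub, Finset.mul_sum, mul_left_comm]

/-- the defect is the order of a homogeneous function -/
theorem wd_hm (s0 : ∀ j, s j ≠ 0) (l0 : b.lam p ≠ 0) (y : Fin ρ → K) (a : Fin l → ℕ) (P : Pl K) :
    P.ord (hm y ((∏ j, s j ^ a j) / b.lam p) 0) = wd b s p a P := by
  have m : mon y 0 = 1 := by simp [mon]
  rw [hm, m, mul_one, map_div₀, div_eq_mul_inv, Pl.ord_mul _ ((map_ne_zero _).2
    (Finset.prod_ne_zero_iff.2 fun j _ => pow_ne_zero _ (s0 j)))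
    (inv_ne_zero ((map_ne_zero _).2 l0)), Pl.ord_inv, ord_up s0, wd, sub_eq_add_neg]

end Z40

open Z40

/-- **ZM** -/
theorem zm40 : ZM := by
  intro L K _ _ _ _ _ _ c ρ b y T l s Q ξ p pT pS k0 fm rep
  classical
  have s0 : ∀ j, s j ≠ 0 := fun j => (k0.mb.s0 j).1
  have l0 := k0.ok.l0 p
  have sp := k0.mb.mono (b.lam p) fun F hF n => by
    rw [S45.ord_lam k0.ok pT hF n]
    split_ifs <;> simp
  refine ⟨?_, ?_, fun a su P hP => ?_, fun h a za hk => ?_⟩
  · obtain ⟨n, f, g, e⟩ := Submodule.mem_span_set'.1 sp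
    choose w hw using fun i => (g i).2.1
    refine ⟨Finset.univ.image w, fun a ha F hF => ?_, e ▸ sum_mem fun i _ =>
      Submodule.smul_mem _ _ (Submodule.subset_span ⟨w i, by simp, (hw i).symm⟩)⟩
    obtain ⟨i, -, rfl⟩ := Finset.mem_image.1 ha
    rw [← B40.ord_mon s0, ← hw]
    exact (g i).2.2 F hF
  · obtain ⟨_, ⟨⟨w, rfl⟩, k⟩, -, z⟩ := S45.ex_span Q sp l0
    exact ⟨w, fun F hF => B40.ord_mon s0 F w ▸ k F hF, by rw [wd, ← ord_up s0]; omega⟩
  · obtain t | ⟨F, -, t⟩ := fm.pg P hP.1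
    · simp [wd, Z60.of_trv t]
    · rw [wd_at t]
      exact mul_nonneg t.e_pos.le (sub_nonneg.2 (su F (by_contra fun n => hP.2.2 F n t)))
  · have e := rep.eq ((∏ j, s j ^ a j) / b.lam p) 0 (div_ne_zero
      (Finset.prod_ne_zero_iff.2 fun j _ => pow_ne_zero _ (s0 j)) l0)
    simp only [wd_hm s0 l0] at e
    have z : ∀ P, ξ P * (wd b s p a P : ℝ) = 0 := fun P => by
      by_cases x : ξ P = 0
      · rw [x, zero_mul]
      refine mul_eq_zero_of_right _ (Int.cast_eq_zero.2 ?_)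
      obtain ⟨hT, hz⟩ := rep.sup P x
      obtain t | ⟨F, FT, t⟩ := fm.pg P hT
      · simp [wd, Z60.of_trv t]
      by_cases FS : F ∈ b.S
      · exact hk P ⟨hT, hz, fun F' n t' => n (t.uniq t' ▸ FS)⟩ x
      · rw [wd_at t, S45.ord_lam k0.ok pT FT FS, if_neg fun k : F = p => x (h P (k ▸ t)), sub_zero,
          Finset.sum_eq_zero fun j _ => ?_, mul_zero]
        by_cases o : F.ord (s j) = 0
        · rw [o, mul_zero]
        · rw [za j ⟨P, hT, F, FS, t, o⟩, Nat.cast_zero, zero_mul]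
    rw [finsum_congr z, finsum_zero] at e
    exact_mod_cast e.symm

end Vale.Agent.P283R.Tk
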